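import Vale.Agent.P297Z.K.Mor

/-!
# P297: the category of spaces
-/

open scoped TensorProduct

noncomputable section

namespace Vale.Agent.P297Z

namespace Mor

variable {U V W X Y Z : Spc}

theorem eq_of {f g : Mor X Y} (h1 : ∀ r, f.φ r = g.φ r) (h2 : ∀ γ, f.ρ γ = g.ρ γ) : f = g := by
  obtain ⟨φ, ρ, _, _⟩ := f
  obtain ⟨φ', ρ', _, _⟩ := g
  obtain rfl : φ = φ' := AlgHom.ext h1
  obtain rfl : ρ = ρ' := AddMonoidHom.ext h2
  rfl

theorem comp_assoc (h : Mor Y Z) (g : Mor X Y) (f : Mor W X) :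
    (h.comp g).comp f = h.comp (g.comp f) := rfl

@[simp] theorem comp_id (f : Mor X Y) : f.comp (id X) = f := rfl

@[simp] theorem id_comp (f : Mor X Y) : (id Y).comp f = f := rfl

theorem onPt_comp (g : Mor Y Z) (f : Mor X Y) (z : X.Pt) :
    (g.comp f).onPt z = g.onPt (f.onPt z) := rfl

theorem onPt_id (z : X.Pt) : (id X).onPt z = z := rfl

@[simp] theorem fst_lift (f : Mor W X) (g : Mor W Y) : (fst X Y).comp (lift f g) = f :=
  eq_of (fun r => by
    show Algebra.TensorProduct.productMap f.φ g.φ (r ⊗ₜ 1) = _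
    rw [Algebra.TensorProduct.productMap_apply_tmul, map_one, mul_one]) fun γ => by
    show f.ρ γ + g.ρ 0 = _
    rw [map_zero, add_zero]

@[simp] theorem snd_lift (f : Mor W X) (g : Mor W Y) : (snd X Y).comp (lift f g) = g :=
  eq_of (fun r => by
    show Algebra.TensorProduct.productMap f.φ g.φ (1 ⊗ₜ r) = _
    rw [Algebra.TensorProduct.productMap_apply_tmul, map_one, one_mul]) fun γ => by
    show f.ρ 0 + g.ρ γ = _
    rw [map_zero, zero_add]

theorem prod_ext {f g : Mor W (X.prod Y)} (h1 : (fst X Y).comp f = (fst X Y).comp g)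
    (h2 : (snd X Y).comp f = (snd X Y).comp g) : f = g := by
  refine eq_of (fun r => ?_) fun γ => ?_
  · have a1 : ∀ x : X.R, f.φ (x ⊗ₜ 1) = g.φ (x ⊗ₜ 1) := fun x => congrArg (fun u => u.φ x) h1
    have a2 : ∀ y : Y.R, f.φ (1 ⊗ₜ y) = g.φ (1 ⊗ₜ y) := fun y => congrArg (fun u => u.φ y) h2
    induction r using TensorProduct.induction_on with
    | zero => exact (map_zero f.φ).trans (map_zero g.φ).symm
    | tmul x y =>
      have e : (x ⊗ₜ[ℂ] y : X.R ⊗[ℂ] Y.R) = (x ⊗ₜ 1) * (1 ⊗ₜ y) := by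
        rw [Algebra.TensorProduct.tmul_mul_tmul, mul_one, one_mul]
      rw [e]
      exact (map_mul f.φ _ _).trans ((congrArg₂ (· * ·) (a1 x) (a2 y)).trans
        (map_mul g.φ _ _).symm)
    | add x y hx hy =>
      exact (map_add f.φ _ _).trans ((congrArg₂ (· + ·) hx hy).trans (map_add g.φ _ _).symm)
  · have a1 : ∀ x, f.ρ (Sum.elim x 0) = g.ρ (Sum.elim x 0) :=
      fun x => congrArg (fun u => u.ρ x) h1
    have a2 : ∀ y, f.ρ (Sum.elim 0 y) = g.ρ (Sum.elim 0 y) :=
      fun y => congrArg (fun u => u.ρ y) h2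
    have e : γ = (fst X Y).ρ (fun j => γ (.inl j)) + (snd X Y).ρ fun j => γ (.inr j) := by
      funext j
      cases j
      · exact (add_zero _).symm
      · exact (zero_add _).symm
    rw [e]
    exact (map_add f.ρ _ _).trans ((congrArg₂ (· + ·) (a1 _) (a2 _)).trans (map_add g.ρ _ _).symm)

@[simp] theorem fst_lift_comp (f : Mor W X) (g : Mor W Y) (h : Mor V W) :
    (fst X Y).comp ((lift f g).comp h) = f.comp h := by rw [← comp_assoc, fst_lift]

@[simp] theorem snd_lift_comp (f : Mor W X) (g : Mor W Y) (h : Mor V W) :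
    (snd X Y).comp ((lift f g).comp h) = g.comp h := by rw [← comp_assoc, snd_lift]

theorem lift_comp (f : Mor W X) (g : Mor W Y) (h : Mor V W) :
    (lift f g).comp h = lift (f.comp h) (g.comp h) :=
  prod_ext (by rw [fst_lift_comp, fst_lift]) (by rw [snd_lift_comp, snd_lift])

@[simp] theorem lift_fst_snd : lift (fst X Y) (snd X Y) = id (X.prod Y) :=
  prod_ext (by rw [fst_lift, comp_id]) (by rw [snd_lift, comp_id])

theorem lift_eta (f : Mor W (X.prod Y)) : lift ((fst X Y).comp f) ((snd X Y).comp f) = f :=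
  prod_ext (fst_lift _ _) (snd_lift _ _)

@[simp] theorem fst_map (f : Mor W X) (g : Mor Y Z) :
    (fst X Z).comp (f.map g) = f.comp (fst W Y) := fst_lift _ _

@[simp] theorem snd_map (f : Mor W X) (g : Mor Y Z) :
    (snd X Z).comp (f.map g) = g.comp (snd W Y) := snd_lift _ _

theorem map_lift (f : Mor W X) (g : Mor Y Z) (a : Mor V W) (b : Mor V Y) :
    (f.map g).comp (lift a b) = lift (f.comp a) (g.comp b) := by
  rw [map, lift_comp, comp_assoc, comp_assoc, fst_lift, snd_lift]

theorem map_map {X' Z' : Spc} (f : Mor X X') (g : Mor Z Z') (a : Mor W X) (b : Mor Y Z) :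
    (f.map g).comp (a.map b) = (f.comp a).map (g.comp b) := map_lift _ _ _ _

@[simp] theorem map_id : (id X).map (id Y) = id (X.prod Y) := lift_fst_snd

/-- the exchange of the factors -/
def swap (X Y : Spc) : Mor (X.prod Y) (Y.prod X) := lift (snd X Y) (fst X Y)

theorem swap_swap : (swap Y X).comp (swap X Y) = id (X.prod Y) := by
  rw [swap, swap, lift_comp, fst_lift, snd_lift, lift_fst_snd]

/-- the change of brackets -/
def assoc (X Y Z : Spc) : Mor ((X.prod Y).prod Z) (X.prod (Y.prod Z)) :=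
  lift ((fst X Y).comp (fst _ _)) (lift ((snd X Y).comp (fst _ _)) (snd _ _))

/-- the inverse change of brackets -/
def assoc' (X Y Z : Spc) : Mor (X.prod (Y.prod Z)) ((X.prod Y).prod Z) :=
  lift (lift (fst _ _) ((fst Y Z).comp (snd _ _))) ((snd Y Z).comp (snd _ _))

theorem assoc_assoc' : (assoc X Y Z).comp (assoc' X Y Z) = id _ := by
  rw [assoc, assoc', lift_comp, lift_comp, comp_assoc, comp_assoc, fst_lift, fst_lift, snd_lift,
    snd_lift, lift_eta, lift_fst_snd]

theorem assoc'_assoc : (assoc' X Y Z).comp (assoc X Y Z) = id _ := by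
  rw [assoc, assoc', lift_comp, lift_comp, comp_assoc, comp_assoc, fst_lift, snd_lift, fst_lift,
    snd_lift, lift_eta, lift_fst_snd]

/-- the exchange of the last two factors -/
def rot (X Y Z : Spc) : Mor ((X.prod Y).prod Z) ((X.prod Z).prod Y) :=
  lift ((fst X Y).map (id Z)) ((snd X Y).comp (fst _ _))

theorem rot_rot : (rot X Z Y).comp (rot X Y Z) = id _ := by
  rw [rot, rot, lift_comp, map_lift, comp_assoc, fst_lift, fst_map, snd_map, id_comp, id_comp,
    lift_eta, lift_fst_snd]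

end Mor

end Vale.Agent.P297Z
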