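import Vale.Agent.P297Z.K.AK3

/-!
# P297: finite resolutions by bundles
-/

set_option linter.all false

open scoped TensorProduct

noncomputable section

namespace Vale.Agent.P297Z

open GMod AK

variable {W X Y Z : Spc}

variable {A B C D M N : GMod X} {a b c d r : ℕ} {f : A.M →ₗ[X.R] B.M} {g : B.M →ₗ[X.R] C.M}

/-- the fibre product -/
theorem AK.exists_fp {u : A.M →ₗ[X.R] C.M} {v : B.M →ₗ[X.R] C.M} (hu : A.IsHom C u)
    (hv : B.IsHom C v) : ∃ (F : GMod X) (p : F.M →ₗ[X.R] A.M) (q : F.M →ₗ[X.R] B.M),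
      (∀ {N : GMod X} {ι}, SES N A C ι u → ∃ j, SES N F B j q) ∧
      (∀ {N : GMod X} {ι}, SES N B C ι v → ∃ j, SES N F A j p) ∧
      ∀ {D : GMod X} {g}, SES B C D v g → (∀ z : X.Pt, SurjAt z.1 u) → SES F A D p (g ∘ₗ u) := by
  let S : Submodule X.R (A.M × B.M) :=
    LinearMap.eqLocus (u ∘ₗ LinearMap.fst X.R A.M B.M) (v ∘ₗ LinearMap.snd X.R A.M B.M)
  have hS : (A.prod B).Stab S := fun t (x : A.M × B.M) (hx : u x.1 = v x.2) =>
    (hu t x.1).trans ((congrArg (C.act t) hx).trans (hv t x.2).symm)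
  refine ⟨(A.prod B).sub S hS, LinearMap.fst X.R A.M B.M ∘ₗ S.subtype,
    LinearMap.snd X.R A.M B.M ∘ₗ S.subtype, fun {N ι} h => ?_, fun {N ι} h => ?_,
    fun {D g} h hs => ?_⟩
  · refine ⟨(ι.prod 0).codRestrict S fun x => (h.2.2.1 x).trans (map_zero v).symm,
      fun t x => Subtype.ext (Prod.ext (h.1 t x) (map_zero (B.act t)).symm), fun _ _ => rfl,
      fun _ => rfl, fun z => ⟨fun x hx => (h.2.2.2 z).1 x (congrArg (·.1.1) hx), ?_, fun y => ?_⟩⟩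
    · rintro ⟨⟨x, y⟩, hp⟩ (rfl : y = 0)
      obtain ⟨t, n, ht, e⟩ := (h.2.2.2 z).2.1 x (Eq.trans hp (map_zero v))
      exact ⟨t, n, ht, Subtype.ext (Prod.ext e (smul_zero t).symm)⟩
    · obtain ⟨t, x, ht, e⟩ := (h.2.2.2 z).2.2 (v y)
      exact ⟨t, ⟨(x, t • y), e.trans (map_smul v t y).symm⟩, ht, rfl⟩
  · refine ⟨((0 : N.M →ₗ[X.R] A.M).prod ι).codRestrict S fun x =>
        (map_zero u).trans (h.2.2.1 x).symm,
      fun t x => Subtype.ext (Prod.ext (map_zero (A.act t)).symm (h.1 t x)), fun _ _ => rfl,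
      fun _ => rfl, fun z => ⟨fun x hx => (h.2.2.2 z).1 x (congrArg (·.1.2) hx), ?_, fun x => ?_⟩⟩
    · rintro ⟨⟨x, y⟩, hp⟩ (rfl : x = 0)
      obtain ⟨t, n, ht, e⟩ := (h.2.2.2 z).2.1 y (Eq.trans (Eq.symm hp) (map_zero u))
      exact ⟨t, n, ht, Subtype.ext (Prod.ext (smul_zero t).symm e)⟩
    · obtain ⟨t, y, ht, e⟩ := (h.2.2.2 z).2.2 (u x)
      exact ⟨t, ⟨(t • x, y), (map_smul u t x).trans e.symm⟩, ht, rfl⟩
  · refine ⟨fun _ _ => rfl, h.2.1.comp hu, fun x => (congrArg g x.2).trans (h.2.2.1 _),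
      fun z => ⟨?_, fun x hx => ?_, (h.2.2.2 z).2.2.comp (hs z)⟩⟩
    · rintro ⟨⟨x, y⟩, hp⟩ (rfl : x = 0)
      obtain ⟨t, ht, e⟩ := (h.2.2.2 z).1 y (Eq.trans (Eq.symm hp) (map_zero u))
      exact ⟨t, ht, Subtype.ext (Prod.ext (smul_zero t) e)⟩
    · obtain ⟨t, y, ht, e⟩ := (h.2.2.2 z).2.1 (u x) hx
      exact ⟨t, ⟨(t • x, y), (map_smul u t x).trans e.symm⟩, ht, rfl⟩

/-- resolutions of length at most `n` by bundles, and their class -/
def Res : ℕ → GMod X → K0 X → Prop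
  | 0, M, x => ∃ r, M.IsBun r ∧ x = kc M r
  | n + 1, M, x => ∃ (N P : GMod X) (p : ℕ) (y : K0 X) (f : N.M →ₗ[X.R] P.M)
      (g : P.M →ₗ[X.R] M.M), SES N P M f g ∧ P.IsBun p ∧ Res n N y ∧ x = kc P p - y

theorem Res.succ {n : ℕ} {x : K0 X} (h : Res n M x) : Res (n + 1) M x := by
  induction n generalizing M x with
  | zero =>
    obtain ⟨r, h, rfl⟩ := h
    exact ⟨_, M, r, 0, _, _, ses_zero' (qis_id M), h,
      ⟨0, zero_bun, ((kc_bun (bzero X)).trans cls_bzero).symm⟩, (sub_zero _).symm⟩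
  | succ n ih =>
    obtain ⟨N, P, p, y, f, g, h1, h2, h3, h4⟩ := h
    exact ⟨N, P, p, y, f, g, h1, h2, ih h3, h4⟩

theorem Res.bun (h : M.IsBun r) (n : ℕ) : Res n M (kc M r) := by
  induction n with
  | zero => exact ⟨r, h, rfl⟩
  | succ n ih => exact ih.succ

theorem Res.of_empty (he : IsEmpty X.Pt) (n : ℕ) (M : GMod X) (x : K0 X) : Res (n + 1) M x := by
  obtain ⟨P, N, rfl⟩ := K0_induction x
  exact ⟨N.M, P.M, P.rk, _, 0, 0, ⟨IsHom.zero _ _, IsHom.zero _ _, fun _ => rfl, he.elim⟩, P.free,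
    Res.bun N.free n, by rw [kc_bun, kc_bun]⟩

theorem Res.qis {n : ℕ} {x : K0 X} (h : Qis A B f) : Res n A x ↔ Res n B x := by
  cases n with
  | zero => exact exists_congr fun r => and_congr h.isBun_iff (by rw [kc_qis h])
  | succ n =>
    constructor
    · rintro ⟨N, P, p, y, u, v, h1, h2⟩
      refine ⟨N, P, p, y, u, f ∘ₗ v, ⟨h1.1, h.1.comp h1.2.1, fun x =>
        (congrArg f (h1.2.2.1 x)).trans (map_zero f), fun z => ⟨(h1.2.2.2 z).1, fun x hx => ?_,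
          (h.2 z).surjAt.comp (h1.2.2.2 z).2.2⟩⟩, h2⟩
      obtain ⟨t, ht, e⟩ := (h.2 z).injAt _ hx
      obtain ⟨s, w, hs, e'⟩ := (h1.2.2.2 z).2.1 (t • x) ((map_smul v t x).trans e)
      exact ⟨s * t, w, mul_ne hs ht, e'.trans (mul_smul s t x).symm⟩
    · rintro ⟨N, P, p, y, u, v, h1, h2, h3, rfl⟩
      obtain ⟨F, s, t, k1, k2, -⟩ := exists_fp h1.2.1 h.1
      obtain ⟨j, hj⟩ := k1 h1
      obtain ⟨j', hj'⟩ := k2 (ses_zero' h)
      refine ⟨N, F, 0 + p, y, j, t, hj, hj'.isBun_mid zero_bun h2, h3, ?_⟩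
      rw [kc_ses hj' zero_bun h2, show kc (zero X) 0 = 0 from (kc_bun (bzero X)).trans cls_bzero,
        zero_add]

theorem AK.ses_left (h : SES A B C f g) (hB : B.IsBun b) (hC : C.IsBun c)
    (hr : IsEmpty X.Pt → c ≤ b) : ∃ a, A.IsBun a ∧ kc A a = kc B b - kc C c := by
  have : c ≤ b := (isEmpty_or_nonempty X.Pt).elim hr fun _ => hB.le hC fun z => (h.2.2.2 z).2.2
  obtain ⟨a, rfl⟩ := Nat.exists_eq_add_of_le' this
  exact ⟨a, h.isBun_left hB hC, by rw [kc_ses h (h.isBun_left hB hC) hC, add_sub_cancel_right]⟩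

theorem AK.leftB {n : ℕ} {x : K0 X} (h : SES A B C f g) (hB : Res n B x) (hC : C.IsBun c)
    (hr : n = 0 → IsEmpty X.Pt → (c : ℤ) ≤ rk X x) : Res n A (x - kc C c) := by
  cases n with
  | zero =>
    obtain ⟨b, hB, rfl⟩ := hB
    obtain ⟨a, h1, h2⟩ := ses_left h hB hC fun he => by simpa [rk_kc hB] using hr rfl he
    exact ⟨a, h1, h2.symm⟩
  | succ n =>
    refine (isEmpty_or_nonempty X.Pt).elim (fun he => Res.of_empty he _ _ _) fun he => ?_
    obtain ⟨N, P, p, y, u, v, h1, h2, h3, rfl⟩ := hB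
    obtain ⟨F, s, t, k1, -, k3⟩ := exists_fp h1.2.1 h.1
    obtain ⟨j, hj⟩ := k1 h1
    obtain ⟨a, h4, h5⟩ := ses_left (k3 h fun z => (h1.2.2.2 z).2.2) h2 hC fun h =>
      (not_isEmpty_iff.2 he h).elim
    exact ⟨N, F, a, y, j, t, hj, h4, h3, by rw [h5, sub_right_comm]⟩

/-- the statement on middle terms -/
def AK.Mid (X : Spc) (n : ℕ) : Prop := ∀ ⦃A B C : GMod X⦄ ⦃f : A.M →ₗ[X.R] B.M⦄
  ⦃g : B.M →ₗ[X.R] C.M⦄ ⦃x y : K0 X⦄, SES A B C f g → Res n A x → Res n C y → Res n B (x + y)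

theorem AK.Mid.left {n : ℕ} (hm : Mid X n) {x y : K0 X} (h : SES A B C f g) (hB : Res n B x)
    (hC : Res (n + 1) C y) (hr : n = 0 → IsEmpty X.Pt → rk X y ≤ rk X x) : Res n A (x - y) := by
  obtain ⟨N, P, p, y, u, v, h1, h2, h3, rfl⟩ := hC
  obtain ⟨F, s, t, k1, k2, -⟩ := exists_fp h1.2.1 h.2.1
  obtain ⟨j, hj⟩ := k1 h1
  obtain ⟨j', hj'⟩ := k2 h
  have := leftB hj' (hm hj h3 hB) h2 fun h0 he => by
    have := hr h0 he
    rw [map_sub, rk_kc h2] at this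
    rw [map_add]
    omega
  rwa [show y + x - kc P p = x - (kc P p - y) by ring] at this

theorem AK.Mid.right {n : ℕ} (hm : Mid X n) {x y : K0 X} (h : SES A B C f g) (hA : Res n A x)
    (hB : Res (n + 1) B y) : Res (n + 1) C (y - x) := by
  obtain ⟨N, P, p, y, u, v, h1, h2, h3, rfl⟩ := hB
  obtain ⟨F, s, t, k1, -, k3⟩ := exists_fp h1.2.1 h.1
  obtain ⟨j, hj⟩ := k1 h1
  exact ⟨F, P, p, _, _, _, k3 h fun z => (h1.2.2.2 z).2.2, h2, hm hj h3 hA, sub_sub _ _ _⟩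

theorem AK.Mid.midB {n : ℕ} (hm : Mid X n) {x : K0 X} (h : SES A B C f g)
    (hA : Res (n + 1) A x) (hC : C.IsBun c) : Res (n + 1) B (x + kc C c) := by
  refine (isEmpty_or_nonempty X.Pt).elim (fun he => Res.of_empty he _ _ _) fun he => ?_
  have he' : ∀ {P : Prop}, IsEmpty X.Pt → P := fun h => (not_isEmpty_iff.2 he h).elim
  obtain ⟨k, γ, π, h1, h2⟩ := exists_cover B
  have hQ := isBun_pi fun i => (isBun_one X).shift (γ i)
  have hs : ∀ z : X.Pt, SurjAt z.1 π := fun z y => (h2 y).elim fun w e =>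
    ⟨1, w, one_ne, e.trans (one_smul _ y).symm⟩
  have h3 : SES (GMod.sub _ _ h1.stab_ker) _ B (LinearMap.ker π).subtype π :=
    ⟨fun _ _ => rfl, h1, fun w => w.2, fun z => ⟨fun w e => ⟨1, one_ne, (one_smul _ w).trans
      (Subtype.ext e)⟩, fun w e => ⟨1, ⟨w, e⟩, one_ne, (one_smul _ w).symm⟩, hs z⟩⟩
  obtain ⟨F, s, t, k1, -, k3⟩ := exists_fp h1 h.1
  obtain ⟨j, hj⟩ := k1 h3
  obtain ⟨a, h4, h5⟩ := ses_left (k3 h hs) hQ hC he'
  exact ⟨_, _, _, _, _, _, h3, hQ, hm.left hj (Res.bun h4 n) hA fun _ => he', by rw [h5]; ring⟩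

theorem AK.mid (X : Spc) (n : ℕ) : Mid X n := by
  induction n with
  | zero =>
    rintro A B C f g _ _ h ⟨a, hA, rfl⟩ ⟨c, hC, rfl⟩
    exact ⟨a + c, h.isBun_mid hA hC, (kc_ses h hA hC).symm⟩
  | succ n ih =>
    rintro A B C f g x _ h hA ⟨N, P, p, y, u, v, h1, h2, h3, rfl⟩
    obtain ⟨F, s, t, k1, k2, -⟩ := exists_fp h1.2.1 h.2.1
    obtain ⟨j, hj⟩ := k1 h1
    obtain ⟨j', hj'⟩ := k2 h
    exact add_sub_assoc x _ y ▸ ih.right hj h3 (ih.midB hj' hA h2)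

theorem Res.mid {n : ℕ} {x y : K0 X} (h : SES A B C f g) (hA : Res n A x) (hC : Res n C y) :
    Res n B (x + y) := AK.mid X n h hA hC

theorem Res.left {n : ℕ} {x y : K0 X} (h : SES A B C f g) (hB : Res n B x)
    (hC : Res (n + 1) C y) (hr : n = 0 → rk X y ≤ rk X x) : Res n A (x - y) :=
  (AK.mid X n).left h hB hC fun h0 _ => hr h0

/-- no condition on the ranks when there is a point -/
theorem Res.left' [he : Nonempty X.Pt] {n : ℕ} {x y : K0 X} (h : SES A B C f g) (hB : Res n B x)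
    (hC : Res (n + 1) C y) : Res n A (x - y) :=
  (AK.mid X n).left h hB hC fun _ h => (not_isEmpty_iff.2 he h).elim

theorem Res.right {n : ℕ} {x y : K0 X} (h : SES A B C f g) (hA : Res n A x)
    (hB : Res (n + 1) B y) : Res (n + 1) C (y - x) := (AK.mid X n).right h hA hB

theorem AK.unique {n : ℕ} {x y : K0 X} (h : Res n M x) (h' : Res n M y)
    (hr : IsEmpty X.Pt → rk X x = rk X y) : x = y := by
  induction n generalizing M x y with
  | zero =>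
    obtain ⟨a, ha, rfl⟩ := h
    obtain ⟨b, hb, rfl⟩ := h'
    rw [show a = b from (isEmpty_or_nonempty X.Pt).elim
      (fun he => by simpa [rk_kc ha, rk_kc hb] using hr he) fun _ => ha.unique hb]
  | succ n ih =>
    obtain ⟨N, P, p, x, u, v, h1, h2, h3, rfl⟩ := h
    obtain ⟨N', P', p', y, u', v', h1', h2', h3', rfl⟩ := h'
    obtain ⟨F, s, t, k1, k2, -⟩ := exists_fp h1.2.1 h1'.2.1
    obtain ⟨j, hj⟩ := k1 h1
    obtain ⟨j', hj'⟩ := k2 h1'
    have := ih (Res.mid hj h3 (Res.bun h2' n)) (Res.mid hj' h3' (Res.bun h2 n)) fun he => by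
      have := hr he
      rw [map_sub, map_sub] at this
      rw [map_add, map_add]
      omega
    linear_combination -this

/-- Schanuel -/
theorem Res.unique {n : ℕ} {x y : K0 X} (h : Res n M x) (h' : Res n M y) (hr : rk X x = rk X y) :
    x = y := AK.unique h h' fun _ => hr

theorem Res.unique' [he : Nonempty X.Pt] {n : ℕ} {x y : K0 X} (h : Res n M x) (h' : Res n M y) :
    x = y := AK.unique h h' fun h => (not_isEmpty_iff.2 he h).elim

theorem Res.rk_eq [Nonempty X.Pt] {n : ℕ} {x y : K0 X} (h : Res n M x) (h' : Res n M y) :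
    rk X x = rk X y := by rw [h.unique' h']

theorem schanuel1 {K P K' P' : GMod X} {k p k' p' : ℕ} {f : K.M →ₗ[X.R] P.M} {g : P.M →ₗ[X.R] M.M}
    {f' : K'.M →ₗ[X.R] P'.M} {g' : P'.M →ₗ[X.R] M.M} (h : SES K P M f g) (h' : SES K' P' M f' g')
    (hK : K.IsBun k) (hP : P.IsBun p) (hK' : K'.IsBun k') (hP' : P'.IsBun p')
    (hr : p + k' = p' + k) : kc P p - kc K k = kc P' p' - kc K' k' :=
  Res.unique (n := 1) (M := M) ⟨K, P, p, _, f, g, h, hP, Res.bun hK 0, rfl⟩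
    ⟨K', P', p', _, f', g', h', hP', Res.bun hK' 0, rfl⟩ (by
      rw [map_sub, map_sub, rk_kc hK, rk_kc hP, rk_kc hK', rk_kc hP']
      omega)

theorem Res.kact_oG {n : ℕ} {x : K0 X} (h : Res n M x) : kact X x (oG X) = cls M := by
  induction n generalizing M x with
  | zero =>
    obtain ⟨r, h, rfl⟩ := h
    exact P297Z.kact_oG h
  | succ n ih =>
    obtain ⟨N, P, p, y, u, v, h1, h2, h3, rfl⟩ := h
    rw [map_sub, AddMonoidHom.sub_apply, ih h3, P297Z.kact_oG h2, G_ses h1, add_sub_cancel_left]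

theorem Res.pull_flat {n : ℕ} {x : K0 X} (h : Res n M x) {φ : Mor W X} (hφ : φ.Flat) :
    Res n (φ.pull M) (pullK φ x) := by
  induction n generalizing M x with
  | zero =>
    obtain ⟨r, h, rfl⟩ := h
    exact ⟨r, h.pull φ, pullK_kc φ h⟩
  | succ n ih =>
    obtain ⟨N, P, p, y, u, v, h1, h2, h3, rfl⟩ := h
    exact ⟨_, _, p, _, _, _, h1.pull_flat hφ, h2.pull φ, ih h3, by rw [map_sub, pullK_kc φ h2]⟩

end Vale.Agent.P297Z
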