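import Vale.Agent.P297Z.K.Fib

/-!
# P297: the group G, kernels and cokernels of maps of bundles, devissage
-/

set_option linter.all false

noncomputable section

namespace Vale.Agent.P297Z

variable {X : Spc}

namespace GMod

variable {A B C M : GMod X} {f : A.M →ₗ[X.R] B.M} {g : B.M →ₗ[X.R] C.M}

instance (M : GMod X) : IsNoetherian X.R M.M := isNoetherian_of_isNoetherianRing_of_finite _ _

theorem isHom_subtype (M : GMod X) (N : Submodule X.R M.M) (h : M.Stab N) :
    (M.sub N h).IsHom M N.subtype := fun _ _ => rfl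

theorem isHom_mkQ (M : GMod X) (N : Submodule X.R M.M) (h : M.Stab N) :
    M.IsHom (M.quo N h) N.mkQ := fun _ _ => rfl

theorem IsHom.codRestrict (hf : A.IsHom B f) {N : Submodule X.R B.M} (hN : B.Stab N)
    (h : ∀ a, f a ∈ N) : A.IsHom (B.sub N hN) (f.codRestrict N h) :=
  fun g a => Subtype.ext (hf g a)

theorem IsHom.domRestrict (hf : A.IsHom B f) {N : Submodule X.R A.M} (hN : A.Stab N) :
    (A.sub N hN).IsHom B (f.domRestrict N) := fun g a => hf g a.1

theorem IsHom.liftQ (hf : A.IsHom B f) {N : Submodule X.R A.M} (hN : A.Stab N)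
    (h : N ≤ LinearMap.ker f) : (A.quo N hN).IsHom B (N.liftQ f h) := fun g a => by
  obtain ⟨a, rfl⟩ := Submodule.Quotient.mk_surjective N a
  exact hf g a

theorem IsHom.mapQ (hf : A.IsHom B f) {N : Submodule X.R A.M} (hN : A.Stab N)
    {P : Submodule X.R B.M} (hP : B.Stab P) (h : N ≤ P.comap f) :
    (A.quo N hN).IsHom (B.quo P hP) (N.mapQ P f h) := fun g a => by
  obtain ⟨a, rfl⟩ := Submodule.Quotient.mk_surjective N a
  exact congrArg Submodule.Quotient.mk (hf g a)

theorem isHom_inclusion {N P : Submodule X.R M.M} (hN : M.Stab N) (hP : M.Stab P) (h : N ≤ P) :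
    (M.sub N hN).IsHom (M.sub P hP) (Submodule.inclusion h) := fun _ _ => rfl

theorem mem_shift_wt {γ δ : X.J → ℤ} {m : M.M} : m ∈ (M.shift γ).wt δ ↔ m ∈ M.wt (δ + γ) := by
  refine forall_congr' fun g => ?_
  change chr (-γ) g • M.act g m = chr δ g • m ↔ _
  rw [chr_neg, inv_smul_eq_iff₀ (chr_ne γ g), smul_smul, chr_add, mul_comm]

/-- the kernel -/
abbrev IsHom.kerM (hf : A.IsHom B f) : GMod X := A.sub _ hf.stab_ker

/-- the image -/
abbrev IsHom.rangeM (hf : A.IsHom B f) : GMod X := B.sub _ hf.stab_range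

/-- the cokernel -/
abbrev IsHom.cokerM (hf : A.IsHom B f) : GMod X := B.quo _ hf.stab_range

theorem IsHom.rangeRestrict (hf : A.IsHom B f) : A.IsHom hf.rangeM f.rangeRestrict :=
  hf.codRestrict hf.stab_range _

theorem ses_of_exact (hf : A.IsHom B f) (hg : B.IsHom C g) (h1 : Function.Injective f)
    (h2 : Function.Exact f g) (h3 : Function.Surjective g) : SES A B C f g :=
  ⟨hf, hg, h2.apply_apply_eq_zero, fun _ => ⟨.of_inj h1, .of_ker fun b => (h2 b).1, .of_surj h3⟩⟩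

theorem ses_sub_quo (M : GMod X) (N : Submodule X.R M.M) (h : M.Stab N) :
    SES (M.sub N h) M (M.quo N h) N.subtype N.mkQ :=
  ses_of_exact (isHom_subtype M N h) (isHom_mkQ M N h) N.injective_subtype
    (LinearMap.exact_subtype_mkQ N) N.mkQ_surjective

theorem IsHom.ses_ker (hf : A.IsHom B f) (h : ∀ z : X.Pt, SurjAt z.1 f) :
    SES hf.kerM A B (LinearMap.ker f).subtype f :=
  ⟨isHom_subtype _ _ _, hf, fun a => a.2, fun z => ⟨.of_inj (Submodule.injective_subtype _),
    .of_ker fun b hb => ⟨⟨b, hb⟩, rfl⟩, h z⟩⟩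

theorem IsHom.ses_coker (hf : A.IsHom B f) (h : ∀ z : X.Pt, InjAt z.1 f) :
    SES A B hf.cokerM f (LinearMap.range f).mkQ :=
  ⟨hf, isHom_mkQ _ _ _, fun a => (Submodule.Quotient.mk_eq_zero _).2 (LinearMap.mem_range_self f a),
    fun z => ⟨h z, .of_ker fun b hb => (Submodule.Quotient.mk_eq_zero _).1 hb,
      .of_surj (Submodule.mkQ_surjective _)⟩⟩

theorem IsHom.ses_range (hf : A.IsHom B f) :
    SES hf.kerM A hf.rangeM (LinearMap.ker f).subtype f.rangeRestrict :=
  ses_of_exact (isHom_subtype _ _ _) hf.rangeRestrict (Submodule.injective_subtype _)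
    (fun a => ⟨fun h => ⟨⟨a, congrArg Subtype.val h⟩, rfl⟩, by
      rintro ⟨b, rfl⟩
      exact Subtype.ext b.2⟩) f.surjective_rangeRestrict

/-! ### bundles -/

variable {a b c k : ℕ}

theorem IsBun.fdim (h : M.IsBun a) (z : X.Pt) : fdim z.1 M.M = a := (h z).fdim

theorem freeAt_of_fdim {z : X.Pt} {s : X.R} (hs : z.1 s ≠ 0)
    (h : ∀ y : X.Pt, y.1 s ≠ 0 → fdim z.1 M.M ≤ fdim y.1 M.M) : FreeAt z.1 M.M (fdim z.1 M.M) :=
  freeAt_of_rank (P := {y | ∃ f ∈ X.b, y f ≠ 0}) X.sep hs fun y hy => h ⟨y, hy⟩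

/-- a module with fibres of constant dimension is a bundle -/
theorem isBun_of_rank (h : ∀ z : X.Pt, fdim z.1 M.M = a) : M.IsBun a := fun z =>
  h z ▸ freeAt_of_fdim ev_one fun y _ => ((h z).trans (h y).symm).le

theorem SES.fib_exact (h : SES A B C f g) (z : X.Pt) :
    Function.Exact (fibMap z.1 f) (fibMap z.1 g) :=
  P297Z.fib_exact h.2.2.1 (h.2.2.2 z).2.1 (h.2.2.2 z).2.2

theorem SES.fib_surj (h : SES A B C f g) (z : X.Pt) : Function.Surjective (fibMap z.1 g) :=
  (h.2.2.2 z).2.2.fib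

theorem SES.fib_inj (h : SES A B C f g) (hC : C.IsBun c) (z : X.Pt) :
    Function.Injective (fibMap z.1 f) :=
  fib_inj_of_ses (hC z) h.2.2.1 (h.2.2.2 z).1 (h.2.2.2 z).2.1 (h.2.2.2 z).2.2

theorem SES.isBun_right (h : SES A B C f g) (hA : A.IsBun a) (hB : B.IsBun (a + c))
    (h1 : ∀ z : X.Pt, Function.Injective (fibMap z.1 f)) : C.IsBun c := fun z =>
  (hA z).right (hB z) h.2.2.1 (h1 z) (h.2.2.2 z).2.1 (h.2.2.2 z).2.2

/-- a sequence of bundles that is exact on the fibres is exact -/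
theorem ses_of_fib (hf : A.IsHom B f) (hg : B.IsHom C g) (h0 : ∀ a, g (f a) = 0)
    (hB : B.IsBun b) (hC : C.IsBun c) (h1 : ∀ z : X.Pt, Function.Injective (fibMap z.1 f))
    (h2 : ∀ z : X.Pt, ∀ y, fibMap z.1 g y = 0 → ∃ x, fibMap z.1 f x = y)
    (h3 : ∀ z : X.Pt, Function.Surjective (fibMap z.1 g)) : SES A B C f g :=
  ⟨hf, hg, h0, fun z => ⟨injAt_of_fib (hB z) (h1 z), exAt_of_fib (hC z) h0 (h2 z),
    surjAt_iff_fib.2 (h3 z)⟩⟩

theorem qis_of_fib (hf : A.IsHom B f) (hB : B.IsBun b)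
    (h : ∀ z : X.Pt, Function.Bijective (fibMap z.1 f)) : Qis A B f :=
  ⟨hf, fun z => isoAt_of_fib (hB z) (h z)⟩

/-- the cokernel of a map of constant rank to a bundle -/
theorem IsHom.isBun_coker (hf : A.IsHom B f) (hB : B.IsBun (k + c))
    (h : ∀ z : X.Pt, frk z.1 f = k) : hf.cokerM.IsBun c := isBun_of_rank fun z => by
  have h1 := frk_add_coker (z := z.1) f
  rw [h, hB.fdim] at h1
  exact Nat.add_left_cancel h1

theorem IsHom.isBun_range (hf : A.IsHom B f) (hB : B.IsBun (k + c))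
    (h : ∀ z : X.Pt, frk z.1 f = k) : hf.rangeM.IsBun k := fun z =>
  have s := ses_sub_quo B _ hf.stab_range
  (hB z).left (hf.isBun_coker hB h z) s.2.2.1 (s.2.2.2 z).1 (s.2.2.2 z).2.1 (s.2.2.2 z).2.2

theorem IsHom.isBun_ker (hf : A.IsHom B f) (hA : A.IsBun (a + k)) (hB : B.IsBun (k + c))
    (h : ∀ z : X.Pt, frk z.1 f = k) : hf.kerM.IsBun a := fun z =>
  have s := hf.ses_range
  (hA z).left (hf.isBun_range hB h z) s.2.2.1 (s.2.2.2 z).1 (s.2.2.2 z).2.1 (s.2.2.2 z).2.2

theorem IsHom.fib_range_inj (hf : A.IsHom B f) (hB : B.IsBun (k + c))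
    (h : ∀ z : X.Pt, frk z.1 f = k) (z : X.Pt) :
    Function.Injective (fibMap z.1 (LinearMap.range f).subtype) :=
  (ses_sub_quo B _ hf.stab_range).fib_inj (hf.isBun_coker hB h) z

theorem IsHom.fib_ker_inj (hf : A.IsHom B f) (hB : B.IsBun (k + c))
    (h : ∀ z : X.Pt, frk z.1 f = k) (z : X.Pt) :
    Function.Injective (fibMap z.1 (LinearMap.ker f).subtype) :=
  hf.ses_range.fib_inj (hf.isBun_range hB h) z

theorem IsHom.fib_ker_exact (hf : A.IsHom B f) (hB : B.IsBun (k + c))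
    (h : ∀ z : X.Pt, frk z.1 f = k) (z : X.Pt) :
    Function.Exact (fibMap z.1 (LinearMap.ker f).subtype) (fibMap z.1 f) := fun x => by
  refine Iff.trans ?_ (hf.ses_range.fib_exact z x)
  have e : fibMap z.1 f x = fibMap z.1 (LinearMap.range f).subtype (fibMap z.1 f.rangeRestrict x) :=
    fibMap_comp (LinearMap.range f).subtype f.rangeRestrict x
  rw [e]
  exact map_eq_zero_iff _ (hf.fib_range_inj hB h z)

end GMod

open GMod

theorem Spc.conn_of_domain [IsDomain X.R] : X.Conn := fun M h => by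
  by_cases hX : Nonempty X.Pt
  · obtain ⟨z⟩ := hX
    obtain ⟨r, hr⟩ := h z
    refine ⟨r, fun y => ?_⟩
    obtain ⟨s, hs⟩ := h y
    exact le_antisymm (hs.rank_le hr) (hr.rank_le hs) ▸ hs
  · exact ⟨0, fun z => (hX ⟨z⟩).elim⟩

/-! ### classes -/

variable {A B C M : GMod X} {f : A.M →ₗ[X.R] B.M} {g : B.M →ₗ[X.R] C.M}

theorem cls_ses (h : SES A B C f g) : cls B = cls A + cls C := by
  rw [← sub_eq_zero, ← sub_sub]
  exact (QuotientAddGroup.eq_zero_iff (N := GRel X) _).2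
    (AddSubgroup.subset_closure ⟨A, B, C, f, g, h, rfl⟩)

theorem cls_zero (h : ∀ z : X.Pt, ZeroAt z.1 M.M) : cls M = 0 :=
  left_eq_add.1 (cls_ses (f := 0) (g := 0) ⟨IsHom.zero M M, IsHom.zero M M, fun _ => rfl, fun z =>
    ⟨fun a _ => h z a, fun a _ => (h z a).imp fun _ k => ⟨0, k.1, k.2.symm⟩,
      fun a => (h z a).imp fun _ k => ⟨0, k.1, k.2.symm⟩⟩⟩)

theorem cls_subsingleton [Subsingleton M.M] : cls M = 0 := cls_zero fun _ => .of_subsingleton

theorem cls_of_bij (hf : A.IsHom B f) (h : ∀ z : X.Pt, InjAt z.1 f ∧ SurjAt z.1 f) :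
    cls A = cls B := by
  rw [cls_ses (hf.ses_coker fun z => (h z).1),
    cls_zero (M := hf.cokerM) fun z => surjAt_iff_coker.1 (h z).2, add_zero]

theorem cls_qis (h : Qis A B f) : cls A = cls B :=
  cls_of_bij h.1 fun z => ⟨(h.2 z).injAt, (h.2 z).surjAt⟩

theorem cls_bij (hf : A.IsHom B f) (h : Function.Bijective f) : cls A = cls B :=
  cls_of_bij hf fun _ => ⟨.of_inj h.1, .of_surj h.2⟩

theorem cls_equiv (e : A.M ≃ₗ[X.R] B.M) (h : A.IsHom B e.toLinearMap) : cls A = cls B :=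
  cls_bij h e.bijective

theorem cls_sub_quo (M : GMod X) (N : Submodule X.R M.M) (h : M.Stab N) :
    cls M = cls (M.sub N h) + cls (M.quo N h) := cls_ses (ses_sub_quo M N h)

theorem cls_ker_range (hf : A.IsHom B f) : cls A = cls hf.kerM + cls hf.rangeM :=
  cls_ses hf.ses_range

theorem cls_range_coker (hf : A.IsHom B f) : cls B = cls hf.rangeM + cls hf.cokerM :=
  cls_sub_quo B _ _

theorem cls_sub_cls (hf : A.IsHom B f) : cls A - cls B = cls hf.kerM - cls hf.cokerM := by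
  rw [cls_ker_range hf, cls_range_coker hf]
  abel

theorem cls_prod (A B : GMod X) : cls (A.prod B) = cls A + cls B :=
  cls_ses (f := LinearMap.inl X.R A.M B.M) (g := LinearMap.snd X.R A.M B.M) (ses_of_exact
    (fun g a => Prod.ext rfl (map_zero (B.act g)).symm) (fun _ _ => rfl) LinearMap.inl_injective
    (Function.Exact.inl_snd) LinearMap.snd_surjective)

theorem cls_pi {ι : Type} [Fintype ι] (M : ι → GMod X) : cls (pi M) = ∑ i, cls (M i) := by
  revert M
  refine Fintype.induction_empty_option (P := fun ι _ => ∀ M : ι → GMod X,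
    cls (pi M) = ∑ i, cls (M i)) (fun α β _ e ih M => ?_) (fun M => ?_) (fun α _ ih M => ?_) ι
  · letI := Fintype.ofEquiv β e.symm
    rw [← e.sum_comp, ← ih]
    exact cls_equiv (LinearEquiv.piCongrLeft' X.R (fun i => (M (e i)).M) (Equiv.refl _) ≪≫ₗ
      LinearEquiv.piCongrLeft X.R (fun i => (M i).M) e).symm fun _ _ => rfl
  · haveI : Subsingleton (pi M).M := ⟨fun _ _ => funext fun i => i.elim⟩
    rw [cls_subsingleton, Finset.univ_eq_empty, Finset.sum_empty]
  · rw [Fintype.sum_option, ← ih, ← cls_prod]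
    exact cls_equiv (LinearEquiv.piOptionEquivProd X.R) fun _ _ => rfl

theorem cls_shift_zero (M : GMod X) : cls (M.shift 0) = cls M :=
  cls_equiv (LinearEquiv.refl _ _) fun g m => by
    change chr (-0) g • M.act g m = M.act g m
    rw [neg_zero, chr_zero, one_smul]

theorem cls_shift_shift (M : GMod X) (γ δ : X.J → ℤ) :
    cls ((M.shift γ).shift δ) = cls (M.shift (γ + δ)) :=
  cls_equiv (LinearEquiv.refl _ _) fun g m => by
    change chr (-δ) g • chr (-γ) g • M.act g m = chr (-(γ + δ)) g • M.act g m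
    rw [smul_smul, ← chr_add, neg_add_rev]

theorem G_induction {P : G X → Prop} (h0 : P 0) (h1 : ∀ M, P (cls M)) (hn : ∀ x, P x → P (-x))
    (ha : ∀ x y, P x → P y → P (x + y)) (x : G X) : P x := by
  obtain ⟨x, rfl⟩ := QuotientAddGroup.mk_surjective (s := GRel X) x
  induction x using FreeAbelianGroup.induction_on with
  | zero => exact h0
  | of M => exact h1 M
  | neg M h => exact hn _ h
  | add x y hx hy => exact ha _ _ hx hy

theorem G_mem {H : AddSubgroup (G X)} (h : ∀ M, cls M ∈ H) (x : G X) : x ∈ H :=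
  G_induction H.zero_mem h (fun _ => H.neg_mem) (fun _ _ => H.add_mem) x

theorem G_ext {E : Type*} [AddGroup E] {ψ ψ' : G X →+ E} (h : ∀ M, ψ (cls M) = ψ' (cls M)) :
    ψ = ψ' := AddMonoidHom.ext fun x => G_mem (H := ψ.eqLocus ψ') h x

theorem G_exists_sub (x : G X) : ∃ M N : GMod X, x = cls M - cls N := by
  refine G_induction (P := fun x => ∃ M N : GMod X, x = cls M - cls N)
    ⟨one X, one X, (sub_self _).symm⟩
    (fun M => ⟨M.prod M, M, by rw [cls_prod, add_sub_cancel_right]⟩) ?_ ?_ x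
  · rintro _ ⟨M, N, rfl⟩
    exact ⟨N, M, neg_sub _ _⟩
  · rintro _ _ ⟨M, N, rfl⟩ ⟨M', N', rfl⟩
    exact ⟨M.prod M', N.prod N', by rw [cls_prod, cls_prod]; abel⟩

theorem G_lift {E : Type*} [AddCommGroup E] (φ : GMod X → E)
    (h : ∀ (A B C : GMod X) (f : A.M →ₗ[X.R] B.M) (g : B.M →ₗ[X.R] C.M),
      SES A B C f g → φ B = φ A + φ C) : ∃ ψ : G X →+ E, ∀ M, ψ (cls M) = φ M := by
  refine ⟨QuotientAddGroup.lift (GRel X) (FreeAbelianGroup.lift φ) ?_,
    fun M => FreeAbelianGroup.lift_apply_of φ M⟩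
  refine (AddSubgroup.closure_le (FreeAbelianGroup.lift φ).ker).2 ?_
  rintro _ ⟨A, B, C, f, g, hs, rfl⟩
  simp [h A B C f g hs]

/-- additive on exact sequences and zero on the modules without support -/
theorem G_lift' {E : Type*} [AddCommGroup E] (φ : GMod X → E)
    (h : ∀ (A B C : GMod X) (f : A.M →ₗ[X.R] B.M) (g : B.M →ₗ[X.R] C.M), A.IsHom B f →
      B.IsHom C g → Function.Injective f → Function.Exact f g → Function.Surjective g →
      φ B = φ A + φ C) (h0 : ∀ M : GMod X, (∀ z : X.Pt, ZeroAt z.1 M.M) → φ M = 0) :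
    ∃ ψ : G X →+ E, ∀ M, ψ (cls M) = φ M := by
  have k1 : ∀ {A B : GMod X} {f : A.M →ₗ[X.R] B.M} (hf : A.IsHom B f),
      φ A = φ hf.kerM + φ hf.rangeM := fun {A B f} hf =>
    h _ _ _ _ _ (isHom_subtype _ _ _) hf.rangeRestrict (Submodule.injective_subtype _)
      (fun a => ⟨fun h => ⟨⟨a, congrArg Subtype.val h⟩, rfl⟩, by
        rintro ⟨b, rfl⟩
        exact Subtype.ext b.2⟩) f.surjective_rangeRestrict
  have k2 : ∀ {A B : GMod X} {f : A.M →ₗ[X.R] B.M} (hf : A.IsHom B f),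
      (∀ z : X.Pt, InjAt z.1 f) → (∀ z : X.Pt, SurjAt z.1 f) → φ A = φ B := fun {A B f} hf h1 h2 => by
    rw [k1 hf, h0 hf.kerM fun z => injAt_iff_ker.1 (h1 z), h _ B _ _ _ (isHom_subtype _ _ _)
      (isHom_mkQ _ _ hf.stab_range) (Submodule.injective_subtype _)
      (LinearMap.exact_subtype_mkQ _) (Submodule.mkQ_surjective _),
      h0 hf.cokerM fun z => surjAt_iff_coker.1 (h2 z), zero_add, add_zero]
  refine G_lift φ fun A B C f g ⟨hf, hg, h1, h2⟩ => ?_
  rw [k1 hg, k2 (hf.codRestrict hg.stab_ker h1) (fun z a ha => (h2 z).1 a (congrArg Subtype.val ha))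
    (fun z b => ((h2 z).2.1 b.1 b.2).imp fun r ⟨a, k, k'⟩ => ⟨a, k, Subtype.ext k'⟩),
    k2 (isHom_subtype C _ hg.stab_range) (fun z => .of_inj (Submodule.injective_subtype _))
    fun z c => ((h2 z).2.2 c).imp fun r ⟨a, k, k'⟩ => ⟨⟨_, a, k'⟩, k, rfl⟩]

/-- the alternating sum along a complex that is exact at all points -/
theorem cls_alt_range (M : ℕ → GMod X) (d : ∀ i, (M (i + 1)).M →ₗ[X.R] (M i).M)
    (hd : ∀ i, (M (i + 1)).IsHom (M i) (d i)) (h2 : ∀ i a, d i (d (i + 1) a) = 0) (n : ℕ)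
    (hex : ∀ i, i < n → ∀ z : X.Pt, ExAt z.1 (d (i + 1)) (d i)) :
    ∑ i ∈ Finset.range (n + 1), (-1 : ℤ) ^ i • cls (M i) =
      cls (hd 0).cokerM + (-1 : ℤ) ^ n • cls (hd n).rangeM := by
  induction n with
  | zero => simp [cls_range_coker (hd 0), add_comm]
  | succ n ih =>
    have e : cls (hd (n + 1)).rangeM = cls (hd n).kerM :=
      cls_of_bij (isHom_inclusion _ _ (by rintro _ ⟨a, rfl⟩; exact h2 n a)) fun z =>
        ⟨.of_inj (Submodule.inclusion_injective _), fun b => (hex n n.lt_succ_self z b.1 b.2).imp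
          fun r ⟨a, k, k'⟩ => ⟨⟨_, a, rfl⟩, k, Subtype.ext k'⟩⟩
    rw [Finset.sum_range_succ, ih fun i hi => hex i (hi.trans n.lt_succ_self), e,
      cls_ker_range (hd n), pow_succ]
    simp only [mul_neg, mul_one, neg_smul, smul_add]
    abel

theorem cls_alt (M : ℕ → GMod X) (d : ∀ i, (M (i + 1)).M →ₗ[X.R] (M i).M)
    (hd : ∀ i, (M (i + 1)).IsHom (M i) (d i)) (h2 : ∀ i a, d i (d (i + 1) a) = 0) (n : ℕ)
    (hex : ∀ i, i < n → ∀ z : X.Pt, ExAt z.1 (d (i + 1)) (d i))
    (hn : ∀ z : X.Pt, ZeroAt z.1 (M (n + 1)).M) :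
    ∑ i ∈ Finset.range (n + 1), (-1 : ℤ) ^ i • cls (M i) = cls (hd 0).cokerM := by
  rw [cls_alt_range M d hd h2 n hex, cls_zero (M := (hd n).rangeM) fun z =>
    .of_surjAt (.of_surj (d n).surjective_rangeRestrict) (hn z), smul_zero, add_zero]

/-! ### devissage -/

/-- the torus fixes every member of a finite stable family of ideals -/
theorem Spc.stab_of_finite {S : Set (Ideal X.R)} (hS : S.Finite)
    (h : ∀ g, ∀ p ∈ S, p.comap (X.act g) ∈ S) {p : Ideal X.R} (hp : p ∈ S) : (one X).Stab p := by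
  classical
  haveI := hS.fintype
  let Φ : (X.J → ℂˣ) →* Function.End S :=
    { toFun := fun g q => ⟨q.1.comap (X.act g), h g q.1 q.2⟩
      map_one' := funext fun q => Subtype.ext (Ideal.ext fun r => by
        rw [Ideal.mem_comap, X.act_one]; rfl)
      map_mul' := fun g k => funext fun q => Subtype.ext (Ideal.ext fun r => by
        rw [Ideal.mem_comap, mul_comm, X.act_mul]; rfl) }
  haveI : Finite (Function.End S) := inferInstanceAs (Finite (S → S))
  intro g r hr
  obtain ⟨k, rfl⟩ := exists_root g (Nat.card_pos (α := (Function.End S)ˣ))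
  have h1 : Φ.toHomUnits (k ^ Nat.card (Function.End S)ˣ) = 1 := by rw [map_pow, pow_card_eq_one']
  have h2 : Φ (k ^ Nat.card (Function.End S)ˣ) = 1 := congrArg Units.val h1
  exact (congrArg Subtype.val (congrFun h2 ⟨p, hp⟩)).ge hr

/-- a nonzero module has a homogeneous element whose annihilator is a graded prime ideal -/
theorem GMod.exists_prime (M : GMod X) [Nontrivial M.M] : ∃ (p : Ideal X.R) (γ : X.J → ℤ),
    p.IsPrime ∧ (one X).Stab p ∧ ∃ m ∈ M.wt γ, ∀ r, r ∈ p ↔ r • m = 0 := by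
  have key : ∀ p : Ideal X.R, p ∈ associatedPrimes X.R M.M ↔
      p.IsPrime ∧ ∃ m : M.M, ∀ r, r ∈ p ↔ r • m = 0 := fun p => by
    rw [AssociatedPrimes.mem_iff, isAssociatedPrime_iff]
    refine and_congr_right fun _ => exists_congr fun m => ?_
    rw [Ideal.ext_iff]
    simp only [Submodule.mem_colon_singleton, Submodule.mem_bot]
  obtain ⟨p, hp⟩ := associatedPrimes.nonempty X.R M.M
  have hs : (one X).Stab p := Spc.stab_of_finite (associatedPrimes.finite X.R M.M) (fun g q hq => by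
    obtain ⟨h1, m, h2⟩ := (key q).1 hq
    refine (key _).2 ⟨h1.comap _, M.act g⁻¹ m, fun r => ?_⟩
    rw [Ideal.mem_comap, h2]
    constructor
    · intro h3
      rw [← X.act_inv_act g r, ← M.act_smul, h3, map_zero]
    · intro h3
      rw [← M.act_act_inv g m, ← M.act_smul, h3, map_zero]) hp
  obtain ⟨h1, m, h2⟩ := (key p).1 hp
  obtain ⟨s, h3, -⟩ := M.exists_sum_cmp m
  obtain ⟨γ, -, h4⟩ := (h1.inf_le' (s := s) (f := fun γ =>
    (LinearMap.ker (LinearMap.toSpanSingleton X.R M.M (M.cmp γ m)) : Ideal X.R))).1 fun r hr => by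
      rw [h2, ← h3, Finset.smul_sum]
      exact Finset.sum_eq_zero fun γ hγ => Submodule.mem_finsetInf.1 hr γ hγ
  refine ⟨p, γ, h1, hs, _, M.cmp_mem γ m, fun r => ⟨fun hr => ?_, fun hr => h4 hr⟩⟩
  refine (one X).induction_sub hs (P := fun r : X.R => r • M.cmp γ m = 0) (zero_smul _ _)
    (fun δ r hr hw => ?_) (fun (x y : X.R) hx hy => (add_smul x y _).trans (by rw [hx, hy, add_zero])) r hr
  rw [← M.cmp_smul hw, (h2 r).1 hr, map_zero]

/-- induction along a filtration with quotients `(R / p)(γ)` -/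
theorem GMod.prime_induction {P : GMod X → Prop} (M : GMod X)
    (h0 : ∀ N : GMod X, Subsingleton N.M → P N)
    (h1 : ∀ (A B C : GMod X) (f : A.M →ₗ[X.R] B.M) (g : B.M →ₗ[X.R] C.M), A.IsHom B f →
      B.IsHom C g → Function.Injective f → Function.Exact f g → Function.Surjective g →
      P A → P C → P B)
    (h2 : ∀ (p : Ideal X.R) (hp : (one X).Stab p) (γ : X.J → ℤ), p.IsPrime →
      Module.annihilator X.R M.M ≤ p → P (((one X).quo p hp).shift γ)) : P M := by
  have key : ∀ N : Submodule X.R M.M, ∀ (Q : GMod X) (u : M.M →ₗ[X.R] Q.M), M.IsHom Q u →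
      Function.Surjective u → LinearMap.ker u = N → P Q := by
    intro N
    induction N using IsNoetherian.induction with
    | hgt N ih =>
      intro Q u hu hs hN
      rcases subsingleton_or_nontrivial Q.M with h | h
      · exact h0 Q h
      obtain ⟨p, γ, k1, k2, m, k3, k4⟩ := Q.exists_prime
      have k5 : ((one X).shift (-γ)).IsHom Q (LinearMap.toSpanSingleton X.R Q.M m) :=
        isHom_of_wt fun δ r hr => by
          have := smul_mem_wt (mem_shift_wt.1 hr) k3
          rwa [neg_add_cancel_right] at this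
      have k6 : p ≤ LinearMap.ker (LinearMap.toSpanSingleton X.R Q.M m) := fun r hr => (k4 r).1 hr
      refine h1 (((one X).quo p k2).shift (-γ)) Q k5.cokerM (p.liftQ _ k6) (Submodule.mkQ _)
        (fun g a => ?_) (isHom_mkQ _ _ _) ?_ ?_ (Submodule.mkQ_surjective _)
        (h2 p k2 _ k1 fun r hr => (k4 r).2 ?_)
        (ih _ ?_ _ _ ((isHom_mkQ _ _ _).comp hu) ((Submodule.mkQ_surjective _).comp hs) rfl)
      · obtain ⟨a, rfl⟩ := Submodule.Quotient.mk_surjective p a
        exact k5 g a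
      · exact LinearMap.ker_eq_bot.1 (Submodule.ker_liftQ_eq_bot _ _ _ fun r hr => (k4 r).2 hr)
      · exact fun y => (Submodule.Quotient.mk_eq_zero _).trans
          (SetLike.ext_iff.1 (p.range_liftQ _ k6) y).symm
      · obtain ⟨x, rfl⟩ := hs m
        rw [← map_smul, Module.mem_annihilator.1 hr, map_zero]
      · obtain ⟨x, rfl⟩ := hs m
        rw [← hN]
        refine lt_of_le_of_ne (LinearMap.ker_le_ker_comp _ _) fun e => k1.ne_top ?_
        have : x ∈ LinearMap.ker u := e ▸ (Submodule.Quotient.mk_eq_zero _).2 ⟨(1 : X.R), one_smul _ _⟩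
        exact (Ideal.eq_top_iff_one p).2 ((k4 1).2 ((one_smul _ _).trans this))
  exact key _ M LinearMap.id (IsHom.id M) Function.surjective_id rfl

theorem zeroAt_quo {p : Ideal X.R} {z : X.R →ₐ[ℂ] ℂ} (h : ∃ r ∈ p, z r ≠ 0) :
    ZeroAt z (X.R ⧸ p) := fun a => by
  obtain ⟨r, h1, h2⟩ := h
  obtain ⟨a, rfl⟩ := Submodule.Quotient.mk_surjective p a
  exact ⟨r, h2, (Submodule.Quotient.mk_eq_zero p).2 (p.mul_mem_right a h1)⟩

/-- the prime filtration -/
theorem cls_mem_of_prime {H : AddSubgroup (G X)} (M : GMod X)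
    (h : ∀ (p : Ideal X.R) (hp : (one X).Stab p) (γ : X.J → ℤ), p.IsPrime →
      Module.annihilator X.R M.M ≤ p → (∃ z : X.Pt, ∀ r ∈ p, z.1 r = 0) →
      cls (((one X).quo p hp).shift γ) ∈ H) : cls M ∈ H := by
  refine M.prime_induction (P := fun N => cls N ∈ H) 
    (fun N _ => (cls_subsingleton (M := N)).symm ▸ H.zero_mem)
    (fun A B C f g hf hg h1 h2 h3 hA hC => ?_) fun p hp γ h1 h2 => ?_
  · rw [cls_ses (ses_of_exact hf hg h1 h2 h3)]
    exact H.add_mem hA hC
  · by_cases h3 : ∃ z : X.Pt, ∀ r ∈ p, z.1 r = 0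
    · exact h p hp γ h1 h2 h3
    · push Not at h3
      rw [cls_zero (M := ((one X).quo p hp).shift γ) fun z => zeroAt_quo (h3 z)]
      exact H.zero_mem

end Vale.Agent.P297Z
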