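import Vale.Agent.P297Z.K.Loc

/-!
# P297: fibres of modules at a complex point
-/

set_option linter.all false

noncomputable section

namespace Vale.Agent.P297Z

open Submodule.Quotient (mk)

variable {R : Type} [CommRing R] [Algebra ℂ R] {z : R →ₐ[ℂ] ℂ} {A B C D : Type} [AddCommGroup A]
  [Module R A] [AddCommGroup B] [Module R B] [AddCommGroup C] [Module R C] [AddCommGroup D]
  [Module R D]

theorem fib_surj (x : Fib z A) : ∃ a, mk a = x := Submodule.Quotient.mk_surjective _ x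

theorem fib_ker_smul {r : R} (hr : z r = 0) (x : Fib z A) : r • x = 0 := by
  obtain ⟨a, rfl⟩ := fib_surj x
  exact (Submodule.Quotient.mk_eq_zero _).2 (Submodule.smul_mem_smul hr Submodule.mem_top)

theorem fib_mem {S : Submodule R (Fib z A)} {r : R} (hr : z r ≠ 0) {x : Fib z A}
    (h : r • x ∈ S) : x ∈ S := by
  have h1 := fib_ker_smul (z := z) (r := 1 - algebraMap ℂ R (z r)⁻¹ * r) (by simp [hr]) x
  rw [sub_smul, one_smul, sub_eq_zero, mul_smul] at h1
  rw [h1]
  exact S.smul_mem _ h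

theorem fib_eq_zero {r : R} (hr : z r ≠ 0) {x : Fib z A} (h : r • x = 0) : x = 0 :=
  fib_mem (S := ⊥) hr h

theorem fibMap_mk (f : A →ₗ[R] B) (a : A) : fibMap z f (mk a) = mk (f a) := rfl

theorem fibMap_id (x : Fib z A) : fibMap z LinearMap.id x = x := by
  obtain ⟨a, rfl⟩ := fib_surj x; rfl

theorem fibMap_comp (g : B →ₗ[R] C) (f : A →ₗ[R] B) (x : Fib z A) :
    fibMap z (g ∘ₗ f) x = fibMap z g (fibMap z f x) := by
  obtain ⟨a, rfl⟩ := fib_surj x; rfl

theorem fibMap_add (f g : A →ₗ[R] B) (x : Fib z A) :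
    fibMap z (f + g) x = fibMap z f x + fibMap z g x := by
  obtain ⟨a, rfl⟩ := fib_surj x; rfl

theorem fibMap_sub (f g : A →ₗ[R] B) (x : Fib z A) :
    fibMap z (f - g) x = fibMap z f x - fibMap z g x := by
  obtain ⟨a, rfl⟩ := fib_surj x; rfl

theorem fibMap_smul (r : R) (f : A →ₗ[R] B) (x : Fib z A) :
    fibMap z (r • f) x = r • fibMap z f x := by
  obtain ⟨a, rfl⟩ := fib_surj x; rfl

theorem fibMap_zero (x : Fib z A) : fibMap z (0 : A →ₗ[R] B) x = 0 := by
  obtain ⟨a, rfl⟩ := fib_surj x; rfl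

theorem fibMap_of_comp {f : A →ₗ[R] B} {g : B →ₗ[R] C} {u : A →ₗ[R] C} {r : R}
    (h : ∀ a, g (f a) = r • u a) (x : Fib z A) :
    fibMap z g (fibMap z f x) = r • fibMap z u x := by
  obtain ⟨a, rfl⟩ := fib_surj x
  rw [fibMap_mk, fibMap_mk, h]; rfl

theorem fibMap_comp_zero {f : A →ₗ[R] B} {g : B →ₗ[R] C} (h : ∀ a, g (f a) = 0) (x : Fib z A) :
    fibMap z g (fibMap z f x) = 0 := by
  obtain ⟨a, rfl⟩ := fib_surj x
  rw [fibMap_mk, fibMap_mk, h]; rfl

theorem SurjAt.fib {f : A →ₗ[R] B} (h : SurjAt z f) : Function.Surjective (fibMap z f) := by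
  intro x
  obtain ⟨b, rfl⟩ := fib_surj x
  obtain ⟨r, a, h1, h2⟩ := h b
  exact fib_mem (S := LinearMap.range (fibMap z f)) h1 ⟨mk a, by rw [fibMap_mk, h2]; rfl⟩

theorem fib_inj_of_left {f : A →ₗ[R] B} {t : B →ₗ[R] A} {r : R} (hr : z r ≠ 0)
    (h : ∀ a, t (f a) = r • a) : Function.Injective (fibMap z f) :=
  (injective_iff_map_eq_zero _).2 fun x hx => fib_eq_zero hr (by
    rw [← fibMap_id x, ← fibMap_of_comp (u := LinearMap.id) h, hx, map_zero])

theorem IsoAt.fib {f : A →ₗ[R] B} (h : IsoAt z f) : Function.Bijective (fibMap z f) :=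
  ⟨h.elim fun _ ⟨_, h1, h2, _⟩ => fib_inj_of_left h1 h2, h.surjAt.fib⟩

/-- the lemma of Nakayama -/
theorem zeroAt_iff_fib [Module.Finite R A] : ZeroAt z A ↔ ∀ x : Fib z A, x = 0 := by
  refine ⟨fun h x => ?_, fun h => ?_⟩
  · obtain ⟨a, rfl⟩ := fib_surj x
    obtain ⟨r, h1, h2⟩ := h a
    exact fib_eq_zero h1 (by rw [← Submodule.Quotient.mk_smul, h2]; rfl)
  · obtain ⟨r, h1, h2⟩ := Submodule.exists_sub_one_mem_and_smul_eq_zero_of_fg_of_le_smul
      (RingHom.ker z) (⊤ : Submodule R A) Module.Finite.fg_top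
      fun a _ => (Submodule.Quotient.mk_eq_zero _).1 (h (mk a))
    rw [RingHom.mem_ker, map_sub, map_one, sub_eq_zero] at h1
    exact fun a => ⟨r, by rw [h1]; exact one_ne_zero, h2 a trivial⟩

theorem surjAt_iff_fib [Module.Finite R B] {f : A →ₗ[R] B} :
    SurjAt z f ↔ Function.Surjective (fibMap z f) := by
  refine ⟨SurjAt.fib, fun h => surjAt_iff_coker.2 (zeroAt_iff_fib.2 fun x => ?_)⟩
  obtain ⟨y, rfl⟩ := (SurjAt.of_surj (z := z) (LinearMap.range f).mkQ_surjective).fib x
  obtain ⟨w, rfl⟩ := h y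
  exact fibMap_comp_zero (g := (LinearMap.range f).mkQ)
    (fun a => (Submodule.Quotient.mk_eq_zero _).2 (LinearMap.mem_range_self f a)) w

/-- the fibre is right exact -/
theorem fib_exact {f : A →ₗ[R] B} {g : B →ₗ[R] C} (h0 : ∀ a, g (f a) = 0) (h2 : ExAt z f g)
    (h3 : SurjAt z g) : Function.Exact (fibMap z f) (fibMap z g) := by
  refine fun x => ⟨fun hx => ?_, fun ⟨y, hy⟩ => hy ▸ fibMap_comp_zero h0 y⟩
  obtain ⟨b, rfl⟩ := fib_surj x
  have key : ∀ c ∈ (RingHom.ker z • ⊤ : Submodule R C), ∃ r, z r ≠ 0 ∧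
      ∃ w ∈ (RingHom.ker z • ⊤ : Submodule R B), g w = r • c := by
    intro c hc
    refine Submodule.smul_induction_on hc (fun s hs c _ => ?_) ?_
    · obtain ⟨r, w, h1, h2⟩ := h3 c
      exact ⟨r, h1, s • w, Submodule.smul_mem_smul hs trivial, by rw [map_smul, h2, smul_comm]⟩
    · rintro c c' ⟨r, h1, w, h2, h3⟩ ⟨r', k1, w', k2, k3⟩
      refine ⟨r * r', ev_mul h1 k1, r' • w + r • w', add_mem (Submodule.smul_mem _ _ h2)
        (Submodule.smul_mem _ _ k2), ?_⟩
      simp only [map_add, map_smul, h3, k3, smul_add, smul_smul, mul_comm]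
  obtain ⟨r, h1, w, h4, h5⟩ := key _ ((Submodule.Quotient.mk_eq_zero _).1 hx)
  obtain ⟨s, a, h6, h7⟩ := h2 (r • b - w) (by rw [map_sub, map_smul, h5, sub_self])
  refine fib_mem (S := LinearMap.range (fibMap z f)) (ev_mul h6 h1) ⟨mk a, ?_⟩
  rw [fibMap_mk, h7, Submodule.Quotient.mk_smul, Submodule.Quotient.mk_sub,
    (Submodule.Quotient.mk_eq_zero _).2 h4, sub_zero, mul_smul, Submodule.Quotient.mk_smul]

theorem mk_pi_eq_zero {ι : Type} [Fintype ι] {v : ι → R} :
    (mk v : Fib z (ι → R)) = 0 ↔ ∀ i, z (v i) = 0 := by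
  classical
  rw [Submodule.Quotient.mk_eq_zero]
  constructor
  · refine fun h => Submodule.smul_induction_on (p := fun v => ∀ i, z (v i) = 0) h
      (fun s hs c _ i => ?_) fun x y hx hy i => ?_
    · rw [Pi.smul_apply, smul_eq_mul, map_mul, show z s = 0 from hs, zero_mul]
    · rw [Pi.add_apply, map_add, hx, hy, add_zero]
  · intro h
    rw [pi_eq_sum_univ' v]
    exact Submodule.sum_mem _ fun i _ => Submodule.smul_mem_smul (h i) trivial

/-- a map that kills the kernel of `g` up to a multiplier descends along `g` -/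
theorem exists_desc {g : B →ₗ[R] C} {u : B →ₗ[R] D} {r s : R} (h1 : ∀ b, g b = 0 → r • u b = 0)
    (h2 : ∀ c, ∃ b, g b = s • c) : ∃ t : C →ₗ[R] D, ∀ c b, g b = s • c → t c = r • u b := by
  refine ⟨(LinearMap.ker g).liftQ (r • u) (fun a ha => h1 a ha) ∘ₗ
    g.quotKerEquivRange.symm.toLinearMap ∘ₗ
    (s • LinearMap.id : C →ₗ[R] C).codRestrict (LinearMap.range g) h2, fun c b hb => ?_⟩
  have : (s • LinearMap.id : C →ₗ[R] C).codRestrict (LinearMap.range g) h2 c = ⟨g b, b, rfl⟩ :=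
    Subtype.ext hb.symm
  rw [LinearMap.comp_apply, LinearMap.comp_apply, this, LinearEquiv.coe_coe,
    g.quotKerEquivRange_symm_apply_image b ⟨b, rfl⟩]
  rfl

section dim

variable [Module ℂ A] [IsScalarTower ℂ R A] [Module ℂ B] [IsScalarTower ℂ R B] [Module ℂ C]
  [IsScalarTower ℂ R C]

theorem fib_smul (r : R) (x : Fib z A) : r • x = z r • x := by
  have h := fib_ker_smul (z := z) (r := r - algebraMap ℂ R (z r)) (by simp) x
  rwa [sub_smul, sub_eq_zero, algebraMap_smul] at h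

variable (z) in
/-- the map on fibres, as a complex linear map -/
def fibC (f : A →ₗ[R] B) : Fib z A →ₗ[ℂ] Fib z B := (fibMap z f).restrictScalars ℂ

theorem fibC_apply (f : A →ₗ[R] B) (x : Fib z A) : fibC z f x = fibMap z f x := rfl

/-- a complex linear map of fibres is linear over the ring -/
def fibR (u : Fib z A →ₗ[ℂ] Fib z B) : Fib z A →ₗ[R] Fib z B where
  toFun := u
  map_add' := u.map_add
  map_smul' r x := by rw [fib_smul, map_smul, RingHom.id_apply, fib_smul]

variable (z A) in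
/-- the dimension of the fibre -/
def fdim : ℕ := Module.finrank ℂ (Fib z A)

variable (z) in
/-- the rank of the map on fibres -/
def frk (f : A →ₗ[R] B) : ℕ := Module.finrank ℂ (LinearMap.range (fibC z f))

instance fib_finite [Module.Finite R A] : Module.Finite ℂ (Fib z A) := by
  obtain ⟨s, hs⟩ : (⊤ : Submodule R (Fib z A)).FG := Module.Finite.fg_top
  refine ⟨s, eq_top_iff.2 fun x _ => ?_⟩
  have hx : x ∈ Submodule.span R (s : Set (Fib z A)) := hs ▸ Submodule.mem_top
  exact Submodule.span_induction (fun _ h => Submodule.subset_span h) (zero_mem _)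
    (fun _ _ _ _ => add_mem) (fun r x _ h => fib_smul r x ▸ Submodule.smul_mem _ _ h) hx

variable (z) in
/-- the fibre of a free module -/
def fibPi (ι : Type) [Fintype ι] : (ι → ℂ) ≃ₗ[ℂ] Fib z (ι → R) :=
  LinearEquiv.ofBijective
    (((RingHom.ker z • ⊤ : Submodule R (ι → R)).mkQ.restrictScalars ℂ) ∘ₗ
      (Algebra.linearMap ℂ R).compLeft ι)
    ⟨(injective_iff_map_eq_zero _).2 fun c hc => funext fun i => by
      simpa using mk_pi_eq_zero.1 hc i, fun x => by
      obtain ⟨v, rfl⟩ := fib_surj x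
      refine ⟨fun i => z (v i), sub_eq_zero.1 ?_⟩
      change mk _ - mk _ = 0
      rw [← Submodule.Quotient.mk_sub, mk_pi_eq_zero]
      simp⟩

theorem fibPi_apply {ι : Type} [Fintype ι] (c : ι → ℂ) :
    fibPi z ι c = mk fun i => algebraMap ℂ R (c i) := rfl

theorem fibMap_lc {ι : Type} [Fintype ι] (m : ι → A) (c : ι → ℂ) :
    fibMap z (Fintype.linearCombination R m) (fibPi z ι c) =
      Fintype.linearCombination ℂ (fun i => (mk (m i) : Fib z A)) c := by
  rw [fibPi_apply, fibMap_mk, Fintype.linearCombination_apply, Fintype.linearCombination_apply,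
    ← Submodule.mkQ_apply, map_sum]
  exact Finset.sum_congr rfl fun i _ => by rw [map_smul, algebraMap_smul]; rfl

theorem fib_lc_inj {ι : Type} [Fintype ι] {m : ι → A}
    (h : LinearIndependent ℂ fun i => (mk (m i) : Fib z A)) :
    Function.Injective (fibMap z (Fintype.linearCombination R m)) := by
  intro x y hxy
  obtain ⟨x, rfl⟩ := (fibPi z ι).surjective x
  obtain ⟨y, rfl⟩ := (fibPi z ι).surjective y
  rw [fibMap_lc, fibMap_lc] at hxy
  rw [h.fintypeLinearCombination_injective hxy]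

theorem fib_lc_range {ι : Type} [Fintype ι] (m : ι → A) :
    LinearMap.range (fibC z (Fintype.linearCombination R m)) =
      Submodule.span ℂ (Set.range fun i => (mk (m i) : Fib z A)) := by
  rw [← Fintype.range_linearCombination, ← LinearMap.range_comp_of_range_eq_top _
    (fibPi z ι).range]
  congr 1
  exact LinearMap.ext (fibMap_lc m)

theorem surjAt_of_span [Module.Finite R A] {ι : Type} [Fintype ι] {m : ι → A}
    (h : Submodule.span ℂ (Set.range fun i => (mk (m i) : Fib z A)) = ⊤) :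
    SurjAt z (Fintype.linearCombination R m) :=
  surjAt_iff_fib.2 (LinearMap.range_eq_top.1 ((fib_lc_range m).trans h) :)

theorem fdim_eq_of_bij {f : A →ₗ[R] B} (h : Function.Bijective (fibMap z f)) :
    fdim z A = fdim z B := (LinearEquiv.ofBijective (fibC z f) h).finrank_eq

theorem IsoAt.fdim {f : A →ₗ[R] B} (h : IsoAt z f) : fdim z A = fdim z B := fdim_eq_of_bij h.fib

theorem fdim_fun (ι : Type) [Fintype ι] : fdim z (ι → R) = Fintype.card ι := by
  rw [fdim, ← (fibPi z ι).finrank_eq, Module.finrank_fintype_fun_eq_card]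

theorem FreeAt.fdim {n : ℕ} (h : FreeAt z A n) : fdim z A = n :=
  h.elim fun _ he => by rw [← he.fdim, fdim_fun, Fintype.card_fin]

theorem fdim_eq_zero_iff [Module.Finite R A] : fdim z A = 0 ↔ ZeroAt z A := by
  rw [zeroAt_iff_fib, fdim, finrank_zero_iff_forall_zero]

theorem fdim_le_of_surj [Module.Finite R A] {f : A →ₗ[R] B}
    (h : Function.Surjective (fibMap z f)) : fdim z B ≤ fdim z A :=
  LinearMap.finrank_le_finrank_of_surjective (f := fibC z f) h

theorem fib_bij_of_surj [Module.Finite R A] [Module.Finite R B] {f : A →ₗ[R] B}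
    (h : Function.Surjective (fibMap z f)) (hd : fdim z A ≤ fdim z B) :
    Function.Bijective (fibMap z f) :=
  ⟨(LinearMap.injective_iff_surjective_of_finrank_eq_finrank (f := fibC z f)
    (le_antisymm hd (fdim_le_of_surj h))).2 h, h⟩

theorem frk_of_inj {f : A →ₗ[R] B} (h : Function.Injective (fibMap z f)) : frk z f = fdim z A :=
  LinearMap.finrank_range_of_inj (f := fibC z f) h

theorem frk_of_surj {f : A →ₗ[R] B} (h : Function.Surjective (fibMap z f)) :
    frk z f = fdim z B := by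
  rw [frk, LinearMap.range_eq_top.2 (show Function.Surjective (fibC z f) from h), finrank_top]
  rfl

theorem frk_add_of_exact [Module.Finite R B] {f : A →ₗ[R] B} {g : B →ₗ[R] C}
    (h : Function.Exact (fibMap z f) (fibMap z g)) : frk z f + frk z g = fdim z B := by
  have h1 : LinearMap.ker (fibC z g) = LinearMap.range (fibC z f) :=
    LinearMap.exact_iff.1 (show Function.Exact (fibC z f) (fibC z g) from h)
  rw [frk, frk, ← h1, add_comm]
  exact LinearMap.finrank_range_add_finrank_ker _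

theorem frk_add_coker [Module.Finite R B] (f : A →ₗ[R] B) :
    frk z f + fdim z (B ⧸ LinearMap.range f) = fdim z B := by
  have h := SurjAt.of_surj (z := z) (LinearMap.range f).mkQ_surjective
  rw [← frk_of_surj h.fib]
  exact frk_add_of_exact (fib_exact (fun a => (Submodule.Quotient.mk_eq_zero _).2 ⟨a, rfl⟩)
    (ExAt.of_ker fun b hb => (Submodule.Quotient.mk_eq_zero _).1 hb) h)

/-- generators that form a basis of the fibre -/
theorem exists_gen [Module.Finite R A] : ∃ e : (Fin (fdim z A) → R) →ₗ[R] A, SurjAt z e := by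
  choose m hm using fun i => fib_surj (Module.finBasis ℂ (Fib z A) i)
  exact ⟨_, surjAt_of_span (m := m) (by simp only [hm]; exact Module.Basis.span_eq _)⟩

/-- the dimension of the fibre is upper semicontinuous -/
theorem fdim_nhd [Module.Finite R A] :
    ∃ r, z r ≠ 0 ∧ ∀ z' : R →ₐ[ℂ] ℂ, z' r ≠ 0 → fdim z' A ≤ fdim z A := by
  obtain ⟨e, he⟩ := exists_gen (z := z) (A := A)
  refine he.nhd.imp fun r h => ⟨h.1, fun z' h' => (fdim_le_of_surj (h.2 z' h').fib).trans ?_⟩
  rw [fdim_fun, Fintype.card_fin]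

variable [IsNoetherianRing R]

/-- on a reduced space, generators in the number of the rank are a basis -/
theorem isoAt_of_rank [Module.Finite R A] {P : Set (R →ₐ[ℂ] ℂ)}
    (hP : ∀ r, (∀ y ∈ P, y r = 0) → r = 0) {n : ℕ} {e : (Fin n → R) →ₗ[R] A} (he : SurjAt z e)
    {s : R} (hs : z s ≠ 0) (h : ∀ y ∈ P, y s ≠ 0 → n ≤ fdim y A) : IsoAt z e := by
  obtain ⟨r, h1, h2⟩ := he.nhd
  refine isoAt_of (fun v hv => ⟨r * s, ev_mul h1 hs, funext fun i => hP _ fun y hy => ?_⟩) he
  rw [Pi.smul_apply, smul_eq_mul, map_mul, map_mul]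
  by_cases k1 : y r = 0
  · simp [k1]
  by_cases k2 : y s = 0
  · simp [k2]
  have h3 := (fib_bij_of_surj (h2 y k1).fib (by
    rw [fdim_fun, Fintype.card_fin]; exact h y hy k2)).1
  rw [mk_pi_eq_zero.1 (h3 (by rw [fibMap_mk, hv, map_zero]; rfl)) i, mul_zero]

theorem freeAt_of_rank [Module.Finite R A] {P : Set (R →ₐ[ℂ] ℂ)}
    (hP : ∀ r, (∀ y ∈ P, y r = 0) → r = 0) {s : R} (hs : z s ≠ 0)
    (h : ∀ y ∈ P, y s ≠ 0 → fdim z A ≤ fdim y A) : FreeAt z A (fdim z A) :=
  exists_gen.elim fun e he => ⟨e, isoAt_of_rank hP he hs h⟩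

/-- a direct summand of a free module is free -/
theorem FreeAt.of_summand [Module.Finite R C] {n : ℕ} (hD : FreeAt z D n) {s : C →ₗ[R] D}
    {g : D →ₗ[R] C} {r : R} (hr : z r ≠ 0) (h : ∀ c, g (s c) = r • c) :
    FreeAt z C (P297Z.fdim z C) := by
  obtain ⟨e, he⟩ := exists_gen (z := z) (A := C)
  obtain ⟨r1, t, h1, h2⟩ := hD.lift (g := e) (u := g) fun d => he (g d)
  have h3 := fib_bij_of_surj he.fib (by rw [fdim_fun, Fintype.card_fin])
  have h4 : SurjAt z ((t ∘ₗ s) ∘ₗ e) := surjAt_iff_fib.2 fun x =>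
    fib_mem (S := LinearMap.range (fibMap z _)) (ev_mul h1 hr) ⟨x, h3.1 (by
      rw [fibMap_of_comp (u := e) (r := r1 * r) (fun v => by simp [h2, h, mul_smul]), map_smul])⟩
  exact ⟨e, isoAt_of (InjAt.of_surjAt_end h4).of_comp he⟩

/-- a map of free modules that is injective on the fibre has a left inverse -/
theorem exists_left_inv [Module.Finite R A] {m n : ℕ} (hA : FreeAt z A m) (hB : FreeAt z B n)
    {f : A →ₗ[R] B} (h : Function.Injective (fibMap z f)) :
    ∃ (r : R) (t : B →ₗ[R] A), z r ≠ 0 ∧ ∀ a, t (f a) = r • a := by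
  obtain ⟨τ, hτ⟩ := (fibC z f).exists_leftInverse_of_injective (LinearMap.ker_eq_bot.2 h)
  obtain ⟨r, t, h1, h2⟩ := hB.lift (g := (RingHom.ker z • ⊤ : Submodule R A).mkQ)
    (u := fibR τ ∘ₗ (RingHom.ker z • ⊤ : Submodule R B).mkQ)
    fun b => SurjAt.of_surj (Submodule.mkQ_surjective _) _
  have h3 : SurjAt z (t ∘ₗ f) := surjAt_iff_fib.2 fun x =>
    fib_mem (S := LinearMap.range (fibMap z _)) h1 ⟨x, by
      obtain ⟨a, rfl⟩ := fib_surj x
      exact (h2 (f a)).trans (congrArg (r • ·) (LinearMap.congr_fun hτ (mk a)))⟩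
  obtain ⟨r', u, k1, k2, -⟩ := isoAt_of_surjAt hA hA h3
  exact ⟨r', u ∘ₗ t, k1, k2⟩

/-- exactness can be checked on the fibre when the target is free -/
theorem exAt_of_fib [Module.Finite R B] {n : ℕ} (hC : FreeAt z C n) {f : D →ₗ[R] B}
    {g : B →ₗ[R] C} (h0 : ∀ a, g (f a) = 0)
    (h : ∀ y, fibMap z g y = 0 → ∃ x, fibMap z f x = y) : ExAt z f g := by
  obtain ⟨W, hW⟩ := ((LinearMap.range (fibMap z f)).restrictScalars ℂ).exists_isCompl
  choose m hm using fun i => fib_surj (Module.finBasis ℂ W i).1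
  have h1 : LinearMap.range (fibC z (Fintype.linearCombination R m)) = W := by
    rw [fib_lc_range]
    simp only [hm]
    conv_rhs => rw [← W.map_subtype_top, ← (Module.finBasis ℂ W).span_eq, Submodule.map_span,
      ← Set.range_comp]
    rfl
  have h2 : Function.Injective (fibMap z (Fintype.linearCombination R m)) := fib_lc_inj (by
    simp only [hm]
    exact (Module.finBasis ℂ W).linearIndependent.map' W.subtype W.ker_subtype)
  generalize Fintype.linearCombination R m = w at h1 h2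
  have h3 : SurjAt z (f.coprod w) := surjAt_iff_fib.2 fun y => by
    have hy : y ∈ _ ⊔ W := hW.sup_eq_top ▸ Submodule.mem_top
    rw [← h1] at hy
    obtain ⟨_, ⟨a, rfl⟩, _, ⟨v, rfl⟩, rfl⟩ := Submodule.mem_sup.1 hy
    obtain ⟨a, rfl⟩ := fib_surj a
    obtain ⟨v, rfl⟩ := fib_surj v
    exact ⟨mk (a, v), rfl⟩
  obtain ⟨r, t, h4, h5⟩ := exists_left_inv (freeAt_pi _) hC (f := g ∘ₗ w)
    ((injective_iff_map_eq_zero _).2 fun x hx => h2 (by
      rw [fibMap_comp] at hx
      rw [map_zero]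
      exact Submodule.disjoint_def.1 hW.disjoint _ (h _ hx) (h1.le ⟨x, rfl⟩)))
  intro b hb
  obtain ⟨s, ⟨a, v⟩, h6, h7⟩ := h3 b
  rw [LinearMap.coprod_apply] at h7
  have h8 : g (w v) = 0 := by
    have := congrArg g h7
    rwa [map_add, h0, zero_add, map_smul, hb, smul_zero] at this
  have h9 : r • v = 0 := by rw [← h5, LinearMap.comp_apply, h8, map_zero]
  refine ⟨r * s, r • a, ev_mul h4 h6, ?_⟩
  rw [mul_smul, ← h7, smul_add, ← map_smul w, h9, map_zero, add_zero, map_smul]

theorem injAt_of_fib [Module.Finite R B] {n : ℕ} (hC : FreeAt z C n) {g : B →ₗ[R] C}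
    (h : Function.Injective (fibMap z g)) : InjAt z g := fun b hb => by
  obtain ⟨r, a, h1, h2⟩ := exAt_of_fib hC (f := (0 : B →ₗ[R] B)) (fun _ => map_zero g)
    (fun y hy => ⟨0, (map_zero _).trans (h (hy.trans (map_zero _).symm)).symm⟩) b hb
  exact ⟨r, h1, h2.symm⟩

theorem isoAt_of_fib [Module.Finite R B] [Module.Finite R C] {n : ℕ} (hC : FreeAt z C n)
    {g : B →ₗ[R] C} (h : Function.Bijective (fibMap z g)) : IsoAt z g :=
  isoAt_of (injAt_of_fib hC h.1) (surjAt_iff_fib.2 h.2)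

variable [Module.Finite R A] [Module.Finite R B] [Module.Finite R C] {f : A →ₗ[R] B}
  {g : B →ₗ[R] C}

/-- a short exact sequence with a free quotient stays exact on the fibres -/
theorem fib_inj_of_ses {n : ℕ} (hC : FreeAt z C n) (h0 : ∀ a, g (f a) = 0) (h1 : InjAt z f)
    (h2 : ExAt z f g) (h3 : SurjAt z g) : Function.Injective (fibMap z f) := by
  obtain ⟨r, s, t, k0, -, k2, -⟩ := exists_split hC h0 h1 h2 h3
  exact fib_inj_of_left k0 k2

theorem fdim_add (h0 : ∀ a, g (f a) = 0) (h1 : Function.Injective (fibMap z f))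
    (h2 : ExAt z f g) (h3 : SurjAt z g) : fdim z A + fdim z C = fdim z B := by
  rw [← frk_of_inj h1, ← frk_of_surj h3.fib, frk_add_of_exact (fib_exact h0 h2 h3)]

/-- the kernel of a surjection of free modules is free -/
theorem FreeAt.left {m n : ℕ} (hB : FreeAt z B (m + n)) (hC : FreeAt z C n)
    (h0 : ∀ a, g (f a) = 0) (h1 : InjAt z f) (h2 : ExAt z f g) (h3 : SurjAt z g) :
    FreeAt z A m := by
  obtain ⟨r, s, t, k0, -, k2, -⟩ := exists_split hC h0 h1 h2 h3
  have h4 := fdim_add h0 (fib_inj_of_left k0 k2) h2 h3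
  rw [hB.fdim, hC.fdim] at h4
  exact (Nat.add_right_cancel h4) ▸ hB.of_summand k0 k2

/-- the cokernel of a map of free modules that is injective on the fibre is free -/
theorem FreeAt.right {m n : ℕ} (hA : FreeAt z A m) (hB : FreeAt z B (m + n))
    (h0 : ∀ a, g (f a) = 0) (h1 : Function.Injective (fibMap z f)) (h2 : ExAt z f g)
    (h3 : SurjAt z g) : FreeAt z C n := by
  obtain ⟨r, t, k0, k1⟩ := exists_left_inv hA hB h1
  obtain ⟨r2, k2, k3⟩ := h2.unif
  obtain ⟨r3, k4, k5⟩ := h3.unif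
  obtain ⟨s, hs⟩ := exists_desc (u := (r • LinearMap.id - f ∘ₗ t : B →ₗ[R] B)) (r := r2)
    (fun b hb => by
      obtain ⟨a, ha⟩ := k3 b hb
      rw [← map_smul, ← ha]
      simp [k1]) k5
  have h4 := fdim_add h0 h1 h2 h3
  rw [hA.fdim, hB.fdim] at h4
  refine (Nat.add_left_cancel h4) ▸ hB.of_summand (s := s) (g := g) (ev_mul (ev_mul k2 k0) k4)
    fun c => ?_
  obtain ⟨b, hb⟩ := k5 c
  rw [hs c b hb]
  simp [h0, hb, mul_smul]

end dim

theorem FreeAt.unique {m n : ℕ} (h : FreeAt z A m) (h' : FreeAt z A n) : m = n := by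
  letI : Module ℂ A := Module.compHom A (algebraMap ℂ R)
  haveI : IsScalarTower ℂ R A := IsScalarTower.of_algebraMap_smul fun _ _ => rfl
  exact h.fdim.symm.trans h'.fdim

end Vale.Agent.P297Z
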