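import Mathlib

/-!
# Generic freeness, through standard monomials
-/

set_option linter.all false

noncomputable section

namespace Vale.Agent.P297Z

open Submodule Set

namespace GenFree

variable {D Q M : Type} [CommRing D] [AddCommGroup Q] [Module D Q] [AddCommGroup M] [Module D M]

/-- the saturation with respect to the powers of `c` -/
def sat (c : D) (W : Submodule D Q) : Submodule D Q where
  carrier := {x | ∃ n : ℕ, c ^ n • x ∈ W}
  zero_mem' := ⟨0, by simp⟩
  add_mem' := by
    rintro x y ⟨m, hm⟩ ⟨n, hn⟩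
    refine ⟨m + n, ?_⟩
    rw [smul_add]
    refine W.add_mem ?_ ?_
    · rw [add_comm, pow_add, mul_smul]
      exact W.smul_mem _ hm
    · rw [pow_add, mul_smul]
      exact W.smul_mem _ hn
  smul_mem' := by
    rintro d x ⟨n, hn⟩
    exact ⟨n, by rw [smul_comm]; exact W.smul_mem _ hn⟩

/-- the standard members of an ordered spanning family -/
theorem basis_of {ι : Type} [LinearOrder ι] [WellFoundedLT ι] (v : ι → Q)
    (hv : span D (range v) = ⊤) (c : D) (S : Set ι)
    (h1 : ∀ i ∈ S, ∀ d : D, d • v i ∈ span D (v '' Iio i) → d = 0)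
    (h2 : ∀ i ∉ S, c • v i ∈ span D (v '' Iio i)) :
    LinearIndependent D (fun i : S => v i) ∧
      ∀ x, ∃ n : ℕ, c ^ n • x ∈ span D (range fun i : S => v i) := by
  constructor
  · rw [linearIndependent_iff']
    intro s g
    induction s using Finset.induction_on_max with
    | empty => simp
    | insert a s ha ih =>
      intro h
      rw [Finset.sum_insert fun h => (ha a h).false] at h
      have h0 : g a = 0 := by
        refine h1 a a.2 _ ?_
        rw [eq_neg_of_add_eq_zero_left h]
        exact neg_mem (sum_mem fun i hi => smul_mem _ _ (subset_span ⟨i, ha i hi, rfl⟩))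
      rw [h0, zero_smul, zero_add] at h
      intro i hi
      rcases Finset.mem_insert.1 hi with rfl | hi
      · exact h0
      · exact ih h i hi
  · have key : ∀ i, v i ∈ sat c (span D (range fun i : S => v i)) := by
      intro i
      induction i using WellFoundedLT.induction with
      | ind i ih =>
        by_cases hi : i ∈ S
        · exact ⟨0, by rw [pow_zero, one_smul]; exact subset_span ⟨⟨i, hi⟩, rfl⟩⟩
        · have h3 : span D (v '' Iio i) ≤ sat c (span D (range fun i : S => v i)) :=
            span_le.2 (by rintro _ ⟨j, hj, rfl⟩; exact ih j hj)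
          obtain ⟨n, hn⟩ := h3 (h2 i hi)
          exact ⟨n + 1, by rwa [pow_succ, mul_smul]⟩
    have h4 : (⊤ : Submodule D Q) ≤ sat c (span D (range fun i : S => v i)) := by
      rw [← hv]
      exact span_le.2 (by rintro _ ⟨j, rfl⟩; exact key j)
    exact fun x => h4 mem_top

/-- a module which is free after inverting `c` has pure kernels -/
theorem pure {ι : Type} {e : ι → Q} {c : D} (h1 : LinearIndependent D e)
    (h2 : ∀ x, ∃ n : ℕ, c ^ n • x ∈ span D (range e)) (π : M →ₗ[D] Q)
    (hπ : Function.Surjective π) (a : Ideal D) {x : M} (hx : π x = 0)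
    (ha : x ∈ a • (⊤ : Submodule D M)) : ∃ n : ℕ, c ^ n • x ∈ a • LinearMap.ker π := by
  choose m hm using fun i => hπ (e i)
  have hg : ∀ l, π (Finsupp.linearCombination D m l) = Finsupp.linearCombination D e l :=
    fun l => by rw [Finsupp.apply_linearCombination]; congr 2; exact funext hm
  set W := LinearMap.range (Finsupp.linearCombination D m) with hW
  have h3 : ∀ y : M, ∃ n : ℕ, c ^ n • y ∈ LinearMap.ker π ⊔ W := by
    intro y
    obtain ⟨n, hn⟩ := h2 (π y)
    rw [← Finsupp.range_linearCombination] at hn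
    obtain ⟨l, hl⟩ := hn
    refine ⟨n, mem_sup.2 ⟨c ^ n • y - Finsupp.linearCombination D m l, ?_, _, ⟨l, rfl⟩,
      sub_add_cancel _ _⟩⟩
    rw [LinearMap.mem_ker, map_sub, map_smul, hg, hl, sub_self]
  have h4 : a • (⊤ : Submodule D M) ≤ sat c (a • (LinearMap.ker π ⊔ W)) := by
    refine smul_le.2 fun r hr y _ => ?_
    obtain ⟨n, hn⟩ := h3 y
    exact ⟨n, by rw [smul_comm]; exact smul_mem_smul hr hn⟩
  obtain ⟨n, hn⟩ := h4 ha
  rw [smul_sup] at hn
  obtain ⟨z, hz, w, hw, e⟩ := mem_sup.1 hn
  obtain ⟨l, rfl⟩ : w ∈ W := smul_le_right hw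
  have hz0 : π z = 0 := smul_le_right hz
  have h5 := congrArg π e
  rw [map_add, map_smul, hx, smul_zero, hz0, zero_add, hg] at h5
  rw [linearIndependent_iff.1 h1 l h5, map_zero, add_zero] at e
  exact ⟨n, e ▸ hz⟩

theorem flat {ι : Type} {e : ι → Q} {c : D} (h1 : LinearIndependent D e)
    (h2 : ∀ x, ∃ n : ℕ, c ^ n • x ∈ span D (range e)) :
    Module.Flat D (LocalizedModule (Submonoid.powers c) Q) := by
  have h : IsLocalizedModule (Submonoid.powers c)
      (LocalizedModule.mkLinearMap (Submonoid.powers c) Q ∘ₗ Finsupp.linearCombination D e) := by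
    refine ⟨IsLocalizedModule.map_units (LocalizedModule.mkLinearMap (Submonoid.powers c) Q),
      fun y => ?_, fun {x y} h => ?_⟩
    · obtain ⟨⟨x, s⟩, hs⟩ := IsLocalizedModule.surj (Submonoid.powers c)
        (LocalizedModule.mkLinearMap (Submonoid.powers c) Q) y
      obtain ⟨n, hn⟩ := h2 x
      rw [← Finsupp.range_linearCombination] at hn
      obtain ⟨l, hl⟩ := hn
      refine ⟨⟨l, ⟨c ^ n, n, rfl⟩ * s⟩, ?_⟩
      rw [LinearMap.comp_apply, hl, map_smul, ← hs, mul_smul]
      rfl
    · obtain ⟨s, hs⟩ := IsLocalizedModule.exists_of_eq (S := Submonoid.powers c)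
        (f := LocalizedModule.mkLinearMap (Submonoid.powers c) Q) h
      refine ⟨s, h1 ?_⟩
      rw [Submonoid.smul_def, Submonoid.smul_def, map_smul, map_smul]
      exact hs
  exact (Module.flat_iff_of_isLocalization (Localization (Submonoid.powers c))
    (Submonoid.powers c) _).1 (Module.Flat.of_isLocalizedModule _ (Submonoid.powers c)
      (LocalizedModule.mkLinearMap (Submonoid.powers c) Q ∘ₗ Finsupp.linearCombination D e))

end GenFree

open GenFree

/-- generic freeness: a basis up to the powers of `c` -/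
theorem generic_basis {D A M : Type} [CommRing D] [IsDomain D] [CommRing A]
    [Algebra D A] [Algebra.FiniteType D A] [AddCommGroup M] [Module A M] [Module D M]
    [IsScalarTower D A M] [Module.Finite A M] :
    ∃ c : D, c ≠ 0 ∧ ∃ (ι : Type) (e : ι → M), LinearIndependent D e ∧
      ∀ x, ∃ n : ℕ, c ^ n • x ∈ span D (range e) := by
  classical
  obtain ⟨n, f, hf⟩ := Algebra.FiniteType.iff_quotient_mvPolynomial''.1 ‹Algebra.FiniteType D A›
  obtain ⟨r, s, hs⟩ := Module.Finite.exists_fin (R := A) (M := M)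
  let w : Fin r → (Fin n →₀ ℕ) → M := fun j α => f (MvPolynomial.monomial α 1) • s j
  let ix : Fin r → (Fin n →₀ ℕ) → Fin r ×ₗ Lex (Fin n →₀ ℕ) := fun j α => toLex (j, toLex α)
  let v : Fin r ×ₗ Lex (Fin n →₀ ℕ) → M := fun i => w (ofLex i).1 (ofLex (ofLex i).2)
  have hv : span D (range v) = ⊤ := by
    refine eq_top_iff.2 fun x _ => ?_
    have hx : x ∈ span A (range s) := hs ▸ mem_top
    obtain ⟨a, rfl⟩ := (mem_span_range_iff_exists_fun A).1 hx
    refine sum_mem fun j _ => ?_
    obtain ⟨p, hp⟩ := hf (a j)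
    rw [← hp]
    clear hp
    induction p using MvPolynomial.induction_on' with
    | monomial u d =>
      have e : (MvPolynomial.monomial u d : MvPolynomial (Fin n) D) =
          d • MvPolynomial.monomial u 1 := by simp [MvPolynomial.smul_monomial]
      rw [e, map_smul, smul_assoc]
      exact smul_mem _ _ (subset_span ⟨ix j u, rfl⟩)
    | add p q hp hq => rw [map_add, add_smul]; exact add_mem hp hq
  have shift : ∀ (j : Fin r) (α β : Fin n →₀ ℕ) (d : D),
      d • v (ix j α) ∈ span D (v '' Iio (ix j α)) →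
      d • v (ix j (β + α)) ∈ span D (v '' Iio (ix j (β + α))) := by
    intro j α β d h
    let T : M →ₗ[D] M := (LinearMap.lsmul A M (f (MvPolynomial.monomial β 1))).restrictScalars D
    have hT : ∀ j α, T (w j α) = w j (β + α) := fun j α => by
      change f (MvPolynomial.monomial β 1) • f (MvPolynomial.monomial α 1) • s j = _
      rw [smul_smul, ← map_mul, MvPolynomial.monomial_mul, one_mul]
    have h1 := mem_map_of_mem (f := T) h
    rw [map_span, map_smul] at h1
    have e : T (v (ix j α)) = v (ix j (β + α)) := hT j α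
    rw [e] at h1
    refine span_mono ?_ h1
    rintro _ ⟨_, ⟨i, hi, rfl⟩, rfl⟩
    refine ⟨ix (ofLex i).1 (β + ofLex (ofLex i).2), ?_, (hT _ _).symm⟩
    rcases Prod.Lex.lt_iff.1 hi with h | ⟨h, h'⟩
    · exact Prod.Lex.lt_iff.2 (Or.inl h)
    · refine Prod.Lex.lt_iff.2 (Or.inr ⟨h, ?_⟩)
      change toLex β + (ofLex i).2 < toLex β + toLex α
      exact add_lt_add_right h' _
  let S : Set (Fin r ×ₗ Lex (Fin n →₀ ℕ)) :=
    {i | ∀ d : D, d • v i ∈ span D (v '' Iio i) → d = 0}
  have key : ∀ j : Fin r, ∃ c : D, c ≠ 0 ∧ ∀ α, ix j α ∉ S →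
      c • v (ix j α) ∈ span D (v '' Iio (ix j α)) := by
    intro j
    have hfin : {α | Minimal (· ∈ {α | ix j α ∉ S}) α}.Finite :=
      WellQuasiOrderedLE.finite_of_isAntichain (setOfPred_minimal_antichain _)
    have h1 : ∀ α, ∃ d : D, d ≠ 0 ∧ (ix j α ∉ S →
        d • v (ix j α) ∈ span D (v '' Iio (ix j α))) := by
      intro α
      by_cases h : ix j α ∈ S
      · exact ⟨1, one_ne_zero, fun h' => absurd h h'⟩
      · have h' := h
        simp only [S, mem_ofPred_eq, not_forall] at h'
        obtain ⟨d, hd, hd0⟩ := h'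
        exact ⟨d, hd0, fun _ => hd⟩
    choose d hd0 hd using h1
    refine ⟨∏ α ∈ hfin.toFinset, d α, Finset.prod_ne_zero_iff.2 fun α _ => hd0 α, fun α hα => ?_⟩
    obtain ⟨γ, hγ, hmin⟩ := exists_minimal_le_of_wellFoundedLT (· ∈ {α | ix j α ∉ S}) α hα
    obtain ⟨β, rfl⟩ : ∃ β, α = β + γ := ⟨α - γ, (tsub_add_cancel_of_le hγ).symm⟩
    rw [← Finset.prod_erase_mul _ _ (hfin.mem_toFinset.2 hmin), mul_smul]
    exact smul_mem _ _ (shift j γ β _ (hd γ hmin.prop))
  choose c hc0 hc using key
  refine ⟨∏ j, c j, Finset.prod_ne_zero_iff.2 fun j _ => hc0 j, S, fun i => v i,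
    basis_of v hv _ S (fun i hi => hi) fun i hi => ?_⟩
  rw [← Finset.prod_erase_mul _ _ (Finset.mem_univ (ofLex i).1), mul_smul]
  exact smul_mem _ _ (hc (ofLex i).1 (ofLex (ofLex i).2) hi)

theorem generic_free {D A M : Type} [CommRing D] [IsDomain D] [IsNoetherianRing D] [CommRing A]
    [Algebra D A] [Algebra.FiniteType D A] [AddCommGroup M] [Module A M] [Module D M]
    [IsScalarTower D A M] [Module.Finite A M] :
    ∃ c : D, c ≠ 0 ∧ Module.Flat D (LocalizedModule (Submonoid.powers c) M) := by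
  obtain ⟨c, hc, ι, e, h1, h2⟩ := generic_basis (D := D) (A := A) (M := M)
  exact ⟨c, hc, flat h1 h2⟩

theorem generic_inter {D A M : Type} [CommRing D] [IsDomain D] [CommRing A]
    [Algebra D A] [Algebra.FiniteType D A] [AddCommGroup M] [Module A M] [Module D M]
    [IsScalarTower D A M] [Module.Finite A M] (N : Submodule A M) :
    ∃ c : D, c ≠ 0 ∧ ∀ (a : Ideal D), ∀ x ∈ N,
      x ∈ a.map (algebraMap D A) • (⊤ : Submodule A M) →
        ∃ n : ℕ, c ^ n • x ∈ a.map (algebraMap D A) • N := by
  obtain ⟨c, hc, ι, e, h1, h2⟩ := generic_basis (D := D) (A := A) (M := M ⧸ N)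
  refine ⟨c, hc, fun a x hx ha => ?_⟩
  rw [← restrictScalars_mem D, Ideal.smul_restrictScalars, restrictScalars_top] at ha
  obtain ⟨n, hn⟩ := pure h1 h2 (N.mkQ.restrictScalars D) N.mkQ_surjective a
    ((Quotient.mk_eq_zero N).2 hx) ha
  refine ⟨n, ?_⟩
  rw [← restrictScalars_mem D, Ideal.smul_restrictScalars]
  rwa [LinearMap.ker_restrictScalars, ker_mkQ] at hn

/-- the same without a module structure over `D` -/
theorem generic_inter' {D A M : Type} [CommRing D] [IsDomain D] [CommRing A]
    [Algebra D A] [Algebra.FiniteType D A] [AddCommGroup M] [Module A M] [Module.Finite A M]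
    (N : Submodule A M) : ∃ c : D, c ≠ 0 ∧ ∀ (a : Ideal D), ∀ x ∈ N,
      x ∈ a.map (algebraMap D A) • (⊤ : Submodule A M) →
        ∃ n : ℕ, algebraMap D A c ^ n • x ∈ a.map (algebraMap D A) • N := by
  letI : Module D M := Module.compHom M (algebraMap D A)
  haveI : IsScalarTower D A M := IsScalarTower.of_compHom D A M
  obtain ⟨c, hc, h⟩ := generic_inter (D := D) N
  refine ⟨c, hc, fun a x hx ha => ?_⟩
  obtain ⟨n, hn⟩ := h a x hx ha
  exact ⟨n, by rwa [← map_pow, algebraMap_smul]⟩

end Vale.Agent.P297Z
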