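import Vale.Agent.P297Z.K.Part
import Vale.Agent.P297Z.K.GenFree
import Vale.Agent.P297Z.K.Fib

/-!
# P297: uniform exactness of the parts on the fibres
-/

set_option linter.all false

noncomputable section

namespace Vale.Agent.P297Z

/-- generic purity along a prime ideal of the base -/
theorem inter_prime {S R M : Type} [CommRing S] [CommRing R] [Algebra S R]
    [Algebra.FiniteType S R] [AddCommGroup M] [Module R M] [Module.Finite R M] (p : Ideal S)
    [p.IsPrime] (N : Submodule R M) :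
    ∃ c ∉ p, ∀ a : Ideal S, ∀ x ∈ N, x ∈ a.map (algebraMap S R) • (⊤ : Submodule R M) →
      ∃ n : ℕ, algebraMap S R c ^ n • x ∈
        a.map (algebraMap S R) • N ⊔ p.map (algebraMap S R) • (⊤ : Submodule R M) := by
  let I := p.map (algebraMap S R)
  let M' := M ⧸ (I • ⊤ : Submodule R M)
  letI : Module (S ⧸ p) M' := Module.compHom M' (algebraMap (S ⧸ p) (R ⧸ I))
  haveI : IsScalarTower (S ⧸ p) (R ⧸ I) M' := IsScalarTower.of_algebraMap_smul fun _ _ => rfl
  haveI : IsScalarTower R (R ⧸ I) M' := IsScalarTower.of_algebraMap_smul fun _ _ => rfl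
  haveI : Module.Finite (R ⧸ I) M' := .of_restrictScalars_finite R _ _
  haveI : Algebra.FiniteType (S ⧸ p) (R ⧸ I) := .of_restrictScalars_finiteType S _ _
  let q : M →ₛₗ[Ideal.Quotient.mk I] M' :=
    { toFun := Submodule.Quotient.mk
      map_add' := fun _ _ => rfl
      map_smul' := fun _ _ => rfl }
  have key : ∀ (a : Ideal S) (T : Submodule R M), (a.map (algebraMap S R) • T).map q =
      (a.map (Ideal.Quotient.mk p)).map (algebraMap (S ⧸ p) (R ⧸ I)) • T.map q := fun a T => by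
    have e : (a.map (Ideal.Quotient.mk p)).map (algebraMap (S ⧸ p) (R ⧸ I)) =
        (a.map (algebraMap S R)).map (Ideal.Quotient.mk I) := by
      rw [Ideal.map_map, Ideal.map_map]
      rfl
    rw [e]
    refine le_antisymm (Submodule.map_le_iff_le_comap.2 (Submodule.smul_le.2 fun r hr m hm => ?_))
      (Submodule.smul_le.2 fun r hr m hm => ?_)
    · rw [Submodule.mem_comap, LinearMap.map_smulₛₗ]
      exact Submodule.smul_mem_smul (Ideal.mem_map_of_mem _ hr) (Submodule.mem_map_of_mem hm)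
    · obtain ⟨r, hr', rfl⟩ := (Ideal.mem_map_iff_of_surjective _ Ideal.Quotient.mk_surjective).1 hr
      obtain ⟨m, hm', rfl⟩ := hm
      rw [← LinearMap.map_smulₛₗ]
      exact Submodule.mem_map_of_mem (Submodule.smul_mem_smul hr' hm')
  obtain ⟨c, hc, h⟩ := generic_inter (D := S ⧸ p) (A := R ⧸ I) (N.map q)
  obtain ⟨c, rfl⟩ := Ideal.Quotient.mk_surjective c
  refine ⟨c, fun h => hc (Ideal.Quotient.eq_zero_iff_mem.2 h), fun a x hx ha => ?_⟩
  obtain ⟨n, hn⟩ := h (a.map (Ideal.Quotient.mk p)) (q x) (Submodule.mem_map_of_mem hx)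
    (Submodule.smul_mono le_rfl le_top (key a ⊤ ▸ Submodule.mem_map_of_mem ha))
  rw [← key] at hn
  obtain ⟨w, hw, e⟩ := hn
  have e' : q w = q (algebraMap S R c ^ n • x) := by
    rw [e, ← map_pow, ← map_pow]
    rfl
  refine ⟨n, Submodule.mem_sup.2 ⟨w, hw, _, (Submodule.Quotient.eq _).1 e'.symm, ?_⟩⟩
  abel

variable {X Y : Spc}

/-- exact at the point `z` of the fibre over the point `y` -/
def FibExAt (f : Mor X Y) (z : X.Pt) {A B C : GMod X} (u : A.M →ₗ[X.R] B.M)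
    (v : B.M →ₗ[X.R] C.M) : Prop :=
  ∀ b, v b ∈ (RingHom.ker (f.onPt z).1).map f.φ • (⊤ : Submodule X.R C.M) →
    ∃ r a, z.1 r ≠ 0 ∧ u a - r • b ∈ (RingHom.ker (f.onPt z).1).map f.φ • (⊤ : Submodule X.R B.M)

namespace Prj

variable {f : Mor X Y} (P : Prj f)

theorem act_φ (h : P.E → ℂˣ) (s : Y.R) : X.act (tor P.π h) (f.φ s) = f.φ s := by
  have e : tor f.ρ (tor P.π h) = 1 := chr_ext fun γ => by
    rw [chr_tor, chr_tor, P.π_ρ, chr_zero, chr_one]
  rw [← f.act_map, e, Y.act_one]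

theorem actE_mem_smul (M : GMod X) (a : Ideal Y.R) (h : P.E → ℂˣ) :
    ∀ m ∈ a.map f.φ • (⊤ : Submodule X.R M.M), P.actE M h m ∈ a.map f.φ • (⊤ : Submodule X.R M.M) :=
  fun m hm => Submodule.smul_induction_on hm (fun r hr n _ => by
    show M.act _ _ ∈ _
    rw [M.act_smul]
    exact Submodule.smul_mem_smul (map_stab f.φ (RingHom.id _) (X.act _) (P.act_φ h) (fun _ h => h) r hr)
      Submodule.mem_top) fun x y hx hy => by
    rw [map_add]
    exact add_mem hx hy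

/-- the component of degree `k` as an element of the part -/
def cmpP (M : GMod X) (k : P.E → ℤ) (m : M.M) : (P.part k M).M := P.el _ (cmp_mem (P.spanE M) k m)

theorem cmpP_mem_smul (M : GMod X) (k : P.E → ℤ) (a : Ideal Y.R) {m : M.M}
    (hm : m ∈ a.map f.φ • (⊤ : Submodule X.R M.M)) :
    P.cmpP M k m ∈ a • (⊤ : Submodule Y.R (P.part k M).M) := by
  have hadd : ∀ x y, P.cmpP M k (x + y) = P.cmpP M k x + P.cmpP M k y := fun x y =>
    P.val_inj (map_add (cmp (P.spanE M) k) x y)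
  refine Submodule.smul_induction_on hm (fun r hr n _ => ?_) fun x y hx hy => hadd x y ▸ add_mem hx hy
  induction hr using Submodule.span_induction generalizing n with
  | mem r hr =>
    obtain ⟨s, hs, rfl⟩ := hr
    have : P.cmpP M k (f.φ s • n) = s • P.cmpP M k n := P.val_inj (P.cmpE_smul M k s n)
    rw [this]
    exact Submodule.smul_mem_smul hs Submodule.mem_top
  | zero =>
    have : P.cmpP M k ((0 : X.R) • n) = 0 := P.val_inj (by
      rw [zero_smul]; exact map_zero (cmp (P.spanE M) k))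
    rw [this]
    exact zero_mem _
  | add r s _ _ h1 h2 =>
    rw [add_smul, hadd]
    exact add_mem (h1 n trivial) (h2 n trivial)
  | smul r s _ h1 =>
    rw [smul_eq_mul, mul_comm, mul_smul]
    exact h1 _ trivial

theorem val_mem_smul {M : GMod X} {k : P.E → ℤ} {a : Ideal Y.R} {m : (P.part k M).M}
    (hm : m ∈ a • (⊤ : Submodule Y.R (P.part k M).M)) :
    P.val m ∈ a.map f.φ • (⊤ : Submodule X.R M.M) :=
  Submodule.smul_induction_on hm (fun r hr n _ => by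
    rw [val_smul]
    exact Submodule.smul_mem_smul (Ideal.mem_map_of_mem _ hr) Submodule.mem_top) fun x y hx hy => by
    rw [map_add]
    exact add_mem hx hy

variable {A B C : GMod X} {u : A.M →ₗ[X.R] B.M} {v : B.M →ₗ[X.R] C.M}

/-- the generic step -/
theorem unif_prime (hv : B.IsHom C v) (h0 : ∀ a, v (u a) = 0)
    (h : ∀ z : X.Pt, FibExAt f z u v) (p : Ideal Y.R) [p.IsPrime] {a₀ : Y.R} (ha : a₀ ∈ Y.b)
    (ha' : a₀ ∉ p) : ∃ c ∉ p, ∃ k₀, ∀ k, k₀ ≤ k → ∀ y : Y.R →ₐ[ℂ] ℂ, p ≤ RingHom.ker y → y c ≠ 0 →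
      ∀ b ∈ wt (P.actE B) k, v b ∈ (RingHom.ker y).map f.φ • (⊤ : Submodule X.R C.M) →
        b ∈ LinearMap.range u ⊔ (RingHom.ker y).map f.φ • (⊤ : Submodule X.R B.M) := by
  letI : Algebra Y.R X.R := (f.φ : Y.R →+* X.R).toAlgebra
  haveI : IsScalarTower ℂ Y.R X.R := IsScalarTower.of_algebraMap_eq fun c => (f.φ.commutes c).symm
  haveI : Algebra.FiniteType Y.R X.R := .of_restrictScalars_finiteType ℂ _ _
  let N₁ : Submodule X.R B.M := (p.map f.φ • (⊤ : Submodule X.R C.M)).comap v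
  let N₂ : Submodule X.R B.M := LinearMap.range u ⊔ p.map f.φ • ⊤
  have hN : ∀ g, ∀ m ∈ N₁, P.actE B g m ∈ N₁ := fun g m hm =>
    Submodule.mem_comap.2 ((congrArg (· ∈ _) (hv _ m)).mpr (P.actE_mem_smul C p g _ hm))
  obtain ⟨c₁, k1, h1⟩ := inter_prime p (LinearMap.range v)
  obtain ⟨c₂, k2, h2⟩ := inter_prime p N₁
  have hp := ‹p.IsPrime›
  obtain ⟨n, k₀, h3⟩ := P.zero_lemma N₁ N₂ hN (c₂ * a₀) fun x hx hy b hb => by
    rw [map_mul, map_mul, mul_ne_zero_iff] at hx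
    by_cases hpx : ∃ s ∈ p, x (f.φ s) ≠ 0
    · obtain ⟨s, hs, hs'⟩ := hpx
      exact ⟨_, hs', Submodule.mem_sup_right
        (Submodule.smul_mem_smul (Ideal.mem_map_of_mem _ hs) Submodule.mem_top)⟩
    push Not at hpx
    let z : X.Pt := ⟨x, (P.pts x).2 ⟨⟨a₀, ha, hx.2⟩, hy⟩⟩
    have hm : p.map f.φ ≤ (RingHom.ker (f.onPt z).1).map f.φ := Ideal.map_mono hpx
    have hm' : (RingHom.ker (f.onPt z).1).map f.φ ≤ RingHom.ker x :=
      Ideal.map_le_iff_le_comap.2 fun s hs => hs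
    have h4 : ZeroAt x (N₁.map N₂.mkQ) := zeroAt_iff_fib.2 fun w => by
      obtain ⟨⟨_, b, hb, rfl⟩, rfl⟩ := fib_surj w
      obtain ⟨r, a, h5, h6⟩ := h z b (Submodule.smul_mono hm le_rfl hb)
      have h7 : u a - r • b ∈ N₁ := sub_mem (by
        rw [Submodule.mem_comap, h0]
        exact zero_mem _) (N₁.smul_mem r hb)
      obtain ⟨j, h8⟩ := h2 _ _ h7 h6
      obtain ⟨w, h9, w', h10, e⟩ := Submodule.mem_sup.1 h8
      refine fib_eq_zero (r := -(f.φ c₂ ^ j * r)) (by simp [hx.1, show x r ≠ 0 from h5]) ?_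
      refine (Submodule.Quotient.mk_eq_zero _).2 ((Submodule.mem_smul_top_iff _ _ _).2 ?_)
      rw [← Submodule.map_smul'']
      refine ⟨w, Submodule.smul_mono hm' le_rfl h9, (Submodule.Quotient.eq _).2 ?_⟩
      have e' : w - -(f.φ c₂ ^ j * r) • b = u (f.φ c₂ ^ j • a) - w' := by
        rw [map_smul, neg_smul, mul_smul, sub_neg_eq_add, eq_sub_iff_add_eq, add_right_comm, e,
          smul_sub]
        exact sub_add_cancel _ _
      exact e' ▸ sub_mem (Submodule.mem_sup_left ⟨_, rfl⟩) (Submodule.mem_sup_right h10)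
    obtain ⟨r, h5, h6⟩ := h4 ⟨_, b, hb, rfl⟩
    exact ⟨r, h5, (Submodule.Quotient.mk_eq_zero _).1 (congrArg Subtype.val h6)⟩
  refine ⟨c₁ * (c₂ * a₀), hp.mul_notMem k1 (hp.mul_notMem k2 ha'), k₀,
    fun k hk y hy hc b hb hvb => ?_⟩
  rw [map_mul, mul_ne_zero_iff] at hc
  have hm : p.map f.φ ≤ (RingHom.ker y).map f.φ := Ideal.map_mono hy
  obtain ⟨j, h4⟩ := h1 _ _ ⟨b, rfl⟩ hvb
  rw [LinearMap.range_eq_map, ← Submodule.map_smul''] at h4
  obtain ⟨_, ⟨b', h5, rfl⟩, w, h6, e⟩ := Submodule.mem_sup.1 h4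
  have h7 : f.φ (c₁ ^ j) • b - b' ∈ N₁ := by
    rw [Submodule.mem_comap, map_sub, map_smul, map_pow]
    exact (congrArg (· ∈ _) (sub_eq_of_eq_add' e.symm)).mpr h6
  have h8 := h3 k hk _ (cmp_mem_stab (P.spanE B) (N₁.restrictScalars ℂ) hN h7 k)
    (cmp_mem (P.spanE B) k _)
  have h9 := cmp_mem_stab (P.spanE B)
    (((RingHom.ker y).map f.φ • ⊤ : Submodule X.R B.M).restrictScalars ℂ)
    (P.actE_mem_smul B (RingHom.ker y)) h5 k
  rw [map_sub, cmp_of_mem _ (P.smul_mem_wtE _ hb), smul_sub, smul_smul, ← map_pow, ← map_mul] at h8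
  let N₃ : Submodule X.R B.M := LinearMap.range u ⊔ (RingHom.ker y).map f.φ • ⊤
  have h23 : N₂ ≤ N₃ := sup_le_sup le_rfl (Submodule.smul_mono hm le_rfl)
  have h10 := (N₃.sub_mem_iff_left (N₃.smul_mem _ (Submodule.mem_sup_right h9))).1 (h23 h8)
  generalize ht : (c₂ * a₀) ^ n * c₁ ^ j = t at h10
  have h11 : y t ≠ 0 := by
    rw [← ht, map_mul, map_pow, map_pow]
    exact mul_ne_zero (pow_ne_zero _ hc.2) (pow_ne_zero _ hc.1)
  have h12 : f.φ (1 - algebraMap ℂ Y.R (y t)⁻¹ * t) • b ∈ N₃ := Submodule.mem_sup_right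
    (Submodule.smul_mem_smul (Ideal.mem_map_of_mem _ (by simp [RingHom.mem_ker, h11]))
      Submodule.mem_top)
  rw [map_sub, map_one, sub_smul, one_smul, map_mul, mul_smul] at h12
  exact (N₃.sub_mem_iff_left (N₃.smul_mem _ h10)).1 h12

theorem unif_aux (hv : B.IsHom C v) (h0 : ∀ a, v (u a) = 0) (h : ∀ z : X.Pt, FibExAt f z u v)
    (p : Ideal Y.R) : ∃ k₀, ∀ k, k₀ ≤ k → ∀ y : Y.Pt, p ≤ RingHom.ker y.1 →
      ∀ b ∈ wt (P.actE B) k, v b ∈ (RingHom.ker y.1).map f.φ • (⊤ : Submodule X.R C.M) →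
        b ∈ LinearMap.range u ⊔ (RingHom.ker y.1).map f.φ • (⊤ : Submodule X.R B.M) := by
  induction p using IsNoetherian.induction with
  | hgt p ih =>
    have ih' := fun c (hc : c ∉ p) => ih (p ⊔ Ideal.span {c}) (lt_of_le_of_ne le_sup_left fun e =>
      hc (e ▸ Submodule.mem_sup_right (Ideal.mem_span_singleton_self c)))
    have hle : ∀ (y : Y.Pt) c, p ≤ RingHom.ker y.1 → y.1 c = 0 →
        p ⊔ Ideal.span {c} ≤ RingHom.ker y.1 := fun y c h1 h2 =>
      sup_le h1 ((Ideal.span_singleton_le_iff_mem _).2 h2)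
    by_cases hb : Y.b ≤ p
    · exact ⟨0, fun k _ y hy => y.2.elim fun a ha => (ha.2 (hy (hb ha.1))).elim⟩
    obtain ⟨a₀, ha, ha'⟩ := SetLike.not_le_iff_exists.1 hb
    by_cases hp : Ideal.IsPrime p
    · obtain ⟨c, hc, k₀, h1⟩ := P.unif_prime hv h0 h p ha ha'
      obtain ⟨k₁, h2⟩ := ih' c hc
      refine ⟨k₀ ⊔ k₁, fun k hk y hy => ?_⟩
      by_cases hy' : y.1 c = 0
      · exact h2 k (le_sup_right.trans hk) y (hle y c hy hy')
      · exact h1 k (le_sup_left.trans hk) y.1 hy hy'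
    · obtain ⟨a, h1, c, h2, h3⟩ := (Ideal.not_isPrime_iff.1 hp).resolve_left fun e =>
        ha' (e ▸ Submodule.mem_top)
      obtain ⟨k₀, h4⟩ := ih' a h1
      obtain ⟨k₁, h5⟩ := ih' c h2
      refine ⟨k₀ ⊔ k₁, fun k hk y hy => ?_⟩
      rcases mul_eq_zero.1 ((map_mul y.1 a c).symm.trans (hy h3)) with h6 | h6
      · exact h4 k (le_sup_left.trans hk) y (hle y a hy h6)
      · exact h5 k (le_sup_right.trans hk) y (hle y c hy h6)

end Prj

theorem Prj.unif {f : Mor X Y} (P : Prj f) {A B C : GMod X} (u : A.M →ₗ[X.R] B.M)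
    (v : B.M →ₗ[X.R] C.M) (hu : A.IsHom B u) (hv : B.IsHom C v) (h0 : ∀ a, v (u a) = 0)
    (h : ∀ z : X.Pt, FibExAt f z u v) :
    ∃ k₀, ∀ k, k₀ ≤ k → ∀ y : Y.Pt,
      Function.Exact (fibMap y.1 (P.partMap k u hu)) (fibMap y.1 (P.partMap k v hv)) := by
  obtain ⟨k₀, h1⟩ := P.unif_aux hv h0 h ⊥
  refine ⟨k₀, fun k hk y x => ⟨fun hx => ?_, ?_⟩⟩
  · obtain ⟨b, rfl⟩ := fib_surj x
    obtain ⟨_, ⟨a, rfl⟩, w, hw, e⟩ := Submodule.mem_sup.1 (h1 k hk y bot_le _ (P.val_mem b)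
      (P.val_mem_smul ((Submodule.Quotient.mk_eq_zero _).1 hx)))
    refine ⟨Submodule.Quotient.mk (P.cmpP A k a), ((Submodule.Quotient.eq _).2 ?_).symm⟩
    have e' : b - P.partMap k u hu (P.cmpP A k a) = P.cmpP B k w := P.val_inj (by
      rw [map_sub, ← cmp_of_mem (P.spanE B) (P.val_mem b), ← e, map_add, ← P.map_cmpE hu]
      exact add_sub_cancel_left _ _)
    exact e' ▸ P.cmpP_mem_smul B k _ hw
  · rintro ⟨w, rfl⟩
    exact fibMap_comp_zero (fun a => P.val_inj (h0 _)) w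

end Vale.Agent.P297Z
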