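import Vale.Agent.P297Z.K.AK1
import Vale.Agent.P297Z.K.AG
import Vale.Agent.P297Z.K.Unif

/-!
# P297: the parts of a bundle are locally free
-/

set_option linter.all false

open scoped TensorProduct

noncomputable section

namespace Vale.Agent.P297Z

open GMod

variable {W X Y Z : Spc}

/-- connected and not empty -/
structure Spc.Cn (X : Spc) : Prop where
  conn : X.Conn
  ne : Nonempty X.Pt

/-- the parts of the twists of the structure module are locally free in large degrees -/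
def Prj.Nice {f : Mor X Y} (P : Prj f) : Prop :=
  ∀ γ, ∃ k₀, ∀ k, k₀ ≤ k → ∀ y : Y.Pt, ∃ r, FreeAt y.1 (P.part k ((GMod.one X).shift γ)).M r

namespace PK

theorem freeAt_of_proj (M : GMod X) [Module.Projective X.R M.M] (z : X.R →ₐ[ℂ] ℂ) :
    ∃ r, FreeAt z M.M r := by
  obtain ⟨n, g, hg⟩ := Module.Finite.exists_fin' X.R M.M
  obtain ⟨s, hs⟩ := Module.projective_lifting_property g LinearMap.id hg
  exact ⟨_, FreeAt.of_summand (freeAt_pi n) ev_one (s := s) (g := g) fun c => by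
    rw [one_smul]; exact LinearMap.congr_fun hs c⟩

theorem part_proj {f : Mor X Y} (P : Prj f) (k : P.E → ℤ) (M : GMod X)
    [Module.Projective Y.R (f.Res M)] : Module.Projective Y.R (P.part k M).M :=
  Module.Projective.of_split (R := Y.R) (P := P.partS k M) (M := f.Res M) (P.partS k M).subtype
    ((P.cmpE M k).codRestrict _ (P.cmpE_mem M k))
    (LinearMap.ext fun m => Subtype.ext (P.cmpE_of_mem m.2))

/-- the ring of a product as a module over the first factor -/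
def resFst (X Y : Spc) (γ : (X.prod Y).J → ℤ) :
    (X.R ⊗[ℂ] Y.R) ≃ₗ[X.R] (Mor.fst X Y).Res ((one (X.prod Y)).shift γ) where
  toFun x := x
  invFun x := x
  map_add' _ _ := rfl
  map_smul' r x := Algebra.smul_def r x
  left_inv _ := rfl
  right_inv _ := rfl

theorem freeAt_coker {A B C : GMod Y} {u : A.M →ₗ[Y.R] B.M} {v : B.M →ₗ[Y.R] C.M}
    (hu : A.IsHom B u) (hv : B.IsHom C v) (hB : ∀ y : Y.Pt, ∃ r, FreeAt y.1 B.M r)
    (hC : ∀ y : Y.Pt, ∃ r, FreeAt y.1 C.M r)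
    (h : ∀ y : Y.Pt, Function.Exact (fibMap y.1 u) (fibMap y.1 v)) (z : Y.Pt) :
    ∃ r, FreeAt z.1 hv.cokerM.M r := by
  obtain ⟨b, hb⟩ := hB z
  obtain ⟨c, hc⟩ := hC z
  obtain ⟨s1, n1, h1⟩ := hb.nhd
  obtain ⟨s2, n2, h2⟩ := hc.nhd
  obtain ⟨s3, n3, h3⟩ := fdim_nhd (z := z.1) (A := hu.cokerM.M)
  refine ⟨_, freeAt_of_fdim (M := hv.cokerM) (ev_mul n1 (ev_mul n2 n3)) fun y hy => ?_⟩
  rw [map_mul, map_mul] at hy
  have y1 := left_ne_zero_of_mul hy
  have y2 := left_ne_zero_of_mul (right_ne_zero_of_mul hy)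
  have y3 := right_ne_zero_of_mul (right_ne_zero_of_mul hy)
  have e1 : frk z.1 u + fdim z.1 hu.cokerM.M = fdim z.1 B.M := frk_add_coker u
  have e2 : frk z.1 v + fdim z.1 hv.cokerM.M = fdim z.1 C.M := frk_add_coker v
  have e3 : frk y.1 u + fdim y.1 hu.cokerM.M = fdim y.1 B.M := frk_add_coker u
  have e4 : frk y.1 v + fdim y.1 hv.cokerM.M = fdim y.1 C.M := frk_add_coker v
  have e5 := frk_add_of_exact (h z)
  have e6 := frk_add_of_exact (h y)
  have e7 := h3 y.1 y3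
  have e8 := hb.fdim
  have e9 := hc.fdim
  have e10 := (h1 y.1 y1).fdim
  have e11 := (h2 y.1 y2).fdim
  omega

theorem isHom_proj {ι : Type} [Fintype ι] (M : ι → GMod X) (i : ι) :
    (pi M).IsHom (M i) (LinearMap.proj i) := fun _ _ => rfl

theorem part_pi {f : Mor X Y} (P : Prj f) (k : P.E → ℤ) {ι : Type} [Fintype ι] (M : ι → GMod X) :
    Function.Bijective (LinearMap.pi fun i => P.partMap k _ (isHom_proj M i)) := by
  constructor
  · intro a b h
    refine P.val_inj (funext fun i => ?_)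
    exact congrArg P.val (congrFun h i)
  · intro m
    refine ⟨P.el (M := pi M) (fun i => P.val (m i)) fun h => funext fun i => P.val_mem (m i) h,
      funext fun i => P.val_inj rfl⟩

theorem part_pi_free {f : Mor X Y} {P : Prj f} (hP : P.Nice) {n : ℕ} (γ : Fin n → X.J → ℤ) :
    ∃ k₀, ∀ k, k₀ ≤ k → ∀ y : Y.Pt, ∃ r,
      FreeAt y.1 (P.part k (pi fun i => (one X).shift (γ i))).M r := by
  choose k₀ h using fun i => hP (γ i)
  obtain ⟨k₁, h1⟩ := (Set.finite_range k₀).bddAbove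
  refine ⟨k₁, fun k hk y => ?_⟩
  choose r hr using fun i => h i k ((h1 ⟨i, rfl⟩).trans hk) y
  exact ⟨_, (AK.free_pi hr).of_isoAt' (IsoAt.of_bij (part_pi P k _))⟩

theorem fibExAt {f : Mor X Y} (z : X.Pt) {A B C K : GMod X} {u : A.M →ₗ[X.R] B.M}
    {v : B.M →ₗ[X.R] C.M} {p : B.M →ₗ[X.R] K.M} {i : K.M →ₗ[X.R] C.M} (hv : ∀ b, v b = i (p b))
    (hp : Function.Surjective p) (hu : ∀ b, p b = 0 → ∃ a, u a = b) {t : C.M →ₗ[X.R] K.M} {r : X.R}
    (hr : z.1 r ≠ 0) (ht : ∀ x, t (i x) = r • x) : FibExAt f z u v := by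
  intro b hb
  have h1 := Submodule.mem_map_of_mem (f := t) hb
  rw [Submodule.map_smul'', hv, ht, ← map_smul] at h1
  have h2 := Submodule.smul_mono le_rfl (le_top.trans
    ((LinearMap.range_eq_top.2 hp).symm.trans (LinearMap.range_eq_map p)).le) h1
  rw [← Submodule.map_smul''] at h2
  obtain ⟨b', hb', e⟩ := h2
  obtain ⟨a, ha⟩ := hu (r • b - b') (by rw [map_sub, e, sub_self])
  refine ⟨r, a, hr, ?_⟩
  rw [ha, sub_sub_cancel_left]
  exact Submodule.neg_mem _ hb'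

end PK

open PK

theorem Prj.nice_fst (P : Prj (Mor.fst X Y)) : P.Nice := fun γ => ⟨0, fun k _ y => by
  haveI := Module.Projective.of_equiv (resFst X Y γ)
  haveI := part_proj P k ((one (X.prod Y)).shift γ)
  exact freeAt_of_proj _ y.1⟩

theorem Prj.Nice.part_free {f : Mor X Y} {P : Prj f} (hP : P.Nice) (B : Bun X) :
    ∃ k₀, ∀ k, k₀ ≤ k → ∀ y : Y.Pt, ∃ r, FreeAt y.1 (P.part k B.M).M r := by
  obtain ⟨n0, γ0, p0, h0, s0⟩ := B.M.exists_cover
  obtain ⟨n1, γ1, p1, h1, s1⟩ := h0.kerM.exists_cover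
  obtain ⟨n2, γ2, p2, h2, s2⟩ := h1.kerM.exists_cover
  have hv := (isHom_subtype _ _ h0.stab_ker).comp h1
  have hu := (isHom_subtype _ _ h1.stab_ker).comp h2
  have e0 := h0.ses_ker fun z => SurjAt.of_surj s0
  obtain ⟨k1, q1⟩ := P.unif _ _ hu hv (fun a => congrArg Subtype.val (p2 a).2) fun z => by
    obtain ⟨-, r, t, -, hr, ht, -⟩ := e0.split B.free z
    refine fibExAt z (fun _ => rfl) s1 (fun b hb => ?_) hr ht
    obtain ⟨a, ha⟩ := s2 ⟨b, hb⟩
    exact ⟨a, congrArg Subtype.val ha⟩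
  obtain ⟨k2, q2⟩ := part_pi_free hP γ1
  obtain ⟨k3, q3⟩ := part_pi_free hP γ0
  refine ⟨k1 ⊔ (k2 ⊔ k3), fun k hk y => ?_⟩
  obtain ⟨r, hr⟩ := freeAt_coker (P.partMap_isHom k _ hu) (P.partMap_isHom k _ hv)
    (q2 k (le_sup_left.trans (le_sup_right.trans hk)))
    (q3 k (le_sup_right.trans (le_sup_right.trans hk))) (q1 k (le_sup_left.trans hk)) y
  have ex : Function.Exact (P.partMap k _ hv) (P.partMap k _ h0) :=
    P.partMap_exact k hv h0 fun b => ⟨fun hb => by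
      obtain ⟨a, ha⟩ := s1 ⟨b, hb⟩
      exact ⟨a, congrArg Subtype.val ha⟩, by
      rintro ⟨a, rfl⟩
      exact (p1 a).2⟩
  exact ⟨r, hr.of_equiv ((Submodule.quotEquivOfEq _ _ (LinearMap.exact_iff.1 ex).symm).trans
    (LinearMap.quotKerEquivOfSurjective _ (P.partMap_surjective k h0 s0)))⟩

end Vale.Agent.P297Z
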