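import Vale.Agent.P297Z.K.AK1

/-!
# P297: the ring K0 and its action on G
-/

set_option linter.all false

open scoped TensorProduct

noncomputable section

namespace Vale.Agent.P297Z

open GMod

variable {W X Y Z : Spc}

namespace AK

variable {A B C D M N : GMod X} {f : A.M →ₗ[X.R] B.M} {g : B.M →ₗ[X.R] C.M}

/-- the zero module -/
def zero (X : Spc) : GMod X := pi fun _ : Empty => one X

theorem zero_eq (x : (zero X).M) : x = 0 := funext fun i => i.elim

theorem zero_bun : (zero X).IsBun 0 := isBun_zero fun _ x => ⟨1, one_ne, zero_eq _⟩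

theorem ses_zero (h : Qis A B f) : SES A B (zero X) f 0 :=
  ⟨h.1, IsHom.zero _ _, fun _ => rfl, fun z =>
    ⟨iso_inj (h.2 z), fun x _ => iso_surj (h.2 z) x, fun x => ⟨1, 0, one_ne, (zero_eq _).symm⟩⟩⟩

theorem ses_zero' (h : Qis A B f) : SES (zero X) A B 0 f :=
  ⟨IsHom.zero _ _, h.1, fun _ => map_zero f, fun z =>
    ⟨fun x _ => ⟨1, one_ne, zero_eq _⟩,
      fun x hx => (iso_inj (h.2 z) x hx).imp fun _ h => ⟨0, h.1, h.2.symm⟩, iso_surj (h.2 z)⟩⟩

theorem G_ses (h : SES A B C f g) : cls B = cls A + cls C := by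
  have h1 : (QuotientAddGroup.mk (FreeAbelianGroup.of B - FreeAbelianGroup.of A -
      FreeAbelianGroup.of C) : FreeAbelianGroup (GMod X) ⧸ GRel X) = 0 :=
    (QuotientAddGroup.eq_zero_iff _).2 (AddSubgroup.subset_closure ⟨A, B, C, f, g, h, rfl⟩)
  rw [QuotientAddGroup.mk_sub, QuotientAddGroup.mk_sub, sub_sub, sub_eq_zero] at h1
  exact h1

theorem G_zero : cls (zero X) = 0 := left_eq_add.1 (G_ses (ses_zero (qis_id (zero X))))

theorem G_qis (h : Qis A B f) : cls A = cls B := by rw [G_ses (ses_zero h), G_zero, add_zero]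

theorem G_lift {E : Type*} [AddCommGroup E] (φ : GMod X → E)
    (h : ∀ (A B C : GMod X) (f : A.M →ₗ[X.R] B.M) (g : B.M →ₗ[X.R] C.M), SES A B C f g →
      φ B = φ A + φ C) : ∃ ψ : G X →+ E, ∀ M, ψ (cls M) = φ M := by
  refine ⟨QuotientAddGroup.lift (GRel X) (FreeAbelianGroup.lift φ) ?_, fun M =>
    FreeAbelianGroup.lift_apply_of φ M⟩
  refine (AddSubgroup.closure_le _).2 ?_
  rintro _ ⟨A, B, C, f, g, h1, rfl⟩
  simp [h A B C f g h1]

theorem G_ext {E : Type*} [AddCommGroup E] {ψ ψ' : G X →+ E} (h : ∀ M, ψ (cls M) = ψ' (cls M)) :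
    ψ = ψ' := QuotientAddGroup.addMonoidHom_ext (GRel X) (FreeAbelianGroup.lift_ext _ _ h)

theorem qis_comm (A B : GMod X) :
    Qis (A.ten B) (B.ten A) (TensorProduct.comm X.R A.M B.M).toLinearMap :=
  qis_of_equiv _ (isHom_ten fun _ _ _ => rfl)

theorem qis_lid (A : GMod X) : Qis ((one X).ten A) A (TensorProduct.lid X.R A.M).toLinearMap :=
  qis_of_equiv (A := (one X).ten A) (TensorProduct.lid X.R A.M)
    (isHom_ten fun t x y => (A.act_smul t x y).symm)

theorem qis_rid (A : GMod X) : Qis (A.ten (one X)) A (TensorProduct.rid X.R A.M).toLinearMap :=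
  qis_of_equiv (A := A.ten (one X)) (TensorProduct.rid X.R A.M)
    (isHom_ten fun t x y => (A.act_smul t y x).symm)

theorem qis_assoc (A B C : GMod X) : Qis (A.ten (B.ten C)) ((A.ten B).ten C)
    (TensorProduct.assoc X.R A.M B.M C.M).symm.toLinearMap := by
  refine qis_of_equiv (A := A.ten (B.ten C)) (B := (A.ten B).ten C)
    (TensorProduct.assoc X.R A.M B.M C.M).symm (isHom_ten fun t x y => ?_)
  refine TensorProduct.induction_on (motive := fun y : B.M ⊗[X.R] C.M =>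
    (TensorProduct.assoc X.R A.M B.M C.M).symm (A.act t x ⊗ₜ[X.R]
      (TensorProduct.map (B.semi t) (C.semi t) y)) =
    TensorProduct.map (((A.ten B).semi t)) (C.semi t)
      ((TensorProduct.assoc X.R A.M B.M C.M).symm (x ⊗ₜ[X.R] y))) y ?_ (fun _ _ => rfl)
    fun y y' h h' => ?_
  · simp only [map_zero, TensorProduct.tmul_zero]
    exact (map_zero _).symm
  · simp only [map_add, TensorProduct.tmul_add, h, h']
    exact (map_add _ _ _).symm

theorem qis_shift (A : GMod X) (γ : X.J → ℤ) :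
    Qis (((one X).shift γ).ten A) (A.shift γ) (TensorProduct.lid X.R A.M).toLinearMap :=
  qis_of_equiv (A := ((one X).shift γ).ten A) (B := A.shift γ) (TensorProduct.lid X.R A.M)
    (isHom_ten fun t (x : X.R) y => by
      show (chr (-γ) t • X.act t x) • A.act t y = chr (-γ) t • A.act t (x • y)
      rw [A.act_smul, smul_assoc])

theorem qis_shift_add (A : GMod X) (γ δ : X.J → ℤ) :
    Qis ((A.shift δ).shift γ) (A.shift (γ + δ)) LinearMap.id :=
  ⟨fun t (x : A.M) => by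
    show chr (-γ) t • chr (-δ) t • A.act t x = chr (-(γ + δ)) t • A.act t x
    rw [neg_add, chr_add, mul_smul], fun _ => iso_id⟩

theorem qis_shift_zero (A : GMod X) : Qis (A.shift 0) A LinearMap.id :=
  ⟨fun t (x : A.M) => by
    show chr (-0) t • A.act t x = A.act t x
    rw [neg_zero, chr_zero, one_smul], fun _ => iso_id⟩

/-- the tensor product of bundles -/
def bten (A B : Bun X) : Bun X := ⟨A.M.ten B.M, A.rk * B.rk, A.free.ten B.free⟩

/-- the sum of bundles -/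
def bsum (A B : Bun X) : Bun X := ⟨A.M.prod B.M, A.rk + B.rk, A.free.prod B.free⟩

/-- the trivial bundle -/
def bone (X : Spc) : Bun X := ⟨one X, 1, isBun_one X⟩

/-- the zero bundle -/
def bzero (X : Spc) : Bun X := ⟨zero X, 0, zero_bun⟩

/-- additive functions -/
def Add {E : Type*} [AddCommGroup E] (φ : Bun X → E) : Prop :=
  ∀ (A B C : Bun X) (f : A.M.M →ₗ[X.R] B.M.M) (g : B.M.M →ₗ[X.R] C.M.M),
    SES A.M B.M C.M f g → B.rk = A.rk + C.rk → φ B = φ A + φ C

theorem Add.qis {E : Type*} [AddCommGroup E] {φ : Bun X → E} (h : Add φ) {A B : Bun X}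
    {f : A.M.M →ₗ[X.R] B.M.M} (hf : Qis A.M B.M f) (hr : A.rk = B.rk) : φ A = φ B := by
  have h0 : φ (bzero X) = 0 :=
    left_eq_add.1 (h (bzero X) (bzero X) (bzero X) _ _ (ses_zero (qis_id _)) rfl)
  rw [h A B (bzero X) f 0 (ses_zero hf) hr.symm, h0, add_zero]

/-- the projection to `K0` -/
def mk (X : Spc) : MvPolynomial (Bun X) ℤ →+* K0 X := Ideal.Quotient.mk (KRel X)

theorem mk_X (B : Bun X) : mk X (.X B) = B.cls := rfl

theorem mk_rel {x : MvPolynomial (Bun X) ℤ} (h : x ∈ KRel X) : mk X x = 0 :=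
  Ideal.Quotient.eq_zero_iff_mem.2 h

theorem add_cls : Add (Bun.cls : Bun X → K0 X) := fun A B C f g h hr => by
  have h1 := mk_rel (Ideal.subset_span (Or.inl (Or.inl ⟨A, B, C, f, g, h, hr, rfl⟩)))
  rwa [map_sub, map_sub, mk_X, mk_X, mk_X, sub_sub, sub_eq_zero] at h1

theorem cls_bten (A B : Bun X) : (bten A B).cls = A.cls * B.cls := by
  have h1 := mk_rel (Ideal.subset_span (Or.inl (Or.inr ⟨A, B, bten A B, _, qis_id _, rfl, rfl⟩)))
  rwa [map_sub, map_mul, mk_X, mk_X, mk_X, sub_eq_zero] at h1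

theorem cls_bone : (bone X).cls = 1 := by
  have h1 := mk_rel (Ideal.subset_span (Or.inr ⟨bone X, _, qis_id _, rfl, rfl⟩))
  rwa [map_sub, map_one, mk_X, sub_eq_zero] at h1

theorem cls_bsum (A B : Bun X) : (bsum A B).cls = A.cls + B.cls :=
  add_cls A (bsum A B) B _ _ (ses_prod _ _) rfl

theorem cls_bzero : (bzero X).cls = 0 :=
  left_eq_add.1 (add_cls (bzero X) (bzero X) (bzero X) _ _ (ses_zero (qis_id _)) rfl)

/-- representations of `K0` -/
theorem K0_rep {E : Type*} [Ring E] (T : Bun X → E) (h1 : Add T)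
    (h2 : ∀ A B, T (bten A B) = T A * T B) (h3 : T (bone X) = 1) :
    ∃ Θ : K0 X →+* E, ∀ B : Bun X, Θ B.cls = T B := by
  have hc : ∀ x ∈ Set.range T, ∀ y ∈ Set.range T, x * y = y * x := by
    rintro _ ⟨A, rfl⟩ _ ⟨B, rfl⟩
    rw [← h2, ← h2]
    exact h1.qis (qis_comm _ _) (mul_comm _ _)
  letI : CommRing (Subring.closure (Set.range T)) := Subring.closureCommRingOfComm hc
  let θ : MvPolynomial (Bun X) ℤ →+* E := (Subring.closure (Set.range T)).subtype.comp
    (MvPolynomial.eval₂Hom (Int.castRingHom _) fun B => ⟨T B, Subring.subset_closure ⟨B, rfl⟩⟩)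
  have hθ : ∀ B, θ (.X B) = T B := fun B =>
    congrArg Subtype.val (MvPolynomial.eval₂Hom_X' (S₁ := Subring.closure (Set.range T)) _ _ B)
  have h0 : KRel X ≤ RingHom.ker θ := Ideal.span_le.2 (by
    rintro x ((⟨A, B, C, f, g, h, hr, rfl⟩ | ⟨A, B, C, f, h, hr, rfl⟩) | ⟨C, f, h, hr, rfl⟩)
    · simp [RingHom.mem_ker, hθ, h1 A B C f g h hr]
    · simp [RingHom.mem_ker, hθ, ← h2, h1.qis (A := bten A B) h hr.symm]
    · simp [RingHom.mem_ker, hθ, ← h3, h1.qis (A := bone X) h hr.symm])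
  exact ⟨Ideal.Quotient.lift (KRel X) θ h0, hθ⟩

end AK

open AK

section K0

variable {A B C D M N : GMod X} {a b c d r : ℕ} {f : A.M →ₗ[X.R] B.M} {g : B.M →ₗ[X.R] C.M}

theorem kc_bun (B : Bun X) : kc B.M B.rk = B.cls := dif_pos B.free

theorem kc_eq (h : M.IsBun r) : kc M r = Bun.cls ⟨M, r, h⟩ := dif_pos h

theorem K0_induction (x : K0 X) : ∃ B₀ B₁ : Bun X, x = B₀.cls - B₁.cls := by
  let S : Subring (K0 X) :=
    { carrier := {x | ∃ B₀ B₁ : Bun X, x = B₀.cls - B₁.cls}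
      mul_mem' := by
        rintro _ _ ⟨A, B, rfl⟩ ⟨C, D, rfl⟩
        refine ⟨bsum (bten A C) (bten B D), bsum (bten A D) (bten B C), ?_⟩
        simp only [cls_bsum, cls_bten]
        ring
      one_mem' := ⟨bone X, bzero X, by rw [cls_bone, cls_bzero, sub_zero]⟩
      add_mem' := by
        rintro _ _ ⟨A, B, rfl⟩ ⟨C, D, rfl⟩
        refine ⟨bsum A C, bsum B D, ?_⟩
        simp only [cls_bsum]
        ring
      zero_mem' := ⟨bzero X, bzero X, (sub_self _).symm⟩
      neg_mem' := by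
        rintro _ ⟨A, B, rfl⟩
        exact ⟨B, A, neg_sub _ _⟩ }
  obtain ⟨p, rfl⟩ := Ideal.Quotient.mk_surjective (I := KRel X) x
  show p ∈ S.comap (mk X)
  induction p using MvPolynomial.induction_on with
  | C n => exact (eq_intCast MvPolynomial.C n).symm ▸ intCast_mem _ n
  | add p q hp hq => exact add_mem hp hq
  | mul_X p B hp =>
    exact mul_mem hp ⟨B, bzero X, by rw [cls_bzero, sub_zero]; rfl⟩

theorem K0_ext {E : Type*} [AddCommGroup E] {ψ ψ' : K0 X →+ E}
    (h : ∀ B : Bun X, ψ B.cls = ψ' B.cls) : ψ = ψ' := AddMonoidHom.ext fun x => by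
  obtain ⟨A, B, rfl⟩ := K0_induction x
  rw [map_sub, map_sub, h, h]

theorem K0_ringExt {E : Type*} [Ring E] {ψ ψ' : K0 X →+* E}
    (h : ∀ B : Bun X, ψ B.cls = ψ' B.cls) : ψ = ψ' :=
  RingHom.coe_addMonoidHom_injective (K0_ext h)

theorem K0_lift {E : Type*} [AddCommGroup E] (φ : Bun X → E)
    (h : ∀ (A B C : Bun X) (f : A.M.M →ₗ[X.R] B.M.M) (g : B.M.M →ₗ[X.R] C.M.M),
      SES A.M B.M C.M f g → B.rk = A.rk + C.rk → φ B = φ A + φ C) :
    ∃ ψ : K0 X →+ E, ∀ B : Bun X, ψ B.cls = φ B := by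
  let F : AddSubgroup (Bun X → E) :=
    { carrier := {φ | Add φ}
      add_mem' := fun hφ hψ A B C f g h hr => by
        simp only [Pi.add_apply, hφ A B C f g h hr, hψ A B C f g h hr]
        abel
      zero_mem' := fun _ _ _ _ _ _ _ => (add_zero _).symm
      neg_mem' := fun hφ A B C f g h hr => by
        simp only [Pi.neg_apply, hφ A B C f g h hr, neg_add] }
  let T : Bun X → AddMonoid.End F := fun D =>
    { toFun := fun φ => ⟨fun B => φ.1 (bten D B), fun A B C f g h hr =>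
        φ.2 (bten D A) (bten D B) (bten D C) _ _ (h.ten_left D.free)
          ((congrArg (D.rk * ·) hr).trans (mul_add _ _ _))⟩
      map_zero' := rfl
      map_add' := fun _ _ => rfl }
  obtain ⟨Θ, hΘ⟩ := K0_rep T
    (fun A B C f g h hr => AddMonoidHom.ext fun φ => Subtype.ext (funext fun D =>
      φ.2 (bten A D) (bten B D) (bten C D) _ _ (h.ten_right C.free D.M)
        ((congrArg (· * D.rk) hr).trans (add_mul _ _ _))))
    (fun A B => AddMonoidHom.ext fun φ => Subtype.ext (funext fun D =>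
      ((Add.qis φ.2 (A := bten B (bten A D)) (B := bten (bten B A) D) (qis_assoc _ _ _)
        (mul_assoc _ _ _).symm).trans (Add.qis φ.2 (B := bten (bten A B) D)
          ((qis_comm _ _).ten (qis_id _)) (congrArg (· * D.rk) (mul_comm _ _)))).symm))
    (AddMonoidHom.ext fun φ => Subtype.ext (funext fun D =>
      Add.qis φ.2 (A := bten (bone X) D) (qis_lid _) (one_mul _)))
  refine ⟨AddMonoidHom.mk' (fun x => (Θ x ⟨φ, h⟩).1 (bone X)) fun x y =>
    congrArg (fun u : AddMonoid.End F => (u ⟨φ, h⟩).1 (bone X)) (map_add Θ x y), fun B => ?_⟩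
  show (Θ B.cls ⟨φ, h⟩).1 (bone X) = φ B
  rw [hΘ]
  exact Add.qis h (A := bten B (bone X)) (qis_rid _) (mul_one _)

theorem kc_qis (h : Qis A B f) (r : ℕ) : kc A r = kc B r := by
  by_cases hA : A.IsBun r
  · rw [kc_eq hA, kc_eq (h.isBun_iff.1 hA)]
    exact add_cls.qis h rfl
  · rw [kc, kc, dif_neg hA, dif_neg (mt h.isBun_iff.2 hA)]

theorem kc_ses (h : SES A B C f g) (hA : A.IsBun a) (hC : C.IsBun c) :
    kc B (a + c) = kc A a + kc C c := by
  rw [kc_eq hA, kc_eq hC, kc_eq (h.isBun_mid hA hC)]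
  exact add_cls _ _ _ f g h rfl

theorem kc_zero (h : ∀ z : X.Pt, ZeroAt z.1 M.M) : kc M 0 = 0 := by
  rw [← kc_qis (A := zero X) (f := 0) (qis_of_bij (IsHom.zero _ _) fun z =>
    ⟨fun x _ => ⟨1, one_ne, zero_eq _⟩, fun x => (h z x).imp fun _ h => ⟨0, h.1, h.2.symm⟩⟩)]
  exact (kc_bun (bzero X)).trans cls_bzero

theorem kc_one : kc (one X) 1 = 1 := (kc_bun (bone X)).trans cls_bone

theorem kc_ten (hA : A.IsBun a) (hB : B.IsBun b) : kc (A.ten B) (a * b) = kc A a * kc B b := by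
  rw [kc_eq hA, kc_eq hB, ← cls_bten]
  exact kc_eq _

theorem kc_prod (hA : A.IsBun a) (hB : B.IsBun b) : kc (A.prod B) (a + b) = kc A a + kc B b :=
  kc_ses (ses_prod A B) hA hB

theorem kc_shift (h : M.IsBun r) (γ : X.J → ℤ) : kc (M.shift γ) r = line X γ * kc M r := by
  rw [line, ← kc_ten ((isBun_one X).shift γ) h, one_mul, kc_qis (qis_shift M γ)]

theorem line_zero : line X 0 = 1 := (kc_qis (qis_shift_zero _) 1).trans kc_one

theorem line_add (γ δ : X.J → ℤ) : line X (γ + δ) = line X γ * line X δ :=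
  (kc_qis (qis_shift_add _ γ δ) 1).symm.trans (kc_shift ((isBun_one X).shift δ) γ)

theorem line_neg_mul (γ : X.J → ℤ) : line X (-γ) * line X γ = 1 := by
  rw [← line_add, neg_add_cancel, line_zero]

theorem line_nsmul (n : ℕ) (γ : X.J → ℤ) : line X (n • γ) = line X γ ^ n := by
  induction n with
  | zero => rw [zero_smul, pow_zero, line_zero]
  | succ n ih => rw [succ_nsmul, line_add, ih, pow_succ]

theorem rk_cls (B : Bun X) : rk X B.cls = B.rk := MvPolynomial.eval_X B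

theorem rk_kc (h : M.IsBun r) : rk X (kc M r) = r := by rw [kc_eq h, rk_cls]

theorem rk_line (γ : X.J → ℤ) : rk X (line X γ) = 1 := rk_kc ((isBun_one X).shift γ)

theorem kc_pi {ι : Type} [Fintype ι] {M : ι → GMod X} {r : ι → ℕ} (h : ∀ i, (M i).IsBun (r i)) :
    kc (pi M) (∑ i, r i) = ∑ i, kc (M i) (r i) := by
  revert M r
  refine Fintype.induction_empty_option (P := fun ι _ => ∀ {M : ι → GMod X} {r : ι → ℕ},
    (∀ i, (M i).IsBun (r i)) → kc (pi M) (∑ i, r i) = ∑ i, kc (M i) (r i)) ?_ ?_ ?_ ι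
  · intro α β _ e ih M r h
    letI := Fintype.ofEquiv β e.symm
    rw [← e.sum_comp, ← e.sum_comp, ← ih fun i => h (e i)]
    exact kc_qis (qis_of_equiv (A := pi M) (B := pi fun i => M (e i))
      (LinearEquiv.piCongrLeft X.R (fun i => (M i).M) e).symm fun _ _ => rfl) _
  · intro M r _
    exact kc_zero fun _ x => ⟨1, one_ne, funext fun i => i.elim⟩
  · intro α _ ih M r h
    rw [Fintype.sum_option, Fintype.sum_option, ← ih fun i => h (some i),
      ← kc_prod (h none) (isBun_pi fun i => h (some i))]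
    exact kc_qis (qis_of_equiv (A := pi M) (B := (M none).prod (pi fun i => M (some i)))
      (LinearEquiv.piOptionEquivProd X.R) fun _ _ => rfl) _

/-- the roof lemma -/
theorem roof (S : Submodule X.R (A.M × B.M)) (hS : (A.prod B).Stab S)
    (h1 : ∀ z : X.Pt, ∀ y, (0, y) ∈ S → ∃ t, z.1 t ≠ 0 ∧ t • y = 0)
    (h2 : ∀ z : X.Pt, ∀ x, (x, 0) ∈ S → ∃ t, z.1 t ≠ 0 ∧ t • x = 0)
    (h3 : ∀ z : X.Pt, ∀ x, ∃ t y, z.1 t ≠ 0 ∧ (t • x, y) ∈ S)
    (h4 : ∀ z : X.Pt, ∀ y, ∃ t x, z.1 t ≠ 0 ∧ (x, t • y) ∈ S) :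
    (∀ r, kc A r = kc B r) ∧ (∀ r, A.IsBun r ↔ B.IsBun r) ∧ cls A = cls B := by
  have q1 : Qis ((A.prod B).sub S hS) A (LinearMap.fst X.R A.M B.M ∘ₗ S.subtype) := by
    refine qis_of_bij (fun _ _ => rfl) fun z => ⟨?_, fun x => ?_⟩
    · rintro ⟨⟨x, y⟩, hp⟩ (rfl : x = 0)
      obtain ⟨t, ht, h⟩ := h1 z y hp
      exact ⟨t, ht, Subtype.ext (Prod.ext (smul_zero t) h)⟩
    · obtain ⟨t, y, ht, h⟩ := h3 z x
      exact ⟨t, ⟨_, h⟩, ht, rfl⟩
  have q2 : Qis ((A.prod B).sub S hS) B (LinearMap.snd X.R A.M B.M ∘ₗ S.subtype) := by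
    refine qis_of_bij (fun _ _ => rfl) fun z => ⟨?_, fun y => ?_⟩
    · rintro ⟨⟨x, y⟩, hp⟩ (rfl : y = 0)
      obtain ⟨t, ht, h⟩ := h2 z x hp
      exact ⟨t, ht, Subtype.ext (Prod.ext h (smul_zero t))⟩
    · obtain ⟨t, x, ht, h⟩ := h4 z y
      exact ⟨t, ⟨_, h⟩, ht, rfl⟩
  exact ⟨fun r => (kc_qis q1 r).symm.trans (kc_qis q2 r),
    fun _ => q1.isBun_iff.symm.trans q2.isBun_iff, (G_qis q1).symm.trans (G_qis q2)⟩

/-! ### the action on `G` -/

theorem AK.exists_act : ∃ Θ : K0 X →+* AddMonoid.End (G X), ∀ (B : Bun X) (M : GMod X),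
    Θ B.cls (cls M) = cls (B.M.ten M) := by
  choose T hT using fun B : Bun X => G_lift (fun M => cls (B.M.ten M))
    fun _ _ _ _ _ h => G_ses (h.ten_left B.free)
  obtain ⟨Θ, hΘ⟩ := K0_rep (E := AddMonoid.End (G X)) T
    (fun A B C f g h _ => G_ext fun M => by
      show T B _ = T A _ + T C _
      rw [hT, hT, hT, G_ses (h.ten_right C.free M)])
    (fun A B => G_ext fun M => by
      show T _ _ = T A (T B _)
      rw [hT, hT, hT, G_qis (qis_assoc _ _ _)]
      rfl)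
    (G_ext fun M => (hT _ M).trans (G_qis (qis_lid M)))
  exact ⟨Θ, fun B M => by rw [hΘ]; exact hT B M⟩

theorem kact_cls (B : Bun X) (M : GMod X) : kact X B.cls (cls M) = cls (B.M.ten M) := by
  have h : ∃ ψ : K0 X →+ G X →+ G X, ∀ (B : Bun X) (M : GMod X),
      ψ B.cls (cls M) = cls (B.M.ten M) := by
    obtain ⟨Θ, hΘ⟩ := AK.exists_act (X := X)
    exact ⟨Θ.toAddMonoidHom, hΘ⟩
  rw [kact, dif_pos h]
  exact h.choose_spec B M

theorem AK.act_eq : ∃ Θ : K0 X →+* AddMonoid.End (G X), ∀ s x, kact X s x = Θ s x := by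
  obtain ⟨Θ, hΘ⟩ := AK.exists_act (X := X)
  have h : kact X = Θ.toAddMonoidHom :=
    K0_ext fun B => G_ext fun M => (kact_cls B M).trans (hΘ B M).symm
  exact ⟨Θ, fun s x => by rw [h]; rfl⟩

theorem kact_kc (h : B.IsBun r) (M : GMod X) : kact X (kc B r) (cls M) = cls (B.ten M) := by
  rw [kc_eq h, kact_cls]

theorem kact_one (x : G X) : kact X 1 x = x := by
  obtain ⟨Θ, h⟩ := AK.act_eq (X := X)
  rw [h, map_one]
  rfl

theorem kact_mul (s t : K0 X) (x : G X) : kact X (s * t) x = kact X s (kact X t x) := by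
  obtain ⟨Θ, h⟩ := AK.act_eq (X := X)
  rw [h, h, h, map_mul]
  rfl

theorem kact_comm (s t : K0 X) (x : G X) : kact X s (kact X t x) = kact X t (kact X s x) := by
  rw [← kact_mul, ← kact_mul, mul_comm]

theorem kact_line (γ : X.J → ℤ) (M : GMod X) : kact X (line X γ) (cls M) = cls (M.shift γ) :=
  (kact_kc ((isBun_one X).shift γ) M).trans (G_qis (qis_shift M γ))

theorem kact_oG (h : B.IsBun r) : kact X (kc B r) (oG X) = cls B :=
  (kact_kc h _).trans (G_qis (qis_rid B))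

instance (X : Spc) : Module (K0 X) (G X) where
  smul s x := kact X s x
  one_smul := kact_one
  mul_smul := kact_mul
  smul_zero s := map_zero (kact X s)
  smul_add s := map_add (kact X s)
  add_smul s t x := congrArg (fun u : G X →+ G X => u x) (map_add (kact X) s t)
  zero_smul x := congrArg (fun u : G X →+ G X => u x) (map_zero (kact X))

theorem kact_smul (s : K0 X) (x : G X) : kact X s x = s • x := rfl

end K0

end Vale.Agent.P297Z
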