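import Vale.Agent.P297Z.K.Loc
import Vale.Agent.P297Z.Dim.Fib

/-!
# P297: functoriality of the parts of a module along a projective structure
-/

set_option linter.all false

open scoped TensorProduct

noncomputable section

namespace Vale.Agent.P297Z

variable {W X Y Z : Spc}

/-- the identity map to the twisted module -/
def GMod.toShift (M : GMod X) (γ : X.J → ℤ) : M.M ≃ₗ[X.R] (M.shift γ).M := LinearEquiv.refl X.R M.M

theorem GMod.act_toShift (M : GMod X) (γ : X.J → ℤ) (g : X.J → ℂˣ) (m : M.M) :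
    (M.shift γ).act g (M.toShift γ m) = chr (-γ) g • M.toShift γ (M.act g m) := rfl

theorem GMod.toShift_smul (M : GMod X) (γ : X.J → ℤ) (c : ℂ) (m : M.M) :
    M.toShift γ (c • m) = c • M.toShift γ m := rfl

theorem GMod.toShift_mem_wt {M : GMod X} {γ δ : X.J → ℤ} {m : M.M} :
    M.toShift γ m ∈ (M.shift γ).wt δ ↔ m ∈ M.wt (δ + γ) := by
  refine forall_congr' fun g => ?_
  show chr (-γ) g • M.act g m = chr δ g • m ↔ M.act g m = _
  rw [chr_add]
  constructor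
  · intro h
    have := congrArg (fun x => chr γ g • x) h
    simp only [smul_smul, chr_mul_neg, one_smul] at this
    rw [this, mul_comm]
  · intro h
    rw [h, smul_smul, mul_comm (chr δ g), ← mul_assoc, chr_neg_mul, one_mul]

theorem GMod.mem_shift_wt' {M : GMod X} {γ δ : X.J → ℤ} {m : (M.shift γ).M} :
    m ∈ (M.shift γ).wt δ ↔ (M.toShift γ).symm m ∈ M.wt (δ + γ) :=
  GMod.toShift_mem_wt (m := (M.toShift γ).symm m)

namespace Prj

variable {f : Mor X Y} (P : Prj f)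

theorem map_mem_wtE {A B : GMod X} {u : A.M →ₗ[X.R] B.M} (hu : A.IsHom B u) {k : P.E → ℤ}
    {m : A.M} (hm : m ∈ wt (P.actE A) k) : u m ∈ wt (P.actE B) k :=
  map_mem_wt (u.restrictScalars ℂ) (fun _ v => hu _ v) hm

/-- the map on the parts -/
def partMap (k : P.E → ℤ) {A B : GMod X} (u : A.M →ₗ[X.R] B.M) (hu : A.IsHom B u) :
    (P.part k A).M →ₗ[Y.R] (P.part k B).M where
  toFun m := ⟨f.toRes B (u ((f.toRes A).symm m.1)),
    P.toRes_mem_partS.2 (P.map_mem_wtE hu (P.mem_partS.1 m.2))⟩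
  map_add' a b := Subtype.ext (map_add u a.1 b.1)
  map_smul' r a := Subtype.ext (map_smul u (f.φ r) ((f.toRes A).symm a.1))

theorem partMap_coe (k : P.E → ℤ) {A B : GMod X} (u : A.M →ₗ[X.R] B.M) (hu : A.IsHom B u)
    (m : (P.part k A).M) :
    (P.partMap k u hu m).1 = f.toRes B (u ((f.toRes A).symm m.1)) := rfl

theorem partMap_isHom (k : P.E → ℤ) {A B : GMod X} (u : A.M →ₗ[X.R] B.M) (hu : A.IsHom B u) :
    GMod.IsHom _ _ (P.partMap k u hu) := fun g m => Subtype.ext (hu _ m.1)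

/-- an element of degree `k` as an element of the part -/
def el {k : P.E → ℤ} {M : GMod X} (m : M.M) (hm : m ∈ wt (P.actE M) k) : (P.part k M).M :=
  ⟨f.toRes M m, P.toRes_mem_partS.2 hm⟩

/-- the element of the module under an element of the part -/
def val {k : P.E → ℤ} {M : GMod X} : (P.part k M).M →ₗ[ℂ] M.M where
  toFun m := (f.toRes M).symm m.1
  map_add' _ _ := rfl
  map_smul' _ _ := rfl

theorem val_mem {k : P.E → ℤ} {M : GMod X} (m : (P.part k M).M) : P.val m ∈ wt (P.actE M) k :=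
  P.mem_partS.1 m.2

theorem val_inj {k : P.E → ℤ} {M : GMod X} : Function.Injective (P.val (k := k) (M := M)) :=
  fun _ _ h => Subtype.ext h

@[simp] theorem val_el {k : P.E → ℤ} {M : GMod X} (m : M.M) (hm : m ∈ wt (P.actE M) k) :
    P.val (P.el m hm) = m := rfl

theorem val_smul {k : P.E → ℤ} {M : GMod X} (r : Y.R) (m : (P.part k M).M) :
    P.val (r • m) = f.φ r • P.val m := rfl

theorem val_partMap (k : P.E → ℤ) {A B : GMod X} (u : A.M →ₗ[X.R] B.M) (hu : A.IsHom B u)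
    (m : (P.part k A).M) : P.val (P.partMap k u hu m) = u (P.val m) := rfl

theorem val_act {k : P.E → ℤ} {M : GMod X} (h : Y.J → ℂˣ) (m : (P.part k M).M) :
    P.val ((P.part k M).act h m) = M.act (tor P.ret h) (P.val m) := rfl

theorem mem_part_wt' {k : P.E → ℤ} {M : GMod X} {γ : Y.J → ℤ} {m : (P.part k M).M} :
    m ∈ (P.part k M).wt γ ↔ P.val m ∈ M.wt (f.ρ γ + P.σ k) := P.mem_part_wt

theorem smul_mem_wtE {M : GMod X} (r : Y.R) {k : P.E → ℤ} {m : M.M} (hm : m ∈ wt (P.actE M) k) :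
    f.φ r • m ∈ wt (P.actE M) k := P.val_mem (r • P.el m hm)

theorem cmpE_smul (M : GMod X) (k : P.E → ℤ) (r : Y.R) (m : M.M) :
    cmp (P.spanE M) k (f.φ r • m) = f.φ r • cmp (P.spanE M) k m :=
  (P.cmpE M k).map_smul r (f.toRes M m)

theorem map_cmpE {A B : GMod X} {u : A.M →ₗ[X.R] B.M} (hu : A.IsHom B u) (k : P.E → ℤ)
    (m : A.M) : u (cmp (P.spanE A) k m) = cmp (P.spanE B) k (u m) :=
  map_cmp (P.spanE A) (P.spanE B) u.toAddMonoidHom (fun k => k) Function.injective_id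
    (fun _ _ hv => P.map_mem_wtE hu hv) k m

theorem partMap_injective (k : P.E → ℤ) {A B : GMod X} {u : A.M →ₗ[X.R] B.M} (hu : A.IsHom B u)
    (h : Function.Injective u) : Function.Injective (P.partMap k u hu) :=
  fun _ _ e => P.val_inj (h (congrArg P.val e))

theorem exists_preimage (k : P.E → ℤ) {A B : GMod X} {u : A.M →ₗ[X.R] B.M} (hu : A.IsHom B u)
    {b : (P.part k B).M} {a : A.M} (h : u a = P.val b) : ∃ a', P.partMap k u hu a' = b :=
  ⟨P.el _ (cmp_mem (P.spanE A) k a), P.val_inj (by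
    rw [val_partMap, val_el, P.map_cmpE hu, h, cmp_of_mem _ (P.val_mem b)])⟩

theorem partMap_surjective (k : P.E → ℤ) {A B : GMod X} {u : A.M →ₗ[X.R] B.M} (hu : A.IsHom B u)
    (h : Function.Surjective u) : Function.Surjective (P.partMap k u hu) :=
  fun b => (h (P.val b)).elim fun _ ha => P.exists_preimage k hu ha

theorem partMap_exact (k : P.E → ℤ) {A B C : GMod X} {u : A.M →ₗ[X.R] B.M} {v : B.M →ₗ[X.R] C.M}
    (hu : A.IsHom B u) (hv : B.IsHom C v) (h : Function.Exact u v) :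
    Function.Exact (P.partMap k u hu) (P.partMap k v hv) := by
  intro b
  constructor
  · intro hb
    obtain ⟨a, ha⟩ := (h (P.val b)).1 (congrArg P.val hb)
    exact P.exists_preimage k hu ha
  · rintro ⟨a, rfl⟩
    exact P.val_inj (h.apply_apply_eq_zero (P.val a))

/-- the subalgebra generated by the base and the new coordinates -/
abbrev alg : Subalgebra ℂ X.R := Algebra.adjoin ℂ (Set.range f.φ ∪ ⋃ e, (P.y e : Set X.R))

theorem span_mon {M : GMod X} (T : Set M.M) {m : M.M} (hm : m ∈ Submodule.span P.alg T) :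
    f.toRes M m ∈
      Submodule.span Y.R {m : f.Res M | ∃ t ∈ T, ∃ α, m = f.toRes M (P.mon α • t)} := by
  classical
  let S : Submodule Y.R (f.Res M) :=
    Submodule.span Y.R {m : f.Res M | ∃ t ∈ T, ∃ α, m = f.toRes M (P.mon α • t)}
  have hA : ∀ a ∈ P.alg, ∀ m : M.M, f.toRes M m ∈ S → f.toRes M (a • m) ∈ S := by
    intro a ha
    induction ha using Algebra.adjoin_induction with
    | mem x hx =>
      rcases hx with ⟨r, rfl⟩ | hx
      · exact fun m hm => S.smul_mem r hm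
      · obtain ⟨e, he⟩ := Set.mem_iUnion.1 hx
        intro m hm
        refine Submodule.span_induction (p := fun (m : f.Res M) _ =>
          f.toRes M (x • (f.toRes M).symm m) ∈ S) ?_ ?_ ?_ ?_ hm
        · rintro _ ⟨t, ht, α, rfl⟩
          refine Submodule.subset_span ⟨t, ht, Pi.single ⟨e, ⟨x, he⟩⟩ 1 + α, ?_⟩
          rw [P.mon_add, mul_smul, P.mon_single, LinearEquiv.symm_apply_apply]
        · rw [map_zero, smul_zero, map_zero]; exact S.zero_mem
        · intro a b _ _ ha hb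
          rw [map_add, smul_add, map_add]; exact S.add_mem ha hb
        · intro r a _ ha
          rw [f.toRes_symm_smul, smul_comm, ← f.smul_toRes]; exact S.smul_mem r ha
    | algebraMap c =>
      intro m hm
      rw [algebraMap_smul, map_smul]
      exact S.smul_of_tower_mem c hm
    | add x y _ _ hx hy =>
      intro m hm
      rw [add_smul, map_add]; exact S.add_mem (hx m hm) (hy m hm)
    | mul x y _ _ hx hy =>
      intro m hm
      rw [mul_smul]; exact hx _ (hy m hm)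
  induction hm using Submodule.span_induction with
  | mem t ht => exact Submodule.subset_span ⟨t, ht, 0, by rw [P.mon_zero, one_smul]⟩
  | zero => rw [map_zero]; exact S.zero_mem
  | add x y _ _ hx hy => rw [map_add]; exact S.add_mem hx hy
  | smul a x _ hx => exact hA a.1 a.2 x hx

theorem mon_smul_mem {M : GMod X} (α : P.Ix → ℕ) {k : P.E → ℤ} {m : M.M}
    (hm : m ∈ wt (P.actE M) k) : P.mon α • m ∈ wt (P.actE M) (P.deg α + k) := by
  obtain ⟨δ, h1, h2⟩ := P.mon_mem α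
  intro h
  show M.act _ _ = _
  have : M.act (tor P.π h) m = _ := hm h
  rw [M.act_smul, this, Spc.mem_wt.1 h1, chr_tor, h2, chr_add, smul_assoc, smul_comm (P.mon α),
    smul_smul]

/-- the product of the ideals of the new coordinates -/
def irr : Ideal X.R := ∏ e, Ideal.span (P.y e : Set X.R)

theorem mon_mem_irr {α : P.Ix → ℕ} {n : ℕ} (h : ∀ e, (n : ℤ) ≤ P.deg α e) :
    P.mon α ∈ P.irr ^ n := by
  unfold mon irr
  rw [← Finset.prod_pow, Fintype.prod_sigma]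
  refine Ideal.prod_mem_prod fun e _ => ?_
  have h1 : n ≤ ∑ a : P.y e, α ⟨e, a⟩ := by
    have := h e
    unfold deg at this
    exact_mod_cast this
  refine Ideal.pow_le_pow_right h1 ?_
  rw [← Finset.prod_pow_eq_pow_sum]
  exact Ideal.prod_mem_prod fun a _ => Ideal.pow_mem_pow (Ideal.subset_span a.2) _

/-- in large degrees a submodule is generated from lower degrees -/
theorem gen_lemma {M : GMod X} (N : Submodule X.R M.M) (hN : ∀ h, ∀ m ∈ N, P.actE M h m ∈ N)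
    (n : ℕ) : ∃ k₀ : P.E → ℤ, ∀ k, k₀ ≤ k → ∀ b ∈ N, b ∈ wt (P.actE M) k → b ∈ P.irr ^ n • N := by
  classical
  haveI : Module.Finite P.alg X.R := P.fin
  haveI : Module.Finite X.R N := Module.Finite.iff_fg.2 (IsNoetherian.noetherian N)
  haveI : Module.Finite P.alg N := Module.Finite.trans X.R N
  obtain ⟨S, hS⟩ := (Module.finite_def.1 inferInstance : (⊤ : Submodule P.alg N).FG)
  choose s hs _ using exists_sum_cmp (P.spanE M)
  let D : Finset (P.E → ℤ) := S.biUnion fun m => s m.1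
  obtain ⟨c, hc⟩ := D.bddAbove
  refine ⟨fun e => c e + n, fun k hk b hb hbk => ?_⟩
  let T : Set M.M := {t | t ∈ N ∧ ∃ l ∈ D, t ∈ wt (P.actE M) l}
  have h1 : b ∈ Submodule.span P.alg T := by
    have h2 : (⟨b, hb⟩ : N) ∈ Submodule.span P.alg (S : Set N) := hS ▸ Submodule.mem_top
    refine Submodule.span_induction (p := fun (x : N) _ => x.1 ∈ Submodule.span P.alg T)
      ?_ (Submodule.zero_mem _) (fun x y _ _ hx hy => Submodule.add_mem _ hx hy)
      (fun a x _ hx => Submodule.smul_mem _ a hx) h2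
    intro x hx
    rw [← hs x.1]
    exact Submodule.sum_mem _ fun l hl => Submodule.subset_span
      ⟨cmp_mem_stab (P.spanE M) (N.restrictScalars ℂ) hN x.2 l, l,
        Finset.mem_biUnion.2 ⟨x, hx, hl⟩, cmp_mem _ _ _⟩
  rw [← cmp_of_mem (P.spanE M) hbk]
  refine Submodule.span_induction (p := fun (m : f.Res M) _ =>
    cmp (P.spanE M) k ((f.toRes M).symm m) ∈ P.irr ^ n • N) ?_ ?_ ?_ ?_ (P.span_mon T h1)
  · rintro _ ⟨t, ⟨ht, l, hl, htl⟩, α, rfl⟩
    rw [LinearEquiv.symm_apply_apply]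
    by_cases e : P.deg α + l = k
    · rw [cmp_of_mem _ (e ▸ P.mon_smul_mem α htl)]
      refine Submodule.smul_mem_smul (P.mon_mem_irr fun j => ?_) ht
      have a1 : l j ≤ c j := hc hl j
      have a2 := hk j
      have a3 := congrFun e j
      simp only [Pi.add_apply] at a3
      dsimp only at a2
      omega
    · rw [cmp_of_ne _ e (P.mon_smul_mem α htl)]
      exact Submodule.zero_mem _
  · rw [map_zero, map_zero]; exact Submodule.zero_mem _
  · intro a b _ _ ha hb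
    rw [map_add, map_add]; exact Submodule.add_mem _ ha hb
  · intro r a _ ha
    rw [f.toRes_symm_smul, P.cmpE_smul]; exact Submodule.smul_mem _ _ ha

/-- a local inclusion is an inclusion in large degrees -/
theorem zero_lemma {M : GMod X} (N₁ N₂ : Submodule X.R M.M)
    (h₁ : ∀ h, ∀ m ∈ N₁, P.actE M h m ∈ N₁) (c : Y.R)
    (h : ∀ x : X.R →ₐ[ℂ] ℂ, x (f.φ c) ≠ 0 → (∀ e, ∃ a ∈ P.y e, x a ≠ 0) →
      ∀ b ∈ N₁, ∃ r, x r ≠ 0 ∧ r • b ∈ N₂) :
    ∃ (n : ℕ) (k₀ : P.E → ℤ), ∀ k, k₀ ≤ k → ∀ b ∈ N₁, b ∈ wt (P.actE M) k →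
      f.φ c ^ n • b ∈ N₂ := by
  classical
  let C : Ideal X.R := N₂.colon (N₁ : Set M.M)
  have h1 : Ideal.span {f.φ c} * P.irr ≤ C.radical := by
    intro a ha
    refine Dim.mem_radical (k := ℂ) fun x hx => ?_
    by_contra hne
    obtain ⟨⟨a1, k1, k2⟩, ⟨a2, k3, k4⟩⟩ := (exists_mul_ne _ _ x).1 ⟨a, ha, hne⟩
    have hc : x (f.φ c) ≠ 0 := by
      obtain ⟨t, rfl⟩ := Ideal.mem_span_singleton'.1 k1
      rw [map_mul] at k2
      exact right_ne_zero_of_mul k2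
    have hy : ∀ e, ∃ a ∈ P.y e, x a ≠ 0 := by
      intro e
      by_contra hn
      push Not at hn
      have : P.irr ≤ RingHom.ker x :=
        (Ideal.prod_le_inf.trans (Finset.inf_le (Finset.mem_univ e))).trans
          (Ideal.span_le.2 fun a ha => hn a ha)
      exact k4 (this k3)
    obtain ⟨r, hr, hr'⟩ := unif_fg (IsNoetherian.noetherian N₁) (h x hc hy)
    exact hr (hx r (Submodule.mem_colon.2 fun b hb => hr' b hb))
  obtain ⟨n, hn⟩ := Ideal.exists_pow_le_of_le_radical_of_fg h1 (IsNoetherian.noetherian _)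
  obtain ⟨k₀, hk₀⟩ := P.gen_lemma N₁ h₁ n
  refine ⟨n, k₀, fun k hk b hb hbk => ?_⟩
  refine Submodule.smul_induction_on (p := fun b => f.φ c ^ n • b ∈ N₂) (hk₀ k hk b hb hbk)
    (fun r hr m hm => ?_) (fun x y hx hy => ?_)
  · rw [smul_smul]
    refine Submodule.mem_colon.1 (hn ?_) m hm
    rw [mul_pow]
    exact Ideal.mul_mem_mul (Ideal.pow_mem_pow (Ideal.mem_span_singleton_self _) n) hr
  · rw [smul_add]; exact N₂.add_mem hx hy

/-- an inclusion at all points is, in large degrees, an inclusion at all points of the base -/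
theorem le_lemma {M : GMod X} (N₁ N₂ : Submodule X.R M.M)
    (h₁ : ∀ h, ∀ m ∈ N₁, P.actE M h m ∈ N₁)
    (h : ∀ z : X.Pt, ∀ b ∈ N₁, ∃ r, z.1 r ≠ 0 ∧ r • b ∈ N₂) :
    ∃ k₀ : P.E → ℤ, ∀ k, k₀ ≤ k → ∀ y : Y.Pt, ∃ c, y.1 c ≠ 0 ∧
      ∀ b ∈ N₁, b ∈ wt (P.actE M) k → f.φ c • b ∈ N₂ := by
  classical
  obtain ⟨s, hs⟩ : Y.b.FG := IsNoetherian.noetherian _
  have : ∀ c ∈ s, ∃ (n : ℕ) (k₀ : P.E → ℤ), ∀ k, k₀ ≤ k → ∀ b ∈ N₁, b ∈ wt (P.actE M) k →
      f.φ c ^ n • b ∈ N₂ := fun c hc =>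
    P.zero_lemma N₁ N₂ h₁ c fun x h1 h2 =>
      h ⟨x, (P.pts x).2 ⟨⟨c, hs ▸ Ideal.subset_span hc, h1⟩, h2⟩⟩
  choose! n k₀ hk using this
  obtain ⟨k₁, hk₁⟩ := (s.image k₀).bddAbove
  refine ⟨k₁, fun k hk' y => ?_⟩
  obtain ⟨c, hc, hc'⟩ : ∃ c ∈ s, y.1 c ≠ 0 := by
    by_contra hn
    push Not at hn
    obtain ⟨a, ha, ha'⟩ := y.2
    have : Y.b ≤ RingHom.ker y.1 := hs.symm.le.trans (Ideal.span_le.2 fun a ha => hn a ha)
    exact ha' (this ha)
  refine ⟨c ^ n c, ev_pow hc' _, fun b hb hbk => ?_⟩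
  rw [map_pow]
  exact hk c hc k ((hk₁ (Finset.mem_coe.2 (Finset.mem_image_of_mem _ hc))).trans hk') b hb hbk

theorem part_injAt {A B : GMod X} {u : A.M →ₗ[X.R] B.M} (hu : A.IsHom B u)
    (h : ∀ z : X.Pt, InjAt z.1 u) :
    ∃ k₀, ∀ k, k₀ ≤ k → ∀ y : Y.Pt, InjAt y.1 (P.partMap k u hu) := by
  obtain ⟨k₀, hk⟩ := P.le_lemma (LinearMap.ker u) ⊥ (fun _ => hu.stab_ker _) fun z b hb => h z b hb
  refine ⟨k₀, fun k hk' y a ha => ?_⟩
  obtain ⟨c, h1, h2⟩ := hk k hk' y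
  exact ⟨c, h1, P.val_inj (h2 (P.val a) (congrArg P.val ha) (P.val_mem a))⟩

theorem part_exAt {A B C : GMod X} {u : A.M →ₗ[X.R] B.M} {v : B.M →ₗ[X.R] C.M}
    (hu : A.IsHom B u) (hv : B.IsHom C v) (h : ∀ z : X.Pt, ExAt z.1 u v) :
    ∃ k₀, ∀ k, k₀ ≤ k → ∀ y : Y.Pt, ExAt y.1 (P.partMap k u hu) (P.partMap k v hv) := by
  obtain ⟨k₀, hk⟩ := P.le_lemma (LinearMap.ker v) (LinearMap.range u) (fun _ => hv.stab_ker _)
    fun z b hb => (h z b hb).imp fun r ⟨a, h1, h2⟩ => ⟨h1, a, h2⟩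
  refine ⟨k₀, fun k hk' y b hb => ?_⟩
  obtain ⟨c, h1, h2⟩ := hk k hk' y
  obtain ⟨a, ha⟩ := h2 (P.val b) (congrArg P.val hb) (P.val_mem b)
  obtain ⟨a', ha'⟩ := P.exists_preimage k hu (b := c • b) ha
  exact ⟨c, a', h1, ha'⟩

theorem part_surjAt {A B : GMod X} {u : A.M →ₗ[X.R] B.M} (hu : A.IsHom B u)
    (h : ∀ z : X.Pt, SurjAt z.1 u) :
    ∃ k₀, ∀ k, k₀ ≤ k → ∀ y : Y.Pt, SurjAt y.1 (P.partMap k u hu) := by
  obtain ⟨k₀, hk⟩ := P.le_lemma (M := B) ⊤ (LinearMap.range u) (fun _ _ _ => Submodule.mem_top)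
    fun z b _ => (h z b).imp fun r ⟨a, h1, h2⟩ => ⟨h1, a, h2⟩
  refine ⟨k₀, fun k hk' y b => ?_⟩
  obtain ⟨c, h1, h2⟩ := hk k hk' y
  obtain ⟨a, ha⟩ := h2 (P.val b) Submodule.mem_top (P.val_mem b)
  obtain ⟨a', ha'⟩ := P.exists_preimage k hu (b := c • b) ha
  exact ⟨c, a', h1, ha'⟩

theorem part_zeroAt {A : GMod X} (h : ∀ z : X.Pt, ZeroAt z.1 A.M) :
    ∃ k₀, ∀ k, k₀ ≤ k → ∀ y : Y.Pt, ZeroAt y.1 (P.part k A).M := by
  obtain ⟨k₀, hk⟩ := P.le_lemma (M := A) ⊤ ⊥ (fun _ _ _ => Submodule.mem_top) fun z b _ => h z b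
  refine ⟨k₀, fun k hk' y a => ?_⟩
  obtain ⟨c, h1, h2⟩ := hk k hk' y
  exact ⟨c, h1, P.val_inj (h2 (P.val a) Submodule.mem_top (P.val_mem a))⟩

theorem part_ses {A B C : GMod X} {u : A.M →ₗ[X.R] B.M} {v : B.M →ₗ[X.R] C.M}
    (h : GMod.SES A B C u v) : ∃ k₀, ∀ k, k₀ ≤ k →
      GMod.SES _ _ _ (P.partMap k u h.1) (P.partMap k v h.2.1) := by
  obtain ⟨k₁, h1⟩ := P.part_injAt h.1 fun z => (h.2.2.2 z).1
  obtain ⟨k₂, h2⟩ := P.part_exAt h.1 h.2.1 fun z => (h.2.2.2 z).2.1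
  obtain ⟨k₃, h3⟩ := P.part_surjAt h.2.1 fun z => (h.2.2.2 z).2.2
  refine ⟨k₁ ⊔ k₂ ⊔ k₃, fun k hk => ⟨P.partMap_isHom _ _ _, P.partMap_isHom _ _ _,
    fun a => P.val_inj (h.2.2.1 _), fun y => ⟨h1 k ?_ y, h2 k ?_ y, h3 k ?_ y⟩⟩⟩
  · exact (le_sup_left.trans le_sup_left).trans hk
  · exact (le_sup_right.trans le_sup_left).trans hk
  · exact le_sup_right.trans hk

theorem part_qis {A B : GMod X} {u : A.M →ₗ[X.R] B.M} (h : A.Qis B u) :
    ∃ k₀, ∀ k, k₀ ≤ k → GMod.Qis _ _ (P.partMap k u h.1) := by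
  obtain ⟨k₁, h1⟩ := P.part_injAt h.1 fun z => (h.2 z).injAt
  obtain ⟨k₃, h3⟩ := P.part_surjAt h.1 fun z => (h.2 z).surjAt
  exact ⟨k₁ ⊔ k₃, fun k hk => ⟨P.partMap_isHom _ _ _, fun y =>
    isoAt_of (h1 k (le_sup_left.trans hk) y) (h3 k (le_sup_right.trans hk) y)⟩⟩

theorem wtE_shift (M : GMod X) (δ : X.J → ℤ) (k : P.E → ℤ) (m : M.M) :
    m ∈ wt (P.actE M) (k + P.π δ) ↔ M.toShift δ m ∈ wt (P.actE (M.shift δ)) k := by
  refine forall_congr' fun g => Iff.symm ?_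
  show chr (-δ) (tor P.π g) • M.act (tor P.π g) m = chr k g • m ↔ M.act (tor P.π g) m = _
  rw [chr_add, chr_tor, map_neg]
  constructor
  · intro h
    have := congrArg (fun x => chr (P.π δ) g • x) h
    simp only [smul_smul, chr_mul_neg, one_smul] at this
    rw [this, mul_comm]
  · intro h
    rw [h, smul_smul, mul_comm (chr k g), ← mul_assoc, chr_neg_mul, one_mul]

/-- an isomorphism of parts -/
def eqv (P' : Prj f) {k : P.E → ℤ} {k' : P'.E → ℤ} {M M' : GMod X} (e : M.M ≃ₗ[X.R] M'.M)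
    (h : ∀ m, m ∈ wt (P.actE M) k ↔ e m ∈ wt (P'.actE M') k') :
    (P.part k M).M ≃ₗ[Y.R] (P'.part k' M').M where
  toFun m := P'.el (e (P.val m)) ((h _).1 (P.val_mem m))
  invFun m := P.el (e.symm (P'.val m)) ((h _).2 (by
    rw [LinearEquiv.apply_symm_apply]; exact P'.val_mem m))
  map_add' a b := P'.val_inj (by simp only [map_add, val_el])
  map_smul' r a := P'.val_inj (by
    simp only [RingHom.id_apply, val_smul, val_el, map_smul])
  left_inv a := P.val_inj (by rw [val_el, val_el, LinearEquiv.symm_apply_apply])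
  right_inv a := P'.val_inj (by rw [val_el, val_el, LinearEquiv.apply_symm_apply])

theorem val_eqv (P' : Prj f) {k : P.E → ℤ} {k' : P'.E → ℤ} {M M' : GMod X} (e : M.M ≃ₗ[X.R] M'.M)
    (h : ∀ m, m ∈ wt (P.actE M) k ↔ e m ∈ wt (P'.actE M') k') (m : (P.part k M).M) :
    P'.val (P.eqv P' e h m) = e (P.val m) := rfl

theorem part_shift' (k : P.E → ℤ) (δ : X.J → ℤ) (M : GMod X) :
    ∃ e : ((P.part (k + P.π δ) M).shift (P.ret δ)).M ≃ₗ[Y.R] (P.part k (M.shift δ)).M,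
      GMod.IsHom _ _ e.toLinearMap := by
  refine ⟨((P.part (k + P.π δ) M).toShift (P.ret δ)).symm.trans
    (P.eqv P (M.toShift δ) (P.wtE_shift M δ k)), GMod.isHom_of_wt fun γ m hm => ?_⟩
  rw [GMod.mem_shift_wt', mem_part_wt'] at hm
  rw [mem_part_wt', LinearEquiv.coe_coe, LinearEquiv.trans_apply, val_eqv, GMod.toShift_mem_wt]
  convert hm using 2
  conv_lhs => rw [← P.tot δ]
  rw [map_add, map_add]
  abel

theorem part_shift (k l : P.E → ℤ) (γ : Y.J → ℤ) (M : GMod X) :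
    ∃ e : ((P.part (k + l) M).shift γ).M ≃ₗ[Y.R] (P.part k (M.shift (f.ρ γ + P.σ l))).M,
      GMod.IsHom _ _ e.toLinearMap := by
  have h := P.part_shift' k (f.ρ γ + P.σ l) M
  rwa [P.π_add, P.ret_add] at h

/-- the piece of degree `δ`: the sum of the weight spaces of degree `ρ γ + δ` -/
def piece (δ : X.J → ℤ) (M : GMod X) : GMod Y := (P.part (P.π δ) M).shift (P.ret δ)

theorem mem_wtE_of (P' : Prj f) {M : GMod X} {δ : X.J → ℤ} {m : M.M}
    (hm : m ∈ wt (P.actE M) (P.π δ)) : m ∈ wt (P'.actE M) (P'.π δ) := by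
  have h1 : m ∈ ⨆ γ, M.wt (f.ρ γ + P.σ (P.π δ)) := P.toRes_mem_partS.2 hm
  refine Submodule.iSup_induction (motive := fun m : M.M => m ∈ wt (P'.actE M) (P'.π δ)) _ h1
    (fun γ m hm => ?_) (Submodule.zero_mem _) (fun x y hx hy => Submodule.add_mem _ hx hy)
  have := P'.mem_wtE hm
  rw [map_add, P'.π_ρ, zero_add] at this
  have e : P'.π δ = P'.π (P.σ (P.π δ)) := by
    conv_lhs => rw [← P.tot δ, map_add, P'.π_ρ, zero_add]
  rw [e]
  exact this

/-- the identity map from the part to the piece -/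
def toPiece (δ : X.J → ℤ) (M : GMod X) : (P.part (P.π δ) M).M ≃ₗ[Y.R] (P.piece δ M).M :=
  (P.part (P.π δ) M).toShift (P.ret δ)

theorem toPiece_mem_wt {δ : X.J → ℤ} {M : GMod X} {γ : Y.J → ℤ} {m : (P.part (P.π δ) M).M} :
    P.toPiece δ M m ∈ (P.piece δ M).wt γ ↔ P.val m ∈ M.wt (f.ρ γ + δ) := by
  refine (GMod.toShift_mem_wt (M := P.part (P.π δ) M) (m := m)).trans ?_
  rw [P.mem_part_wt', map_add, add_assoc, P.tot]

theorem mem_piece_wt {δ : X.J → ℤ} {M : GMod X} {γ : Y.J → ℤ} {m : (P.piece δ M).M} :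
    m ∈ (P.piece δ M).wt γ ↔ P.val ((P.toPiece δ M).symm m) ∈ M.wt (f.ρ γ + δ) := by
  rw [← toPiece_mem_wt, LinearEquiv.apply_symm_apply]

theorem piece_iso (P' : Prj f) (δ : X.J → ℤ) (M : GMod X) :
    ∃ e : (P.piece δ M).M ≃ₗ[Y.R] (P'.piece δ M).M, GMod.IsHom _ _ e.toLinearMap := by
  refine ⟨(P.toPiece δ M).symm.trans ((P.eqv P' (LinearEquiv.refl X.R M.M)
    fun m => ⟨P.mem_wtE_of P', P'.mem_wtE_of P⟩).trans (P'.toPiece δ M)),
    GMod.isHom_of_wt fun γ m hm => ?_⟩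
  rw [mem_piece_wt] at hm
  rw [LinearEquiv.coe_coe, LinearEquiv.trans_apply, LinearEquiv.trans_apply, toPiece_mem_wt,
    val_eqv]
  exact hm

theorem piece_shift (δ : X.J → ℤ) (M : GMod X) :
    ∃ e : (P.piece δ M).M ≃ₗ[Y.R] (P.part 0 (M.shift δ)).M, GMod.IsHom _ _ e.toLinearMap := by
  have h := P.part_shift' 0 δ M
  rwa [zero_add] at h

end Prj

end Vale.Agent.P297Z
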