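import Vale.Agent.P297Z.K.Defs

/-!
# P297: constructors of projective structures
-/

set_option linter.all false

open scoped TensorProduct

noncomputable section

namespace Vale.Agent.P297Z

variable {W X Y Z : Spc}

section fin

variable {A B : Type} [CommRing A] [CommRing B] [Algebra ℂ A] [Algebra ℂ B]

theorem fin_of_integral [Algebra.FiniteType ℂ B] (S : Subalgebra ℂ B) (h : ∀ b : B, IsIntegral S b) :
    Module.Finite S B := by
  haveI : Algebra.IsIntegral S B := ⟨h⟩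
  haveI : Algebra.FiniteType S B := Algebra.FiniteType.of_restrictScalars_finiteType ℂ S B
  exact Algebra.IsIntegral.finite

theorem int_of_mem {S : Subalgebra ℂ B} {b : B} (h : b ∈ S) : IsIntegral S b :=
  isIntegral_algebraMap (x := (⟨b, h⟩ : S))

theorem int_of_fin {s : Set A} (hs : Module.Finite (Algebra.adjoin ℂ s) A) (ψ : A →ₐ[ℂ] B)
    {S : Subalgebra ℂ B} (h : ∀ x ∈ s, ψ x ∈ S) (a : A) : IsIntegral S (ψ a) := by
  have h1 : Algebra.adjoin ℂ s ≤ S.comap ψ := Algebra.adjoin_le h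
  exact IsIntegral.map_of_comp_eq
    ((ψ.comp (Algebra.adjoin ℂ s).val).codRestrict S fun t => h1 t.2).toRingHom ψ.toRingHom rfl
    (IsIntegral.of_finite _ a)

theorem int_mono {S T : Subalgebra ℂ B} (h : S ≤ T) {b : B} (hb : IsIntegral S b) :
    IsIntegral T b := hb.map_of_comp_eq (Subalgebra.inclusion h).toRingHom (RingHom.id _) rfl

end fin

theorem Mor.ext' {f g : Mor X Y} (h1 : ∀ r, f.φ r = g.φ r) (h2 : ∀ γ, f.ρ γ = g.ρ γ) : f = g := by
  obtain ⟨φ, ρ, _, _⟩ := f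
  obtain ⟨φ', ρ', _, _⟩ := g
  obtain rfl : φ = φ' := AlgHom.ext h1
  obtain rfl : ρ = ρ' := AddMonoidHom.ext h2
  rfl

namespace Mor

@[simp] theorem id_φ (r : X.R) : (Mor.id X).φ r = r := rfl

@[simp] theorem id_ρ (γ : X.J → ℤ) : (Mor.id X).ρ γ = γ := rfl

@[simp] theorem comp_φ (g : Mor Y Z) (f : Mor X Y) (r : Z.R) : (g.comp f).φ r = f.φ (g.φ r) := rfl

@[simp] theorem comp_ρ (g : Mor Y Z) (f : Mor X Y) (γ : Z.J → ℤ) :
    (g.comp f).ρ γ = f.ρ (g.ρ γ) := rfl

theorem fst_φ (r : X.R) : (Mor.fst X Y).φ r = r ⊗ₜ[ℂ] (1 : Y.R) := rfl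

theorem snd_φ (r : Y.R) : (Mor.snd X Y).φ r = (1 : X.R) ⊗ₜ[ℂ] r := rfl

theorem fst_ρ (γ : X.J → ℤ) : (Mor.fst X Y).ρ γ = Sum.elim γ (0 : Y.J → ℤ) := rfl

theorem snd_ρ (γ : Y.J → ℤ) : (Mor.snd X Y).ρ γ = Sum.elim (0 : X.J → ℤ) γ := rfl

theorem lift_φ (f : Mor W X) (g : Mor W Y) (a : X.R) (b : Y.R) :
    (f.lift g).φ (a ⊗ₜ[ℂ] b) = f.φ a * g.φ b := rfl

theorem lift_ρ (f : Mor W X) (g : Mor W Y) (γ : X.J ⊕ Y.J → ℤ) :
    (f.lift g).ρ γ = f.ρ (fun j => γ (.inl j)) + g.ρ (fun j => γ (.inr j)) := rfl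

theorem map_φ (f : Mor W X) (g : Mor Y Z) (a : X.R) (b : Z.R) :
    (f.map g).φ (a ⊗ₜ[ℂ] b) = f.φ a ⊗ₜ[ℂ] g.φ b :=
  (Algebra.TensorProduct.tmul_mul_tmul (f.φ a) 1 1 (g.φ b)).trans (by rw [mul_one, one_mul])

theorem map_ρ (f : Mor W X) (g : Mor Y Z) (γ : X.J ⊕ Z.J → ℤ) :
    (f.map g).ρ γ = Sum.elim (f.ρ fun j => γ (.inl j)) (g.ρ fun j => γ (.inr j)) := by
  funext j
  cases j
  · exact add_zero _
  · exact zero_add _

theorem map_φ_fst (f : Mor W X) (g : Mor Y Z) (a : X.R) :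
    (f.map g).φ ((Mor.fst X Z).φ a) = (Mor.fst W Y).φ (f.φ a) :=
  (f.map_φ g a 1).trans (by rw [map_one]; rfl)

theorem map_φ_snd (f : Mor W X) (g : Mor Y Z) (b : Z.R) :
    (f.map g).φ ((Mor.snd X Z).φ b) = (Mor.snd W Y).φ (g.φ b) :=
  (f.map_φ g 1 b).trans (by rw [map_one]; rfl)

theorem fst_mul_snd (a : X.R) (b : Y.R) :
    (Mor.fst X Y).φ a * (Mor.snd X Y).φ b = a ⊗ₜ[ℂ] b :=
  (Algebra.TensorProduct.tmul_mul_tmul a 1 1 b).trans (by rw [mul_one, one_mul])

end Mor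

theorem ten_integral {S : Subalgebra ℂ (X.prod Y).R} (h1 : ∀ a, IsIntegral S ((Mor.fst X Y).φ a))
    (h2 : ∀ b, IsIntegral S ((Mor.snd X Y).φ b)) (r : (X.prod Y).R) : IsIntegral S r := by
  induction r using TensorProduct.induction_on with
  | zero => exact isIntegral_zero
  | add a b ha hb => exact ha.add hb
  | tmul a b => exact Mor.fst_mul_snd a b ▸ (h1 a).mul (h2 b)

theorem Spc.prod_pt' (X Y : Spc) (z : (X.prod Y).R →ₐ[ℂ] ℂ) : (∃ f ∈ (X.prod Y).b, z f ≠ 0) ↔
    (∃ f ∈ X.b, z ((Mor.fst X Y).φ f) ≠ 0) ∧ ∃ f ∈ Y.b, z ((Mor.snd X Y).φ f) ≠ 0 :=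
  Spc.prod_pt X Y z

namespace Prj

theorem π_nonneg {f : Mor X Y} (P : Prj f) {δ : X.J → ℤ} {r : X.R} (hr : r ∈ X.wt δ)
    (h0 : r ≠ 0) : 0 ≤ P.π δ := by
  obtain ⟨T, w, -, h⟩ := P.exists_gens (GMod.one X)
  have h1 : ∀ n : ℕ, ∃ t ∈ T, P.π (w t) ≤ n • P.π δ := by
    intro n
    have h2 : r ^ n ≠ 0 := fun h2 => h0 (X.sep r fun z _ =>
      eq_zero_of_pow_eq_zero (n := n) (by rw [← map_pow, h2, map_zero]))
    have h3 := P.mem_partS_of_wt (M := GMod.one X) (Spc.pow_mem hr n)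
    rw [h, map_nsmul] at h3
    by_contra hcon
    refine h2 ((Submodule.span_le (p := (⊥ : Submodule Y.R (f.Res (GMod.one X))))).2 ?_ h3)
    rintro _ ⟨t, ht, α, e, -⟩
    refine absurd ⟨t, ht, ?_⟩ hcon
    rw [← e]
    exact le_add_of_nonneg_left fun e => Finset.sum_nonneg fun _ _ => Int.natCast_nonneg _
  intro e
  by_contra hcon
  obtain ⟨b, hb⟩ := (T.finite_toSet.image fun t => P.π (w t) e).bddBelow
  obtain ⟨t, ht, h2⟩ := h1 ((-b).toNat + 1)
  have h3 : b ≤ P.π (w t) e := hb ⟨t, ht, rfl⟩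
  have h4 : P.π (w t) e ≤ (((-b).toNat + 1 : ℕ) : ℤ) * P.π δ e := by simpa using h2 e
  have h5 : P.π δ e ≤ -1 := by
    have : ¬ (0 : ℤ) ≤ P.π δ e := hcon
    omega
  have h6 := mul_le_mul_of_nonneg_left h5 (Int.natCast_nonneg ((-b).toNat + 1))
  omega

/-- a finite map -/
def ofFinite (f : Mor X Y) (ret : (X.J → ℤ) →+ (Y.J → ℤ)) (h1 : ∀ γ, ret (f.ρ γ) = γ)
    (h2 : ∀ δ, f.ρ (ret δ) = δ) (h3 : ∀ r : X.R, IsIntegral f.φ.range r)
    (h4 : ∀ z : X.R →ₐ[ℂ] ℂ, (∃ a ∈ Y.b, z (f.φ a) ≠ 0) → ∃ a ∈ X.b, z a ≠ 0) : Prj f where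
  E := Empty
  π := 0
  σ := 0
  ret := ret
  ret_ρ := h1
  ret_σ := fun _ => map_zero ret
  π_ρ := fun _ => rfl
  π_σ := fun _ => Subsingleton.elim _ _
  tot := fun δ => (add_zero _).trans (h2 δ)
  y := fun e => e.elim
  y_wt := fun e => e.elim
  fin := fin_of_integral _ fun r => by
    refine int_mono ?_ (h3 r)
    rintro _ ⟨a, rfl⟩
    exact Algebra.subset_adjoin (Or.inl ⟨a, rfl⟩)
  pts := fun z => ⟨fun h => ⟨f.pt_map ⟨z, h⟩, fun e => e.elim⟩, fun h => h4 z h.1⟩

theorem ne_id (X : Spc) : Nonempty (Prj (Mor.id X)) :=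
  ⟨ofFinite _ (AddMonoidHom.id _) (fun _ => rfl) (fun _ => rfl) (fun r => int_of_mem ⟨r, rfl⟩)
    fun _ h => h⟩

theorem ne_incl (X : Spc) (S : Set X.Pt) (hS : X.Stab S) : Nonempty (Prj (Mor.incl X S hS)) :=
  ⟨ofFinite _ (AddMonoidHom.id _) (fun _ => rfl) (fun _ => rfl)
    (fun r => int_of_mem (Ideal.Quotient.mk_surjective r)) fun z h => (Spc.sub_pt X S hS z).2 h⟩

theorem exists_image {A B : Type} [DecidableEq B] (s : Finset A) (ψ : A → B) (p : B → Prop) :
    (∃ b ∈ s.image ψ, p b) ↔ ∃ a ∈ s, p (ψ a) := by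
  simp

open Classical in
/-- E = Y.J, π = restriction, σ = extension by zero -/
def fst (X : Spc) (hY : Y.IsProj) : Prj (Mor.fst X Y) where
  E := Y.J
  π := { toFun := fun δ j => δ (.inr j), map_zero' := rfl, map_add' := fun _ _ => rfl }
  σ := (Mor.snd X Y).ρ
  ret := { toFun := fun δ j => δ (.inl j), map_zero' := rfl, map_add' := fun _ _ => rfl }
  ret_ρ := fun _ => rfl
  ret_σ := fun _ => rfl
  π_ρ := fun _ => rfl
  π_σ := fun _ => rfl
  tot := fun δ => funext fun j => by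
    cases j
    · exact add_zero _
    · exact zero_add _
  y := fun j => (hY.choose j).image (Mor.snd X Y).φ
  y_wt := fun j a ha => by
    obtain ⟨b, hb, rfl⟩ := Finset.mem_image.1 ha
    exact ⟨0, by
      rw [map_zero, zero_add]
      exact (Mor.snd X Y).wt_map _ _ (hY.choose_spec.1 j b hb)⟩
  fin := fin_of_integral _ (ten_integral
    (fun a => int_of_mem (Algebra.subset_adjoin (Or.inl ⟨a, rfl⟩)))
    (int_of_fin hY.choose_spec.2.1 (Mor.snd X Y).φ fun x hx => by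
      obtain ⟨j, hj⟩ := Set.mem_iUnion.1 hx
      exact Algebra.subset_adjoin (Or.inr (Set.mem_iUnion.2 ⟨j, Finset.mem_image_of_mem _ hj⟩))))
  pts := fun z => (Spc.prod_pt X Y z).trans (and_congr_right fun _ =>
    (hY.choose_spec.2.2 (z.comp (Mor.snd X Y).φ)).trans (forall_congr' fun j =>
      (exists_image _ _ fun b => z b ≠ 0).symm))

open Classical in
/-- E = X.J, π = restriction, σ = extension by zero -/
def snd (hX : X.IsProj) (Y : Spc) : Prj (Mor.snd X Y) where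
  E := X.J
  π := { toFun := fun δ j => δ (.inl j), map_zero' := rfl, map_add' := fun _ _ => rfl }
  σ := (Mor.fst X Y).ρ
  ret := { toFun := fun δ j => δ (.inr j), map_zero' := rfl, map_add' := fun _ _ => rfl }
  ret_ρ := fun _ => rfl
  ret_σ := fun _ => rfl
  π_ρ := fun _ => rfl
  π_σ := fun _ => rfl
  tot := fun δ => funext fun j => by
    cases j
    · exact zero_add _
    · exact add_zero _
  y := fun j => (hX.choose j).image (Mor.fst X Y).φ
  y_wt := fun j a ha => by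
    obtain ⟨b, hb, rfl⟩ := Finset.mem_image.1 ha
    exact ⟨0, by
      rw [map_zero, zero_add]
      exact (Mor.fst X Y).wt_map _ _ (hX.choose_spec.1 j b hb)⟩
  fin := fin_of_integral _ (ten_integral
    (int_of_fin hX.choose_spec.2.1 (Mor.fst X Y).φ fun x hx => by
      obtain ⟨j, hj⟩ := Set.mem_iUnion.1 hx
      exact Algebra.subset_adjoin (Or.inr (Set.mem_iUnion.2 ⟨j, Finset.mem_image_of_mem _ hj⟩)))
    fun a => int_of_mem (Algebra.subset_adjoin (Or.inl ⟨a, rfl⟩)))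
  pts := fun z => (Spc.prod_pt X Y z).trans (and_comm.trans (and_congr_right fun _ =>
    (hX.choose_spec.2.2 (z.comp (Mor.fst X Y).φ)).trans (forall_congr' fun j =>
      (exists_image _ _ fun b => z b ≠ 0).symm)))

/-- E = X.J, π = σ = identity -/
def toPt (hX : X.IsProj) : Prj (Mor.toPt X Empty 0) where
  E := X.J
  π := AddMonoidHom.id _
  σ := AddMonoidHom.id _
  ret := 0
  ret_ρ := fun _ => funext fun e => Empty.elim e
  ret_σ := fun _ => rfl
  π_ρ := fun _ => rfl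
  π_σ := fun _ => rfl
  tot := fun δ => zero_add δ
  y := hX.choose
  y_wt := fun j a ha => ⟨0, by
    rw [map_zero, zero_add]
    exact hX.choose_spec.1 j a ha⟩
  fin := fin_of_integral _ (int_of_fin hX.choose_spec.2.1 (AlgHom.id ℂ X.R)
    fun _ hx => Algebra.subset_adjoin (Or.inr hx))
  pts := fun z => (hX.choose_spec.2.2 z).trans (and_iff_right ⟨(1 : ℂ), trivial, fun h =>
    one_ne_zero ((map_one (z.comp (Algebra.ofId ℂ X.R))).symm.trans h)⟩).symm

open Classical in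
/-- E = Unit -/
def adjPr (X : Spc) (ι : Type) [Fintype ι] [Nonempty ι] (d : ι → X.J → ℤ) :
    Prj (Mor.adjPr X ι d) where
  E := Unit
  π := { toFun := fun δ _ => δ none, map_zero' := rfl, map_add' := fun _ _ => rfl }
  σ := { toFun := fun k j => j.elim (k ()) 0
         map_zero' := funext fun j => by cases j <;> rfl
         map_add' := fun _ _ => funext fun j => by cases j <;> rfl }
  ret := { toFun := fun δ j => δ (some j), map_zero' := rfl, map_add' := fun _ _ => rfl }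
  ret_ρ := fun _ => rfl
  ret_σ := fun _ => rfl
  π_ρ := fun _ => rfl
  π_σ := fun _ => rfl
  tot := fun δ => funext fun j => by
    cases j
    · exact zero_add _
    · exact add_zero _
  y := fun _ => Finset.univ.image (MvPolynomial.X : ι → MvPolynomial ι X.R)
  y_wt := fun e a ha => by
    obtain ⟨i, -, rfl⟩ := Finset.mem_image.1 ha
    refine ⟨d i, ?_⟩
    refine (congrArg (fun δ => _ ∈ (X.adj ι d).wt δ) (funext fun j => ?_)).mpr (Spc.X_mem X ι d i)
    cases j
    · exact zero_add (1 : ℤ)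
    · exact add_zero (d i _)
  fin := fin_of_integral _ fun r => int_of_mem (by
    induction r using MvPolynomial.induction_on with
    | C a => exact Algebra.subset_adjoin (Or.inl ⟨a, rfl⟩)
    | add p q hp hq => exact add_mem hp hq
    | mul_X p i hp =>
      exact mul_mem hp (Algebra.subset_adjoin (Or.inr (Set.mem_iUnion.2
        ⟨(), Finset.mem_image_of_mem _ (Finset.mem_univ i)⟩))))
  pts := fun z => (Spc.adj_pt X ι d z).trans (and_congr_right fun _ => by
    constructor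
    · rintro ⟨i, hi⟩ _
      exact ⟨_, Finset.mem_image_of_mem _ (Finset.mem_univ i), hi⟩
    · intro h
      obtain ⟨a, ha, h0⟩ := h ()
      obtain ⟨i, -, rfl⟩ := Finset.mem_image.1 ha
      exact ⟨i, h0⟩)

open Classical in
/-- same E π σ ret -/
def sub {f : Mor X Y} (P : Prj f) (S : Set X.Pt) (hS : X.Stab S) :
    Prj (f.comp (Mor.incl X S hS)) where
  E := P.E
  π := P.π
  σ := P.σ
  ret := P.ret
  ret_ρ := P.ret_ρ
  ret_σ := P.ret_σ
  π_ρ := P.π_ρ
  π_σ := P.π_σ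
  tot := P.tot
  y := fun e => (P.y e).image (Mor.incl X S hS).φ
  y_wt := fun e a ha => by
    obtain ⟨b, hb, rfl⟩ := Finset.mem_image.1 ha
    obtain ⟨γ, h⟩ := P.y_wt e b hb
    exact ⟨γ, Spc.mk_mem hS h⟩
  fin := fin_of_integral _ fun r => by
    obtain ⟨r, rfl⟩ := Ideal.Quotient.mk_surjective r
    refine int_of_fin P.fin (Mor.incl X S hS).φ ?_ r
    rintro x (⟨a, rfl⟩ | hx)
    · exact Algebra.subset_adjoin (Or.inl ⟨a, rfl⟩)
    · obtain ⟨j, hj⟩ := Set.mem_iUnion.1 hx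
      exact Algebra.subset_adjoin (Or.inr (Set.mem_iUnion.2 ⟨j, Finset.mem_image_of_mem _ hj⟩))
  pts := fun z => (Spc.sub_pt X S hS z).trans ((P.pts (z.comp (Mor.incl X S hS).φ)).trans
    (and_congr_right fun _ => forall_congr' fun j => (exists_image _ _ fun b => z b ≠ 0).symm))

/-- same E π σ ret -/
def toSub {f : Mor X Y} (P : Prj f) (S : Set Y.Pt) (hS : Y.Stab S) (h : ∀ w, f.onPt w ∈ S) :
    Prj (f.toSub S hS h) where
  E := P.E
  π := P.π
  σ := P.σ
  ret := P.ret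
  ret_ρ := P.ret_ρ
  ret_σ := P.ret_σ
  π_ρ := P.π_ρ
  π_σ := P.π_σ
  tot := P.tot
  y := P.y
  y_wt := P.y_wt
  fin := fin_of_integral _ (int_of_fin P.fin (AlgHom.id ℂ X.R) (by
    rintro x (⟨a, rfl⟩ | hx)
    · exact Algebra.subset_adjoin (Or.inl ⟨Ideal.Quotient.mk _ a, rfl⟩)
    · exact Algebra.subset_adjoin (Or.inr hx)))
  pts := fun z => (P.pts z).trans (and_congr_left fun _ =>
    (Spc.sub_pt Y S hS (z.comp (f.toSub S hS h).φ)).symm)

open Classical in
/-- same E -/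
def mapId {f : Mor X Y} (P : Prj f) (W : Spc) : Prj (f.map (Mor.id W)) where
  E := P.E
  π := { toFun := fun δ => P.π fun j => δ (.inl j)
         map_zero' := map_zero P.π
         map_add' := fun _ _ => map_add P.π _ _ }
  σ := (Mor.fst X W).ρ.comp P.σ
  ret := { toFun := fun δ => Sum.elim (P.ret fun j => δ (.inl j)) fun j => δ (.inr j)
           map_zero' := funext fun j => by
             cases j
             · exact congrFun (map_zero P.ret) _
             · rfl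
           map_add' := fun _ _ => funext fun j => by
             cases j
             · exact congrFun (map_add P.ret _ _) _
             · rfl }
  ret_ρ := fun γ => (congrArg _ (f.map_ρ _ γ)).trans (funext fun j => by
    cases j
    · exact congrFun (P.ret_ρ _) _
    · rfl)
  ret_σ := fun k => funext fun j => by
    cases j
    · exact congrFun (P.ret_σ _) _
    · rfl
  π_ρ := fun γ => (congrArg _ (Mor.map_ρ _ _ γ)).trans (P.π_ρ _)
  π_σ := P.π_σ
  tot := fun δ => (congrArg (· + _) (f.map_ρ _ _)).trans (funext fun j => by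
    cases j
    · exact congrFun (P.tot fun j => δ (.inl j)) _
    · exact add_zero _)
  y := fun e => (P.y e).image (Mor.fst X W).φ
  y_wt := fun e a ha => by
    obtain ⟨b, hb, rfl⟩ := Finset.mem_image.1 ha
    obtain ⟨γ, h⟩ := P.y_wt e b hb
    refine ⟨Sum.elim γ 0, ?_⟩
    rw [Mor.map_ρ]
    have h1 := (Mor.fst X W).wt_map _ _ h
    rwa [map_add] at h1
  fin := fin_of_integral _ (ten_integral
    (int_of_fin P.fin (Mor.fst X W).φ (by
      rintro x (⟨c, rfl⟩ | hx)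
      · exact Algebra.subset_adjoin (Or.inl ⟨_, f.map_φ_fst _ c⟩)
      · obtain ⟨j, hj⟩ := Set.mem_iUnion.1 hx
        exact Algebra.subset_adjoin (Or.inr (Set.mem_iUnion.2 ⟨j, Finset.mem_image_of_mem _ hj⟩))))
    fun b => int_of_mem (Algebra.subset_adjoin (Or.inl ⟨_, f.map_φ_snd (Mor.id W) b⟩)))
  pts := fun z => by
    have h1 := Spc.prod_pt' Y W (z.comp (f.map (Mor.id W)).φ)
    simp only [AlgHom.comp_apply, Mor.map_φ_fst, Mor.map_φ_snd, Mor.id_φ] at h1
    refine (Spc.prod_pt' X W z).trans ((and_congr_left fun _ =>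
      P.pts (z.comp (Mor.fst X W).φ)).trans (and_right_comm.trans (and_congr h1.symm ?_)))
    exact forall_congr' fun j => (exists_image _ _ fun b => z b ≠ 0).symm

open Classical in
/-- same E -/
def idMap {f : Mor X Y} (P : Prj f) (W : Spc) : Prj ((Mor.id W).map f) where
  E := P.E
  π := { toFun := fun δ => P.π fun j => δ (.inr j)
         map_zero' := map_zero P.π
         map_add' := fun _ _ => map_add P.π _ _ }
  σ := (Mor.snd W X).ρ.comp P.σ
  ret := { toFun := fun δ => Sum.elim (fun j => δ (.inl j)) (P.ret fun j => δ (.inr j))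
           map_zero' := funext fun j => by
             cases j
             · rfl
             · exact congrFun (map_zero P.ret) _
           map_add' := fun _ _ => funext fun j => by
             cases j
             · rfl
             · exact congrFun (map_add P.ret _ _) _ }
  ret_ρ := fun γ => (congrArg _ (Mor.map_ρ _ f γ)).trans (funext fun j => by
    cases j
    · rfl
    · exact congrFun (P.ret_ρ _) _)
  ret_σ := fun k => funext fun j => by
    cases j
    · rfl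
    · exact congrFun (P.ret_σ _) _
  π_ρ := fun γ => (congrArg _ (Mor.map_ρ _ _ γ)).trans (P.π_ρ _)
  π_σ := P.π_σ
  tot := fun δ => (congrArg (· + _) (Mor.map_ρ _ f _)).trans (funext fun j => by
    cases j
    · exact add_zero _
    · exact congrFun (P.tot fun j => δ (.inr j)) _)
  y := fun e => (P.y e).image (Mor.snd W X).φ
  y_wt := fun e a ha => by
    obtain ⟨b, hb, rfl⟩ := Finset.mem_image.1 ha
    obtain ⟨γ, h⟩ := P.y_wt e b hb
    refine ⟨Sum.elim 0 γ, ?_⟩
    rw [Mor.map_ρ]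
    have h1 := (Mor.snd W X).wt_map _ _ h
    rwa [map_add] at h1
  fin := fin_of_integral _ (ten_integral
    (fun a => int_of_mem (Algebra.subset_adjoin (Or.inl ⟨_, (Mor.id W).map_φ_fst f a⟩)))
    (int_of_fin P.fin (Mor.snd W X).φ (by
      rintro x (⟨c, rfl⟩ | hx)
      · exact Algebra.subset_adjoin (Or.inl ⟨_, (Mor.id W).map_φ_snd f c⟩)
      · obtain ⟨j, hj⟩ := Set.mem_iUnion.1 hx
        exact Algebra.subset_adjoin (Or.inr (Set.mem_iUnion.2
          ⟨j, Finset.mem_image_of_mem _ hj⟩)))))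
  pts := fun z => by
    have h1 := Spc.prod_pt' W Y (z.comp ((Mor.id W).map f).φ)
    simp only [AlgHom.comp_apply, Mor.map_φ_fst, Mor.map_φ_snd, Mor.id_φ] at h1
    refine (Spc.prod_pt' W X z).trans ((and_congr_right fun _ =>
      P.pts (z.comp (Mor.snd W X).φ)).trans (and_assoc.symm.trans (and_congr h1.symm ?_)))
    exact forall_congr' fun j => (exists_image _ _ fun b => z b ≠ 0).symm

open Classical in
/-- E = P.E ⊕ Q.E -/
def comp {f : Mor X Y} {g : Mor Y Z} (Q : Prj g) (P : Prj f)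
    (h : ∀ e, ∀ a ∈ P.y e, ∃ γ, a ∈ X.wt (f.ρ (g.ρ γ) + P.σ (Pi.single e 1))) :
    Prj (g.comp f) where
  E := P.E ⊕ Q.E
  dE := instDecidableEqSum
  π := { toFun := fun δ => Sum.elim (P.π δ) (Q.π (P.ret δ))
         map_zero' := funext fun j => by cases j <;> simp
         map_add' := fun _ _ => funext fun j => by cases j <;> simp }
  σ := { toFun := fun k => P.σ (fun e => k (.inl e)) + f.ρ (Q.σ fun e => k (.inr e))
         map_zero' := by
           show P.σ 0 + f.ρ (Q.σ 0) = 0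
           rw [map_zero, map_zero, map_zero, add_zero]
         map_add' := fun k l => by
           show P.σ ((fun e => k (.inl e)) + fun e => l (.inl e)) +
             f.ρ (Q.σ ((fun e => k (.inr e)) + fun e => l (.inr e))) = _
           rw [map_add, map_add, map_add, add_add_add_comm] }
  ret := Q.ret.comp P.ret
  ret_ρ := fun γ => by
    show Q.ret (P.ret (f.ρ (g.ρ γ))) = γ
    rw [P.ret_ρ, Q.ret_ρ]
  ret_σ := fun k => by
    show Q.ret (P.ret (P.σ _ + f.ρ _)) = 0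
    rw [add_comm, P.ret_add, Q.ret_σ]
  π_ρ := fun γ => by
    show Sum.elim (P.π (f.ρ (g.ρ γ))) (Q.π (P.ret (f.ρ (g.ρ γ)))) = 0
    rw [P.π_ρ, P.ret_ρ, Q.π_ρ]
    funext j
    cases j <;> rfl
  π_σ := fun k => by
    show Sum.elim (P.π (P.σ _ + f.ρ _)) (Q.π (P.ret (P.σ _ + f.ρ _))) = k
    rw [add_comm, P.ret_add, P.π_add, Q.π_σ]
    funext j
    cases j <;> rfl
  tot := fun δ => by
    show f.ρ (g.ρ (Q.ret (P.ret δ))) + (P.σ (P.π δ) + f.ρ (Q.σ (Q.π (P.ret δ)))) = δ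
    rw [add_comm (P.σ _), ← add_assoc, ← map_add, Q.tot, P.tot]
  y := Sum.elim P.y fun e => (Q.y e).image f.φ
  y_wt := by
    rintro (e | e) a ha
    · obtain ⟨γ, hγ⟩ := h e a ha
      refine ⟨γ, ?_⟩
      convert hγ using 2
      show _ + (P.σ _ + f.ρ (Q.σ _)) = _
      rw [show (fun e' => (Pi.single (Sum.inl e) 1 : P.E ⊕ Q.E → ℤ) (.inr e')) = 0 from
        funext fun e' => by simp, show (fun e' => (Pi.single (Sum.inl e) 1 : P.E ⊕ Q.E → ℤ)
        (.inl e')) = Pi.single e 1 from funext fun e' => by simp [Pi.single_apply],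
        map_zero, map_zero, add_zero]
      rfl
    · obtain ⟨b, hb, rfl⟩ := Finset.mem_image.1 ha
      obtain ⟨γ, hγ⟩ := Q.y_wt e b hb
      refine ⟨γ, ?_⟩
      convert f.wt_map _ _ hγ using 2
      show _ + (P.σ _ + f.ρ (Q.σ _)) = _
      rw [show (fun e' => (Pi.single (Sum.inr e) 1 : P.E ⊕ Q.E → ℤ) (.inl e')) = 0 from
        funext fun e' => by simp, show (fun e' => (Pi.single (Sum.inr e) 1 : P.E ⊕ Q.E → ℤ)
        (.inr e')) = Pi.single e 1 from funext fun e' => by simp [Pi.single_apply],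
        map_zero, zero_add, map_add]
      rfl
  fin := fin_of_integral _ fun r => by
    let S := Algebra.adjoin ℂ (Set.range (g.comp f).φ ∪
      ⋃ e, ((Sum.elim P.y fun e => (Q.y e).image f.φ : P.E ⊕ Q.E → Finset X.R) e : Set X.R))
    have h1 : IsIntegral (integralClosure S X.R) r :=
      int_of_fin P.fin (AlgHom.id ℂ X.R) (S := (integralClosure S X.R).restrictScalars ℂ) (by
        rintro x (⟨a, rfl⟩ | hx)
        · refine int_of_fin Q.fin f.φ ?_ a
          rintro x (⟨a, rfl⟩ | hx)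
          · exact Algebra.subset_adjoin (Or.inl ⟨a, rfl⟩)
          · obtain ⟨j, hj⟩ := Set.mem_iUnion.1 hx
            exact Algebra.subset_adjoin (Or.inr (Set.mem_iUnion.2
              ⟨Sum.inr j, Finset.mem_image_of_mem _ hj⟩))
        · obtain ⟨j, hj⟩ := Set.mem_iUnion.1 hx
          exact int_of_mem (S := S) (Algebra.subset_adjoin (Or.inr (Set.mem_iUnion.2
            ⟨Sum.inl j, hj⟩)))) r
    exact isIntegral_trans r h1
  pts := fun z => by
    refine (P.pts z).trans ((and_congr_left fun _ => Q.pts (z.comp f.φ)).trans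
      (and_assoc.trans (and_congr_right fun _ => and_comm.trans ?_)))
    rw [Sum.forall]
    exact and_congr_right fun _ => forall_congr' fun j =>
      (exists_image (Q.y j) f.φ fun b => z b ≠ 0).symm

section simp

variable {f : Mor X Y} {g : Mor Y Z}

theorem fst_π (hY : Y.IsProj) (δ : X.J ⊕ Y.J → ℤ) : (fst X hY).π δ = fun j => δ (.inr j) := rfl

theorem fst_σ (hY : Y.IsProj) (k : Y.J → ℤ) : (fst X hY).σ k = Sum.elim (0 : X.J → ℤ) k :=
  rfl

theorem fst_ret (hY : Y.IsProj) (δ : X.J ⊕ Y.J → ℤ) : (fst X hY).ret δ = fun j => δ (.inl j) := rfl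

theorem snd_π (hX : X.IsProj) (δ : X.J ⊕ Y.J → ℤ) : (snd hX Y).π δ = fun j => δ (.inl j) := rfl

theorem snd_σ (hX : X.IsProj) (k : X.J → ℤ) : (snd hX Y).σ k = Sum.elim k (0 : Y.J → ℤ) :=
  rfl

theorem snd_ret (hX : X.IsProj) (δ : X.J ⊕ Y.J → ℤ) : (snd hX Y).ret δ = fun j => δ (.inr j) := rfl

theorem toPt_π (hX : X.IsProj) (δ : X.J → ℤ) : (toPt hX).π δ = δ := rfl

theorem toPt_σ (hX : X.IsProj) (δ : X.J → ℤ) : (toPt hX).σ δ = δ := rfl

theorem adjPr_π (ι : Type) [Fintype ι] [Nonempty ι] (d : ι → X.J → ℤ) (δ : Option X.J → ℤ) :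
    (adjPr X ι d).π δ = fun _ => δ none := rfl

theorem adjPr_σ (ι : Type) [Fintype ι] [Nonempty ι] (d : ι → X.J → ℤ) (k : Unit → ℤ) :
    (adjPr X ι d).σ k = fun j => j.elim (k ()) 0 := rfl

theorem adjPr_ret (ι : Type) [Fintype ι] [Nonempty ι] (d : ι → X.J → ℤ) (δ : Option X.J → ℤ) :
    (adjPr X ι d).ret δ = fun j => δ (some j) := rfl

theorem mapId_π (P : Prj f) (δ : X.J ⊕ W.J → ℤ) :
    (P.mapId W).π δ = P.π fun j => δ (.inl j) := rfl

theorem mapId_σ (P : Prj f) (k : P.E → ℤ) : (P.mapId W).σ k = Sum.elim (P.σ k) (0 : W.J → ℤ) :=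
  rfl

theorem mapId_ret (P : Prj f) (δ : X.J ⊕ W.J → ℤ) :
    (P.mapId W).ret δ = Sum.elim (P.ret fun j => δ (.inl j)) fun j => δ (.inr j) := rfl

theorem idMap_π (P : Prj f) (δ : W.J ⊕ X.J → ℤ) :
    (P.idMap W).π δ = P.π fun j => δ (.inr j) := rfl

theorem idMap_σ (P : Prj f) (k : P.E → ℤ) : (P.idMap W).σ k = Sum.elim (0 : W.J → ℤ) (P.σ k) :=
  rfl

theorem idMap_ret (P : Prj f) (δ : W.J ⊕ X.J → ℤ) :
    (P.idMap W).ret δ = Sum.elim (fun j => δ (.inl j)) (P.ret fun j => δ (.inr j)) := rfl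

variable (Q : Prj g) (P : Prj f)
  (h : ∀ e, ∀ a ∈ P.y e, ∃ γ, a ∈ X.wt (f.ρ (g.ρ γ) + P.σ (Pi.single e 1)))

theorem comp_π (δ : X.J → ℤ) : (Q.comp P h).π δ = Sum.elim (P.π δ) (Q.π (P.ret δ)) := rfl

theorem comp_σ (k : P.E ⊕ Q.E → ℤ) :
    (Q.comp P h).σ k = P.σ (fun e => k (.inl e)) + f.ρ (Q.σ fun e => k (.inr e)) := rfl

theorem comp_ret (δ : X.J → ℤ) : (Q.comp P h).ret δ = Q.ret (P.ret δ) := rfl

end simp

end Prj

end Vale.Agent.P297Z
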