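import Vale.Agent.P297Z.K.Defs

/-!
# P297: the groups G and K0, pull-back, push-forward, Chern classes, the dimension filtration

Maps are defined by their characteristic property (zero if no such map exists); that they exist is
proved in other files.
-/

set_option linter.all false

open scoped TensorProduct
open Classical

noncomputable section

namespace Vale.Agent.P297Z

/-- the relations of `G` -/
def GRel (X : Spc) : AddSubgroup (FreeAbelianGroup (GMod X)) :=
  AddSubgroup.closure {x | ∃ (A B C : GMod X) (f : A.M →ₗ[X.R] B.M) (g : B.M →ₗ[X.R] C.M),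
    GMod.SES A B C f g ∧
      x = FreeAbelianGroup.of B - FreeAbelianGroup.of A - FreeAbelianGroup.of C}

/-- the Grothendieck group of coherent sheaves -/
def G (X : Spc) : Type 1 := FreeAbelianGroup (GMod X) ⧸ GRel X

instance (X : Spc) : AddCommGroup (G X) :=
  inferInstanceAs (AddCommGroup (FreeAbelianGroup (GMod X) ⧸ GRel X))

/-- the class of a module -/
def cls {X : Spc} (M : GMod X) : G X := QuotientAddGroup.mk (FreeAbelianGroup.of M)

/-- the class of the structure sheaf -/
def oG (X : Spc) : G X := cls (GMod.one X)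

/-- a vector bundle of constant rank -/
structure Bun (X : Spc) where
  M : GMod X
  rk : ℕ
  free : M.IsBun rk

/-- the relations of `K0` -/
def KRel (X : Spc) : Ideal (MvPolynomial (Bun X) ℤ) :=
  Ideal.span ({x | ∃ (A B C : Bun X) (f : A.M.M →ₗ[X.R] B.M.M) (g : B.M.M →ₗ[X.R] C.M.M),
      GMod.SES A.M B.M C.M f g ∧ B.rk = A.rk + C.rk ∧
        x = MvPolynomial.X B - MvPolynomial.X A - MvPolynomial.X C} ∪
    {x | ∃ (A B C : Bun X) (f : (A.M.ten B.M).M →ₗ[X.R] C.M.M),
      GMod.Qis (A.M.ten B.M) C.M f ∧ C.rk = A.rk * B.rk ∧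
        x = MvPolynomial.X C - MvPolynomial.X A * MvPolynomial.X B} ∪
    {x | ∃ (C : Bun X) (f : (GMod.one X).M →ₗ[X.R] C.M.M),
      GMod.Qis (GMod.one X) C.M f ∧ C.rk = 1 ∧ x = MvPolynomial.X C - 1})

/-- the Grothendieck ring of vector bundles -/
def K0 (X : Spc) : Type 1 := MvPolynomial (Bun X) ℤ ⧸ KRel X

instance (X : Spc) : CommRing (K0 X) :=
  inferInstanceAs (CommRing (MvPolynomial (Bun X) ℤ ⧸ KRel X))

variable {W X Y Z : Spc}

/-- the class of a bundle -/
def Bun.cls (B : Bun X) : K0 X := Ideal.Quotient.mk (KRel X) (MvPolynomial.X B)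

/-- the class of a module that is a bundle of rank `r` -/
def kc (M : GMod X) (r : ℕ) : K0 X :=
  if h : M.IsBun r then Bun.cls ⟨M, r, h⟩ else 0

/-- the line bundle `O(γ)` -/
def line (X : Spc) (γ : X.J → ℤ) : K0 X := kc ((GMod.one X).shift γ) 1

/-- the rank -/
def rk (X : Spc) : K0 X →+* ℤ :=
  Ideal.Quotient.lift (KRel X) (MvPolynomial.eval fun B => (B.rk : ℤ)) (by
    intro a ha
    refine Submodule.span_induction (p := fun a _ =>
      MvPolynomial.eval (fun B : Bun X => (B.rk : ℤ)) a = 0) ?_ (map_zero _) ?_ ?_ ha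
    · rintro x ((⟨A, B, C, f, g, -, h, rfl⟩ | ⟨A, B, C, f, -, h, rfl⟩) | ⟨C, f, -, h, rfl⟩)
      · simp [h]
      · simp [h]
      · simp [h]
    · intro x y _ _ hx hy
      rw [map_add, hx, hy, add_zero]
    · intro c x _ hx
      rw [smul_eq_mul, map_mul, hx, mul_zero])

/-- the action of `K0` on `G` -/
def kact (X : Spc) : K0 X →+ G X →+ G X :=
  if h : ∃ ψ : K0 X →+ G X →+ G X, ∀ (B : Bun X) (M : GMod X), ψ B.cls (cls M) = cls (B.M.ten M)
  then h.choose else 0

/-- the pull-back on `K0` -/
def pullK (f : Mor X Y) : K0 Y →+* K0 X :=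
  if h : ∃ ψ : K0 Y →+* K0 X, ∀ B : Bun Y, ψ B.cls = kc (f.pull B.M) B.rk
  then h.choose else (Int.castRingHom _).comp (rk Y)

/-- the pull-back on `G` along a flat map -/
def pullG (f : Mor X Y) : G Y →+ G X :=
  if h : ∃ ψ : G Y →+ G X, ∀ M : GMod Y, ψ (cls M) = cls (f.pull M) then h.choose else 0

/-- the dual on `K0` -/
def dualK (X : Spc) : K0 X →+* K0 X :=
  if h : ∃ ψ : K0 X →+* K0 X, ∀ B : Bun X, ψ B.cls = kc B.M.dual B.rk
  then h.choose else RingHom.id _

/-- the total exterior power -/
def lamT (X : Spc) : K0 X →+ Additive (PowerSeries (K0 X))ˣ :=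
  if h : ∃ ψ : K0 X →+ Additive (PowerSeries (K0 X))ˣ, ∀ (B : Bun X) (i : ℕ),
    PowerSeries.coeff i ((ψ B.cls).toMul : PowerSeries (K0 X)) = kc (B.M.ext i) (B.rk.choose i)
  then h.choose else 0

/-- the exterior powers -/
def lam (i : ℕ) (a : K0 X) : K0 X :=
  PowerSeries.coeff i ((lamT X a).toMul : PowerSeries (K0 X))

/-- the Chern classes: coefficients of `(1 + y) ^ rk * lam (-y / (1 + y))` -/
def cc (i : ℕ) (a : K0 X) : K0 X :=
  ∑ j ∈ Finset.range (i + 1), ((-1) ^ j * Ring.choose (rk X a - j) (i - j) : ℤ) • lam j a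

/-- the total Chern class -/
def cT (a : K0 X) : PowerSeries (K0 X) := PowerSeries.mk fun i => cc i a

/-- a function on a lattice that satisfies a linear recurrence with invertible ends in each
direction; `u γ` is the twist -/
def Rec {A Γ E : Type*} [AddCommGroup A] [DecidableEq E] (u : Γ → A →+ A) (H : (E → ℤ) → A) :
    Prop :=
  ∀ e : E, ∃ l : List Γ,
    l.foldr (fun γ H' k => H' k - u γ (H' (k - Pi.single e 1))) H = 0

/-- `a` is the value at zero of the recurrent function that agrees with `h` in large degrees -/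
def Extr {A Γ E : Type*} [AddCommGroup A] [DecidableEq E] (u : Γ → A →+ A) (h : (E → ℤ) → A)
    (a : A) : Prop :=
  ∃ H, Rec u H ∧ (∃ k₀, ∀ k, k₀ ≤ k → H k = h k) ∧ a = H 0

/-- the push-forward on `G` along a map with a projective structure -/
def push {f : Mor X Y} (P : Prj f) : G X →+ G Y :=
  if h : ∃ ψ : G X →+ G Y, ∀ M : GMod X,
    Extr (fun γ => kact Y (line Y γ)) (fun k => cls (P.part k M)) (ψ (cls M))
  then h.choose else 0

/-- the class of a module that is a bundle of some constant rank -/
def kc' (M : GMod X) : K0 X := if h : ∃ r, M.IsBun r then kc M h.choose else 0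

/-- the push-forward on `K0` along a flat map with a projective structure -/
def pushK {f : Mor X Y} (P : Prj f) : K0 X →+ K0 Y :=
  if h : ∃ ψ : K0 X →+ K0 Y, ∀ B : Bun X,
    Extr (fun γ => AddMonoidHom.mulLeft (line Y γ)) (fun k => kc' (P.part k B.M)) (ψ B.cls)
  then h.choose else 0

/-- the graph -/
def Mor.gr (f : Mor X Y) : Spc := (X.prod Y).sub f.grS f.grS_stab

/-- the first projection of the graph -/
def Mor.gr1 (f : Mor X Y) : Mor f.gr X := (Mor.fst X Y).comp (Mor.incl _ _ _)

/-- the second projection of the graph -/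
def Mor.gr2 (f : Mor X Y) : Mor f.gr Y := (Mor.snd X Y).comp (Mor.incl _ _ _)

/-- the push-forward on `G` along a map of projective spaces -/
def fstar (f : Mor X Y) : G X →+ G Y :=
  if h : Nonempty (Prj f.gr2) then (push h.some).comp (pullG f.gr1) else 0

/-- the push-forward on `K0` along the first projection -/
def pK (X Y : Spc) : K0 (X.prod Y) →+ K0 X :=
  if h : Nonempty (Prj (Mor.fst X Y)) then pushK h.some else 0

/-- the dimension filtration: classes of modules whose support has a cone of dimension `< d` -/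
def Fl (X : Spc) (d : ℕ) : AddSubgroup (G X) :=
  AddSubgroup.closure {x | ∃ M : GMod X,
    ringKrullDim (X.R ⧸ Module.annihilator X.R M.M) < d ∧ x = cls M}

/-- the same with the dimension of the quotient by the torus: dimension `< d` -/
def Fd (X : Spc) (d : ℕ) : AddSubgroup (G X) := Fl X (d + Fintype.card X.J)

/-- classes that lower the dimension by `j`, after every pull-back to a free space -/
def FF (X : Spc) (j : ℕ) : AddSubgroup (K0 X) where
  carrier := {a | ∀ (W : Spc) (f : Mor W X), W.Free → ∀ d, ∀ x ∈ Fl W (d + j),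
    kact W (pullK f a) x ∈ Fl W d}
  add_mem' := fun {a b} ha hb W f hW d x hx => by
    rw [map_add, map_add, AddMonoidHom.add_apply]
    exact add_mem (ha W f hW d x hx) (hb W f hW d x hx)
  zero_mem' := fun W f _ d x _ => by
    rw [map_zero, map_zero, AddMonoidHom.zero_apply]
    exact zero_mem _
  neg_mem' := fun {a} ha W f hW d x hx => by
    rw [map_neg, map_neg, AddMonoidHom.neg_apply]
    exact neg_mem (ha W f hW d x hx)

/-- the Euler characteristic of a class on a projective space -/
def chiG (X : Spc) : G X →+ ℤ :=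
  if h : ∃ ψ : G X →+ ℤ, ∀ M : GMod X,
    Extr (fun _ : Unit => AddMonoidHom.id ℤ) (fun k => (Module.finrank ℂ (M.wt k) : ℤ)) (ψ (cls M))
  then h.choose else 0

/-- every bundle has constant rank -/
def Spc.Conn (X : Spc) : Prop :=
  ∀ M : GMod X, (∀ z : X.Pt, ∃ r, FreeAt z.1 M.M r) → ∃ r, M.IsBun r

end Vale.Agent.P297Z
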