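import Vale.Agent.P297Z.K.AK0
import Vale.Agent.P297Z.K.KG

/-!
# P297: bundles and exact functors
-/

set_option linter.all false

open scoped TensorProduct

noncomputable section

namespace Vale.Agent.P297Z

namespace AK

variable {R : Type} [CommRing R] [Algebra ℂ R] {z : R →ₐ[ℂ] ℂ} {A B C : Type}
  [AddCommGroup A] [Module R A] [AddCommGroup B] [Module R B] [AddCommGroup C] [Module R C]

theorem cancel_one {n : ℕ} (h : FreeAt z (A × R) (n + 1)) : FreeAt z A n := by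
  obtain ⟨e, r, e', hr, h1, h2⟩ := h
  obtain ⟨i, hi⟩ : ∃ i, z (e (Pi.single i 1)).2 ≠ 0 := by
    by_contra hc
    push Not at hc
    have h3 := congrArg (fun x : A × R => z x.2) (h2 (0, 1))
    rw [pi_eq_sum_univ' (e' (0, 1)), map_sum] at h3
    simp only [map_smul, Prod.snd_sum, Prod.smul_snd, smul_eq_mul, map_sum, map_mul, hc, mul_zero,
      Finset.sum_const_zero, mul_one] at h3
    exact hr h3.symm
  let ins : (Fin n → R) →ₗ[R] Fin (n + 1) → R :=
    ∑ j, (LinearMap.proj j).smulRight (Pi.single (i.succAbove j) 1)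
  have i1 : ∀ x j, ins x (i.succAbove j) = x j := fun x j => by
    simp [ins, Pi.single_apply, Fin.succAbove_right_inj]
  have i2 : ∀ x, ins x i = 0 := fun x => by
    simp [ins, Pi.single_apply, Fin.ne_succAbove]
  have i3 : ∀ y : Fin (n + 1) → R, ins (fun j => y (i.succAbove j)) = y - y i • Pi.single i 1 :=
    fun y => by
      funext k
      refine Fin.succAboveCases i ?_ (fun j => ?_) k
      · simp [i2]
      · simp [i1, Pi.single_apply, Fin.succAbove_ne]
  let u := (e (Pi.single i 1)).2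
  let k : (Fin n → R) →ₗ[R] Fin (n + 1) → R :=
    u • ins - (LinearMap.snd R A R ∘ₗ e ∘ₗ ins).smulRight (Pi.single i 1)
  have k1 : ∀ x, k x = u • ins x - (e (ins x)).2 • Pi.single i 1 := fun _ => rfl
  refine ⟨LinearMap.fst R A R ∘ₗ e ∘ₗ k, r * u,
    LinearMap.funLeft R R i.succAbove ∘ₗ e' ∘ₗ LinearMap.inl R A R, mul_ne hr hi, fun x => ?_,
    fun a => ?_⟩
  · have h3 : ((e (k x)).1, (0 : R)) = e (k x) := by
      refine Prod.ext rfl ?_
      simp [k1, u, mul_comm]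
    funext j
    show e' ((e (k x)).1, 0) (i.succAbove j) = r * u * x j
    rw [h3, h1, k1]
    simp [i1, Pi.single_apply, Fin.succAbove_ne, mul_assoc]
  · show (e (k fun j => e' (a, 0) (i.succAbove j))).1 = _
    rw [k1, i3]
    simp [h2, u, smul_sub, smul_smul, mul_comm]

theorem cancel {a : ℕ} (c : ℕ) (h : FreeAt z (A × (Fin c → R)) (a + c)) : FreeAt z A a := by
  induction c with
  | zero => exact free_iso h (iso_equiv LinearEquiv.prodUnique)
  | succ c ih =>
    refine ih (cancel_one (free_iso h (iso_equiv ?_)))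
    exact ((LinearEquiv.refl R A).prodCongr ((Fin.consLinearEquiv R fun _ => R).symm ≪≫ₗ
      LinearEquiv.prodComm R _ _)) ≪≫ₗ (LinearEquiv.prodAssoc R _ _ _).symm

theorem Split.free_left {f : A →ₗ[R] B} {g : B →ₗ[R] C} (h : Split z f g) {a c : ℕ}
    (hB : FreeAt z B (a + c)) (hC : FreeAt z C c) : FreeAt z A a := by
  obtain ⟨s, hs⟩ := h.iso
  obtain ⟨e, he⟩ := hC
  exact cancel c (free_iso' (free_iso' hB hs) (iso_prodMap iso_id he))

theorem free_pi {ι : Type} [Fintype ι] {M : ι → Type} [∀ i, AddCommGroup (M i)]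
    [∀ i, Module R (M i)] {r : ι → ℕ} (h : ∀ i, FreeAt z (M i) (r i)) :
    FreeAt z (∀ i, M i) (∑ i, r i) := by
  have := nontriv z
  choose e he using h
  obtain ⟨t, ht, h1⟩ := unif (z := z) (P := fun i t => ∃ e' : M i →ₗ[R] Fin (r i) → R,
      (∀ a, e' (e i a) = t • a) ∧ ∀ b, e i (e' b) = t • b)
    (fun i t s ⟨e', h1, h2⟩ => ⟨s • e', fun a => by simp [h1, mul_smul],
      fun a => by simp [h2, mul_smul]⟩)
    fun i => (he i).imp fun t ⟨e', h1, h2⟩ => ⟨h1, e', h2⟩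
  choose e' h2 h3 using h1
  refine free_iso (A := ∀ i, Fin (r i) → R) (f := LinearMap.pi fun i => e i ∘ₗ LinearMap.proj i)
    (free_of_free ?_) ⟨t, LinearMap.pi fun i => e' i ∘ₗ LinearMap.proj i, ht,
      fun a => funext fun i => h2 i (a i), fun b => funext fun i => h3 i (b i)⟩
  rw [Module.finrank_pi_fintype]
  simp

end AK

open AK

variable {W X Y Z : Spc}

namespace GMod

variable {A B C D M N : GMod X} {a b c d r : ℕ} {f : A.M →ₗ[X.R] B.M} {g : B.M →ₗ[X.R] C.M}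

/-! ### maps of degree zero -/

theorem ten_act (A B : GMod X) (t : X.J → ℂˣ) (x : A.M) (y : B.M) :
    (A.ten B).act t (x ⊗ₜ[X.R] y) = A.act t x ⊗ₜ[X.R] B.act t y := rfl

theorem hom_act (A B : GMod X) (t : X.J → ℂˣ) (u : A.M →ₗ[X.R] B.M) (x : A.M) :
    (show A.M →ₗ[X.R] B.M from (A.hom B).act t u) x = B.act t (u (A.act t⁻¹ x)) := rfl

theorem pull_act (φ : Mor W X) (A : GMod X) (t : W.J → ℂˣ) (s : φ.Src) (x : A.M) :
    (φ.pull A).act t (s ⊗ₜ[X.R] x) =
      (show φ.Src from W.act t s) ⊗ₜ[X.R] A.act (tor φ.ρ t) x := rfl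

theorem isHom_ten {F : (A.ten B).M →ₗ[X.R] N.M}
    (h : ∀ t x y, F (A.act t x ⊗ₜ[X.R] B.act t y) = N.act t (F (x ⊗ₜ[X.R] y))) :
    (A.ten B).IsHom N F := fun t m =>
  TensorProduct.induction_on (motive := fun m : A.M ⊗[X.R] B.M =>
      F ((A.ten B).act t m) = N.act t (F m)) m
    (by
      show F ((A.ten B).act t 0) = N.act t (F 0)
      rw [map_zero, map_zero, map_zero])
    (h t) fun (x y : (A.ten B).M) hx hy => by
      show F ((A.ten B).act t (x + y)) = N.act t (F (x + y))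
      rw [map_add, map_add, map_add, map_add, hx, hy]

theorem pull_induction {φ : Mor W X} {P : (φ.pull A).M → Prop} (h0 : P 0)
    (h1 : ∀ x : A.M, P ((1 : φ.Src) ⊗ₜ[X.R] x)) (hs : ∀ (s : W.R) m, P m → P (s • m))
    (ha : ∀ x y, P x → P y → P (x + y)) (m : (φ.pull A).M) : P m :=
  TensorProduct.induction_on (motive := fun m : φ.Src ⊗[X.R] A.M => P m) m h0
    (fun s x => by
      have h := hs s _ (h1 x)
      have e : s • ((1 : φ.Src) ⊗ₜ[X.R] x) = s ⊗ₜ[X.R] x := by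
        rw [TensorProduct.smul_tmul', smul_eq_mul, mul_one]
      exact e ▸ h) ha

theorem pull_act_one (φ : Mor W X) (A : GMod X) (t : W.J → ℂˣ) (x : A.M) :
    (φ.pull A).act t ((1 : φ.Src) ⊗ₜ[X.R] x) = (1 : φ.Src) ⊗ₜ[X.R] A.act (tor φ.ρ t) x :=
  congrArg (fun s : φ.Src => s ⊗ₜ[X.R] A.act (tor φ.ρ t) x) (map_one (W.act t))

theorem isHom_pull {φ : Mor W X} {N : GMod W} {F : (φ.pull A).M →ₗ[W.R] N.M}
    (h : ∀ t x, F ((1 : φ.Src) ⊗ₜ[X.R] A.act (tor φ.ρ t) x) = N.act t (F ((1 : φ.Src) ⊗ₜ[X.R] x))) :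
    (φ.pull A).IsHom N F := fun t m => by
  induction m using pull_induction with
  | h0 => rw [map_zero, map_zero, map_zero]
  | h1 x => rw [pull_act_one, h]
  | hs s m hm => rw [act_smul, map_smul, map_smul, act_smul, hm]
  | ha x y hx hy => rw [map_add, map_add, map_add, map_add, hx, hy]

theorem IsHom.ten {u : C.M →ₗ[X.R] D.M} (h : A.IsHom B f) (h' : C.IsHom D u) :
    (A.ten C).IsHom (B.ten D) (TensorProduct.map f u) :=
  isHom_ten fun t x y => congrArg₂ (fun x y => x ⊗ₜ[X.R] y) (h t x) (h' t y)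

theorem IsHom.pull (h : A.IsHom B f) (φ : Mor W X) :
    (φ.pull A).IsHom (φ.pull B) (f.baseChange φ.Src) :=
  isHom_pull fun t x => (congrArg (fun y => (1 : φ.Src) ⊗ₜ[X.R] y) (h _ x)).trans
    (pull_act_one φ B t (f x)).symm

theorem IsHom.lcomp (h : A.IsHom B f) (M : GMod X) :
    (B.hom M).IsHom (A.hom M) (LinearMap.lcomp X.R M.M f) := fun t u =>
  LinearMap.ext fun x => congrArg (fun y => M.act t ((show B.M →ₗ[X.R] M.M from u) y))
    (h t⁻¹ x).symm

theorem IsHom.llcomp (h : A.IsHom B f) (M : GMod X) :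
    (M.hom A).IsHom (M.hom B) (LinearMap.llcomp X.R M.M A.M B.M f) := fun t u =>
  LinearMap.ext fun x => h t _

theorem IsHom.shift (h : A.IsHom B f) (γ : X.J → ℤ) : (A.shift γ).IsHom (B.shift γ) f :=
  fun t (x : A.M) => by
    show f (chr (-γ) t • A.act t x) = chr (-γ) t • B.act t (f x)
    rw [LinearMap.map_smul_of_tower, h]

/-! ### bundles -/

theorem isBun_one (X : Spc) : (one X).IsBun 1 := fun z =>
  have := nontriv z.1
  (free_of_free (Module.finrank_self X.R) : FreeAt z.1 X.R 1)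

theorem isBun_zero (h : ∀ z : X.Pt, ZeroAt z.1 M.M) : M.IsBun 0 := fun z => free_zero (h z)

theorem IsBun.shift (h : M.IsBun r) (γ : X.J → ℤ) : (M.shift γ).IsBun r := h

theorem IsBun.prod (hA : A.IsBun a) (hB : B.IsBun b) : (A.prod B).IsBun (a + b) := fun z =>
  free_prod (hA z) (hB z)

theorem isBun_pi {ι : Type} [Fintype ι] {M : ι → GMod X} {r : ι → ℕ} (h : ∀ i, (M i).IsBun (r i)) :
    (pi M).IsBun (∑ i, r i) := fun z => free_pi fun i => h i z

theorem IsBun.ten (hA : A.IsBun a) (hB : B.IsBun b) : (A.ten B).IsBun (a * b) := fun z =>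
  free_ten (hA z) (hB z)

theorem IsBun.hom (hA : A.IsBun a) (hB : B.IsBun b) : (A.hom B).IsBun (a * b) := fun z =>
  free_hom (hA z) (hB z)

theorem IsBun.dual (hA : A.IsBun a) : A.dual.IsBun a := by
  have h := hA.hom (isBun_one X)
  rwa [mul_one] at h

theorem IsBun.ext (hA : A.IsBun a) (n : ℕ) : (A.ext n).IsBun (a.choose n) := fun z =>
  free_ext (hA z) n

theorem IsBun.pull (hA : A.IsBun a) (φ : Mor W X) : (φ.pull A).IsBun a := fun z =>
  free_bc (S := φ.Src) (w := z.1) (z := (φ.onPt z).1) (fun _ => rfl) (hA (φ.onPt z))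

theorem IsBun.le [h : Nonempty X.Pt] (hA : A.IsBun a) (hB : B.IsBun b)
    (hf : ∀ z : X.Pt, SurjAt z.1 f) : b ≤ a := free_le (hA h.some) (hB _) (hf _)

theorem IsBun.unique [Nonempty X.Pt] (h : A.IsBun a) (h' : A.IsBun b) : a = b :=
  le_antisymm (h'.le h fun _ => iso_surj iso_id) (h.le h' fun _ => iso_surj iso_id)

theorem Qis.isBun_iff (h : Qis A B f) : A.IsBun r ↔ B.IsBun r :=
  ⟨fun h1 z => free_iso (h1 z) (h.2 z), fun h1 z => free_iso' (h1 z) (h.2 z)⟩

theorem SES.split (h : SES A B C f g) (hC : C.IsBun c) (z : X.Pt) : Split z.1 f g :=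
  split_of h.2.2.1 (h.2.2.2 z).1 (h.2.2.2 z).2.1 (h.2.2.2 z).2.2 (hC z)

theorem SES.isBun_mid (h : SES A B C f g) (hA : A.IsBun a) (hC : C.IsBun c) :
    B.IsBun (a + c) := fun z => by
  obtain ⟨s, hs⟩ := (h.split hC z).iso
  exact free_iso (free_prod (hA z) (hC z)) hs

theorem SES.isBun_left (h : SES A B C f g) (hB : B.IsBun (a + c)) (hC : C.IsBun c) :
    A.IsBun a := fun z => (h.split hC z).free_left (hB z) (hC z)

/-! ### maps that are invertible at all points -/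

theorem qis_of_equiv (e : A.M ≃ₗ[X.R] B.M) (h : A.IsHom B e.toLinearMap) :
    Qis A B e.toLinearMap := ⟨h, fun _ => iso_equiv e⟩

theorem qis_of_bij (h : A.IsHom B f) (h' : ∀ z : X.Pt, InjAt z.1 f ∧ SurjAt z.1 f) :
    Qis A B f := ⟨h, fun z => iso_of_bij (h' z).1 (h' z).2⟩

theorem Qis.comp (h : Qis A B f) (h' : Qis B C g) : Qis A C (g ∘ₗ f) :=
  ⟨h'.1.comp h.1, fun z => iso_comp (h.2 z) (h'.2 z)⟩

theorem qis_id (A : GMod X) : Qis A A LinearMap.id := ⟨IsHom.id A, fun _ => iso_id⟩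

theorem Qis.ten {u : C.M →ₗ[X.R] D.M} (h : Qis A B f) (h' : Qis C D u) :
    Qis (A.ten C) (B.ten D) (TensorProduct.map f u) :=
  ⟨h.1.ten h'.1, fun z => iso_map (h.2 z) (h'.2 z)⟩

theorem Qis.pull (h : Qis A B f) (φ : Mor W X) :
    Qis (φ.pull A) (φ.pull B) (f.baseChange φ.Src) :=
  ⟨h.1.pull φ, fun z =>
    iso_bc (S := φ.Src) (w := z.1) (z := (φ.onPt z).1) (fun _ => rfl) (h.2 (φ.onPt z))⟩

theorem Qis.dual (h : Qis A B f) : Qis B.dual A.dual f.dualMap :=
  ⟨h.1.lcomp (one X), fun z => iso_lcomp (h.2 z)⟩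

theorem Qis.shift (h : Qis A B f) (γ : X.J → ℤ) : Qis (A.shift γ) (B.shift γ) f :=
  ⟨h.1.shift γ, h.2⟩

/-! ### exact functors -/

theorem ses_of_split (hf : A.IsHom B f) (hg : B.IsHom C g) (h0 : ∀ x, g (f x) = 0)
    (h : ∀ z : X.Pt, Split z.1 f g) : SES A B C f g := ⟨hf, hg, h0, fun z => (h z).ses⟩

theorem ses_prod (A B : GMod X) :
    SES A (A.prod B) B (LinearMap.inl X.R A.M B.M) (LinearMap.snd X.R A.M B.M) :=
  ⟨fun t x => Prod.ext rfl (map_zero (B.act t)).symm, fun _ _ => rfl, fun _ => rfl, fun _ =>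
    ⟨fun x hx => ⟨1, one_ne, (one_smul _ _).trans (congrArg Prod.fst hx)⟩,
      fun x hx => ⟨1, x.1, one_ne,
        (show (x.1, 0) = x from Prod.ext rfl hx.symm).trans (one_smul X.R x).symm⟩,
      fun x => ⟨1, (0, x), one_ne, (one_smul _ _).symm⟩⟩⟩

theorem SES.shift (h : SES A B C f g) (γ : X.J → ℤ) :
    SES (A.shift γ) (B.shift γ) (C.shift γ) f g := ⟨h.1.shift γ, h.2.1.shift γ, h.2.2⟩

theorem SES.comp_zero (h : SES A B C f g) : g ∘ₗ f = 0 := LinearMap.ext h.2.2.1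

theorem SES.ten_left (h : SES A B C f g) (hD : D.IsBun d) :
    SES (D.ten A) (D.ten B) (D.ten C) (f.lTensor D.M) (g.lTensor D.M) := by
  refine ⟨(IsHom.id D).ten h.1, (IsHom.id D).ten h.2.1, fun x => ?_, fun z => ⟨?_,
    ex_lTensor (hD z) (h.2.2.2 z).2.1, ?_⟩⟩
  · refine (LinearMap.lTensor_comp_apply D.M g f x).symm.trans ?_
    rw [h.comp_zero, LinearMap.lTensor_zero]
    rfl
  · have h1 := ex_lTensor (hD z) (inj_iff.1 (h.2.2.2 z).1)
    rw [LinearMap.lTensor_zero] at h1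
    exact inj_iff.2 h1
  · have h1 := ex_lTensor (hD z) (surj_iff.1 (h.2.2.2 z).2.2)
    rw [LinearMap.lTensor_zero] at h1
    exact surj_iff.2 h1

theorem SES.ten_right (h : SES A B C f g) (hC : C.IsBun c) (M : GMod X) :
    SES (A.ten M) (B.ten M) (C.ten M) (f.rTensor M.M) (g.rTensor M.M) := by
  refine ses_of_split (h.1.ten (IsHom.id M)) (h.2.1.ten (IsHom.id M)) (fun x => ?_)
    fun z => (h.split hC z).rTensor
  refine (LinearMap.rTensor_comp_apply M.M g f x).symm.trans ?_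
  rw [h.comp_zero, LinearMap.rTensor_zero]
  rfl

theorem SES.pull_zero (h : SES A B C f g) (φ : Mor W X) (x : φ.Src ⊗[X.R] A.M) :
    g.baseChange φ.Src (f.baseChange φ.Src x) = 0 := by
  rw [← LinearMap.comp_apply, ← LinearMap.baseChange_comp, h.comp_zero, LinearMap.baseChange_zero,
    LinearMap.zero_apply]

theorem SES.pull (h : SES A B C f g) (hC : C.IsBun c) (φ : Mor W X) :
    SES (φ.pull A) (φ.pull B) (φ.pull C) (f.baseChange φ.Src) (g.baseChange φ.Src) :=
  ses_of_split (h.1.pull φ) (h.2.1.pull φ) (h.pull_zero φ) fun z =>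
    Split.bc (S := φ.Src) (w := z.1) (z := (φ.onPt z).1) (fun _ => rfl) (h.split hC (φ.onPt z))

theorem SES.qis_quo (h : SES A B C f g) : Qis (B.quo _ h.1.stab_range) C
    ((LinearMap.range f).liftQ g (LinearMap.range_le_ker_iff.2 h.comp_zero)) := by
  refine qis_of_bij (fun t m => ?_) fun z => ⟨fun m hm => ?_, fun x => ?_⟩
  · obtain ⟨m, rfl⟩ := Submodule.Quotient.mk_surjective _ m
    exact h.2.1 t m
  · obtain ⟨m, rfl⟩ := Submodule.Quotient.mk_surjective _ m
    obtain ⟨s, x, hs, hx⟩ := (h.2.2.2 z).2.1 m hm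
    exact ⟨s, hs, (Submodule.Quotient.mk_eq_zero _).2 ⟨x, hx⟩⟩
  · obtain ⟨s, m, hs, hm⟩ := (h.2.2.2 z).2.2 x
    exact ⟨s, Submodule.Quotient.mk m, hs, hm⟩

theorem SES.pull_flat (h : SES A B C f g) {φ : Mor W X} (hφ : φ.Flat) :
    SES (φ.pull A) (φ.pull B) (φ.pull C) (f.baseChange φ.Src) (g.baseChange φ.Src) := by
  refine ⟨h.1.pull φ, h.2.1.pull φ, h.pull_zero φ, fun z => ?_⟩
  have h1 := (h.qis_quo.pull φ).2 z
  have h2 : ∀ x : φ.Src ⊗[X.R] B.M, g.baseChange φ.Src x =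
      ((LinearMap.range f).liftQ g (LinearMap.range_le_ker_iff.2 h.comp_zero)).baseChange φ.Src
        ((LinearMap.range f).mkQ.baseChange φ.Src x) := fun x => by
    rw [← LinearMap.comp_apply, ← LinearMap.baseChange_comp, Submodule.liftQ_mkQ]
  refine ⟨hφ A B f h.1 (fun y => (h.2.2.2 y).1) z, fun x hx => ?_, fun x => ?_⟩
  · obtain ⟨s, hs, h3⟩ := iso_inj h1 _ ((h2 x).symm.trans hx)
    obtain ⟨y, hy⟩ := (lTensor_exact φ.Src (LinearMap.exact_map_mkQ_range f)
      (Submodule.mkQ_surjective _) ((show φ.Src from s) • (show φ.Src ⊗[X.R] B.M from x))).1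
      ((map_smul ((LinearMap.range f).mkQ.baseChange φ.Src) _ _).trans h3)
    exact ⟨s, y, hs, hy⟩
  · obtain ⟨s, y, hs, h3⟩ := iso_surj h1 x
    obtain ⟨y, rfl⟩ := LinearMap.lTensor_surjective φ.Src
      (Submodule.mkQ_surjective (LinearMap.range f)) y
    exact ⟨s, y, hs, (h2 y).trans h3⟩

theorem SES.hom_left (h : SES A B C f g) (hC : C.IsBun c) (M : GMod X) :
    SES (C.hom M) (B.hom M) (A.hom M) (LinearMap.lcomp X.R M.M g) (LinearMap.lcomp X.R M.M f) :=
  ses_of_split (h.2.1.lcomp M) (h.1.lcomp M)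
    (fun u => LinearMap.ext fun x => (congrArg (show C.M →ₗ[X.R] M.M from u) (h.2.2.1 x)).trans
      (map_zero _)) fun z => (h.split hC z).lcomp

theorem SES.hom_right (h : SES A B C f g) (hD : D.IsBun d) :
    SES (D.hom A) (D.hom B) (D.hom C) (LinearMap.llcomp X.R D.M A.M B.M f)
      (LinearMap.llcomp X.R D.M B.M C.M g) := by
  refine ⟨h.1.llcomp D, h.2.1.llcomp D, fun u => LinearMap.ext fun x => h.2.2.1 _, fun z => ⟨?_,
    ex_llcomp (hD z) (h.2.2.2 z).2.1, ?_⟩⟩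
  · have h1 := ex_llcomp (hD z) (inj_iff.1 (h.2.2.2 z).1)
    rw [map_zero] at h1
    exact inj_iff.2 h1
  · have h1 := ex_llcomp (hD z) (surj_iff.1 (h.2.2.2 z).2.2)
    rw [map_zero] at h1
    exact surj_iff.2 h1

theorem SES.dual (h : SES A B C f g) (hC : C.IsBun c) :
    SES C.dual B.dual A.dual g.dualMap f.dualMap := h.hom_left hC (one X)

/-- every module is a quotient of a sum of line bundles -/
theorem exists_cover (M : GMod X) : ∃ (n : ℕ) (γ : Fin n → X.J → ℤ)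
    (p : (pi fun i => (one X).shift (γ i)).M →ₗ[X.R] M.M),
    (pi fun i => (one X).shift (γ i)).IsHom M p ∧ Function.Surjective p := by
  obtain ⟨T, w, h1, h2⟩ := M.exists_gens X.R
  let v : Fin T.card → M.M := fun i => T.equivFin.symm i
  let p : (Fin T.card → X.R) →ₗ[X.R] M.M := Fintype.linearCombination X.R v
  refine ⟨T.card, fun i => -w (v i), p, fun t (x : Fin T.card → X.R) => ?_,
    (?_ : Function.Surjective p)⟩
  · show ∑ i, (chr (- -w (v i)) t • X.act t (x i)) • v i = M.act t (∑ i, x i • v i)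
    rw [map_sum]
    refine Finset.sum_congr rfl fun i _ => ?_
    rw [M.act_smul, M.mem_wt.1 (h1 _ (T.equivFin.symm i).2), neg_neg, smul_assoc, smul_comm]
  · refine LinearMap.range_eq_top.1 ((Fintype.range_linearCombination X.R v).trans ?_)
    rw [← h2]
    congr 1
    exact (T.equivFin.symm.surjective.range_comp Subtype.val).trans Subtype.range_coe

end GMod

end Vale.Agent.P297Z
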