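import Vale.Agent.P297Z.K.Tan

/-!
# P297: local algebra at a complex point
-/

set_option linter.all false

noncomputable section

namespace Vale.Agent.P297Z

variable {R : Type} [CommRing R] [Algebra ℂ R] {z : R →ₐ[ℂ] ℂ} {A B C D : Type} [AddCommGroup A]
  [Module R A] [AddCommGroup B] [Module R B] [AddCommGroup C] [Module R C] [AddCommGroup D]
  [Module R D]

theorem ev_mul {r s : R} (hr : z r ≠ 0) (hs : z s ≠ 0) : z (r * s) ≠ 0 := by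
  rw [map_mul]; exact mul_ne_zero hr hs

theorem ev_one : z 1 ≠ 0 := by rw [map_one]; exact one_ne_zero

theorem ev_pow {r : R} (hr : z r ≠ 0) (n : ℕ) : z (r ^ n) ≠ 0 := by
  rw [map_pow]; exact pow_ne_zero n hr

/-- one multiplier for a finitely generated submodule -/
theorem unif_fg {N P : Submodule R A} (hN : N.FG) (h : ∀ a ∈ N, ∃ r, z r ≠ 0 ∧ r • a ∈ P) :
    ∃ r, z r ≠ 0 ∧ ∀ a ∈ N, r • a ∈ P := by
  obtain ⟨s, rfl⟩ := hN
  choose! ρ h1 h2 using fun a (ha : a ∈ s) => h a (Submodule.subset_span ha)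
  refine ⟨∏ a ∈ s, ρ a, by rw [map_prod]; exact Finset.prod_ne_zero_iff.2 h1, fun a ha => ?_⟩
  refine Submodule.span_induction (fun a ha => ?_) (by simp) (fun x y _ _ hx hy => ?_)
    (fun c x _ hx => ?_) ha
  · obtain ⟨c, hc⟩ := Finset.dvd_prod_of_mem ρ ha
    rw [hc, mul_comm, mul_smul]
    exact P.smul_mem c (h2 a ha)
  · rw [smul_add]; exact P.add_mem hx hy
  · rw [smul_comm]; exact P.smul_mem c hx

theorem ZeroAt.unif [Module.Finite R A] (h : ZeroAt z A) : ∃ r, z r ≠ 0 ∧ ∀ a : A, r • a = 0 := by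
  obtain ⟨r, h1, h2⟩ := unif_fg (P := ⊥) Module.Finite.fg_top fun a _ => h a
  exact ⟨r, h1, fun a => h2 a trivial⟩

theorem InjAt.unif [IsNoetherian R A] {f : A →ₗ[R] B} (h : InjAt z f) :
    ∃ r, z r ≠ 0 ∧ ∀ a, f a = 0 → r • a = 0 :=
  unif_fg (N := LinearMap.ker f) (P := ⊥) (IsNoetherian.noetherian _) h

theorem SurjAt.unif [Module.Finite R B] {f : A →ₗ[R] B} (h : SurjAt z f) :
    ∃ r, z r ≠ 0 ∧ ∀ b, ∃ a, f a = r • b := by
  obtain ⟨r, h1, h2⟩ := unif_fg (P := LinearMap.range f) Module.Finite.fg_top fun b _ =>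
    (h b).imp fun r ⟨a, h1, h2⟩ => ⟨h1, a, h2⟩
  exact ⟨r, h1, fun b => h2 b trivial⟩

theorem ExAt.unif [IsNoetherian R B] {f : A →ₗ[R] B} {g : B →ₗ[R] C} (h : ExAt z f g) :
    ∃ r, z r ≠ 0 ∧ ∀ b, g b = 0 → ∃ a, f a = r • b :=
  unif_fg (N := LinearMap.ker g) (P := LinearMap.range f) (IsNoetherian.noetherian _) fun b hb =>
    (h b hb).imp fun r ⟨a, h1, h2⟩ => ⟨h1, a, h2⟩

theorem InjAt.of_inj {f : A →ₗ[R] B} (h : Function.Injective f) : InjAt z f := fun a ha =>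
  ⟨1, ev_one, by rw [one_smul]; exact h (ha.trans (map_zero f).symm)⟩

theorem SurjAt.of_surj {f : A →ₗ[R] B} (h : Function.Surjective f) : SurjAt z f := fun b =>
  (h b).elim fun a ha => ⟨1, a, ev_one, by rw [one_smul, ha]⟩

theorem ExAt.of_ker {f : A →ₗ[R] B} {g : B →ₗ[R] C} (h : ∀ b, g b = 0 → ∃ a, f a = b) :
    ExAt z f g := fun b hb => (h b hb).elim fun a ha => ⟨1, a, ev_one, by rw [one_smul, ha]⟩

theorem ZeroAt.of_subsingleton [Subsingleton A] : ZeroAt z A :=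
  fun _ => ⟨1, ev_one, Subsingleton.elim _ _⟩

theorem IsoAt.of_equiv (e : A ≃ₗ[R] B) : IsoAt z e.toLinearMap :=
  ⟨1, e.symm.toLinearMap, ev_one, fun a => by simp, fun b => by simp⟩

theorem IsoAt.of_bij {f : A →ₗ[R] B} (h : Function.Bijective f) : IsoAt z f :=
  IsoAt.of_equiv (LinearEquiv.ofBijective f h)

theorem IsoAt.id : IsoAt z (LinearMap.id : A →ₗ[R] A) := IsoAt.of_equiv (LinearEquiv.refl R A)

theorem IsoAt.smul {r : R} (hr : z r ≠ 0) {f : A →ₗ[R] B} (h : IsoAt z f) : IsoAt z (r • f) := by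
  obtain ⟨s, g, h1, h2, h3⟩ := h
  exact ⟨r * s, g, ev_mul hr h1, fun a => by simp [h2, mul_smul], fun b => by simp [h3, mul_smul]⟩

theorem IsoAt.injAt {f : A →ₗ[R] B} (h : IsoAt z f) : InjAt z f := fun a ha => by
  obtain ⟨r, g, h1, h2, -⟩ := h
  exact ⟨r, h1, by rw [← h2, ha, map_zero]⟩

theorem IsoAt.surjAt {f : A →ₗ[R] B} (h : IsoAt z f) : SurjAt z f := fun b => by
  obtain ⟨r, g, h1, -, h3⟩ := h
  exact ⟨r, g b, h1, h3 b⟩

/-- an inverse at the point -/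
theorem IsoAt.symm {f : A →ₗ[R] B} (h : IsoAt z f) : ∃ (r : R) (g : B →ₗ[R] A), z r ≠ 0 ∧
    (∀ a, g (f a) = r • a) ∧ (∀ b, f (g b) = r • b) ∧ IsoAt z g := by
  obtain ⟨r, g, h1, h2, h3⟩ := h
  exact ⟨r, g, h1, h2, h3, r, f, h1, h3, h2⟩

theorem IsoAt.comp {g : B →ₗ[R] C} {f : A →ₗ[R] B} (hg : IsoAt z g) (hf : IsoAt z f) :
    IsoAt z (g ∘ₗ f) := by
  obtain ⟨r, f', h1, h2, h3⟩ := hf
  obtain ⟨s, g', k1, k2, k3⟩ := hg
  refine ⟨s * r, f' ∘ₗ g', ev_mul k1 h1, fun a => ?_, fun c => ?_⟩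
  · simp [k2, h2, mul_smul]
  · simp [k3, h3, mul_smul, smul_comm s r]

theorem InjAt.comp {g : B →ₗ[R] C} {f : A →ₗ[R] B} (hg : InjAt z g) (hf : InjAt z f) :
    InjAt z (g ∘ₗ f) := fun a ha => by
  obtain ⟨r, h1, h2⟩ := hg _ ha
  obtain ⟨s, h3, h4⟩ := hf (r • a) (by rw [map_smul, h2])
  exact ⟨s * r, ev_mul h3 h1, by rw [mul_smul, h4]⟩

theorem SurjAt.comp {g : B →ₗ[R] C} {f : A →ₗ[R] B} (hg : SurjAt z g) (hf : SurjAt z f) :
    SurjAt z (g ∘ₗ f) := fun c => by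
  obtain ⟨r, b, h1, h2⟩ := hg c
  obtain ⟨s, a, h3, h4⟩ := hf b
  exact ⟨s * r, a, ev_mul h3 h1, by rw [LinearMap.comp_apply, h4, map_smul, h2, mul_smul]⟩

theorem InjAt.of_comp {g : B →ₗ[R] C} {f : A →ₗ[R] B} (h : InjAt z (g ∘ₗ f)) : InjAt z f :=
  fun a ha => h a (by rw [LinearMap.comp_apply, ha, map_zero])

theorem SurjAt.of_comp {g : B →ₗ[R] C} {f : A →ₗ[R] B} (h : SurjAt z (g ∘ₗ f)) : SurjAt z g :=
  fun c => (h c).elim fun r ⟨a, h1⟩ => ⟨r, f a, h1⟩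

theorem InjAt.of_comp_surj {g : B →ₗ[R] C} {f : A →ₗ[R] B} (h : InjAt z (g ∘ₗ f))
    (hf : SurjAt z f) : InjAt z g := fun b hb => by
  obtain ⟨r, a, h1, h2⟩ := hf b
  obtain ⟨s, h3, h4⟩ := h a (by rw [LinearMap.comp_apply, h2, map_smul, hb, smul_zero])
  exact ⟨s * r, ev_mul h3 h1, by rw [mul_smul, ← h2, ← map_smul, h4, map_zero]⟩

theorem SurjAt.of_comp_inj {g : B →ₗ[R] C} {f : A →ₗ[R] B} (h : SurjAt z (g ∘ₗ f))
    (hg : InjAt z g) : SurjAt z f := fun b => by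
  obtain ⟨r, a, h1, h2⟩ := h (g b)
  obtain ⟨s, h3, h4⟩ := hg (f a - r • b) (by
    rw [map_sub, map_smul, ← h2, LinearMap.comp_apply, sub_self])
  refine ⟨s * r, s • a, ev_mul h3 h1, ?_⟩
  rw [smul_sub, sub_eq_zero] at h4
  rw [map_smul, h4, mul_smul]

theorem InjAt.of_left {f : A →ₗ[R] B} {t : B →ₗ[R] A} {r : R} (hr : z r ≠ 0)
    (h : ∀ a, t (f a) = r • a) : InjAt z f := fun a ha => ⟨r, hr, by rw [← h, ha, map_zero]⟩

theorem SurjAt.of_right {f : A →ₗ[R] B} {t : B →ₗ[R] A} {r : R} (hr : z r ≠ 0)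
    (h : ∀ b, f (t b) = r • b) : SurjAt z f := fun b => ⟨r, t b, hr, h b⟩

theorem ZeroAt.of_surjAt {f : A →ₗ[R] B} (h : SurjAt z f) (hA : ZeroAt z A) : ZeroAt z B :=
  fun b => by
    obtain ⟨r, a, h1, h2⟩ := h b
    obtain ⟨s, h3, h4⟩ := hA a
    exact ⟨s * r, ev_mul h3 h1, by rw [mul_smul, ← h2, ← map_smul, h4, map_zero]⟩

theorem ZeroAt.of_injAt {f : A →ₗ[R] B} (h : InjAt z f) (hB : ZeroAt z B) : ZeroAt z A :=
  fun a => by
    obtain ⟨r, h1, h2⟩ := hB (f a)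
    obtain ⟨s, h3, h4⟩ := h (r • a) (by rw [map_smul, h2])
    exact ⟨s * r, ev_mul h3 h1, by rw [mul_smul, h4]⟩

theorem injAt_iff_ker {f : A →ₗ[R] B} : InjAt z f ↔ ZeroAt z (LinearMap.ker f) :=
  ⟨fun h a => (h a.1 a.2).imp fun _ h => ⟨h.1, Subtype.ext h.2⟩,
    fun h a ha => (h ⟨a, ha⟩).imp fun _ h => ⟨h.1, congrArg Subtype.val h.2⟩⟩

theorem surjAt_iff_coker {f : A →ₗ[R] B} : SurjAt z f ↔ ZeroAt z (B ⧸ LinearMap.range f) := by
  constructor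
  · intro h b
    obtain ⟨b, rfl⟩ := Submodule.Quotient.mk_surjective _ b
    obtain ⟨r, a, h1, h2⟩ := h b
    exact ⟨r, h1, (Submodule.Quotient.mk_eq_zero _).2 ⟨a, h2⟩⟩
  · intro h b
    obtain ⟨r, h1, h2⟩ := h (Submodule.Quotient.mk b)
    obtain ⟨a, ha⟩ := (Submodule.Quotient.mk_eq_zero (LinearMap.range f)).1 h2
    exact ⟨r, a, h1, ha⟩

theorem zeroAt_iff_ann [Module.Finite R A] :
    ZeroAt z A ↔ ∃ r ∈ Module.annihilator R A, z r ≠ 0 :=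
  ⟨fun h => h.unif.imp fun _ h => ⟨Module.mem_annihilator.2 h.2, h.1⟩,
    fun ⟨r, h1, h2⟩ a => ⟨r, h2, Module.mem_annihilator.1 h1 a⟩⟩

/-- a map that lands in the image of `f` up to a multiplier lifts through `f` -/
theorem exists_lift {f : A →ₗ[R] B} {u : C →ₗ[R] B} {r s : R} (h1 : ∀ a, f a = 0 → r • a = 0)
    (h2 : ∀ c, ∃ a, f a = s • u c) :
    ∃ t : C →ₗ[R] A, ∀ c a, f a = s • u c → t c = r • a := by
  refine ⟨(LinearMap.ker f).liftQ (r • (LinearMap.id : A →ₗ[R] A)) (fun a ha => h1 a ha) ∘ₗ f.quotKerEquivRange.symm.toLinearMap ∘ₗ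
    (s • u).codRestrict (LinearMap.range f) h2, fun c a ha => ?_⟩
  have : (s • u).codRestrict (LinearMap.range f) h2 c = ⟨f a, a, rfl⟩ := Subtype.ext ha.symm
  rw [LinearMap.comp_apply, LinearMap.comp_apply, this, LinearEquiv.coe_coe,
    f.quotKerEquivRange_symm_apply_image a ⟨a, rfl⟩]
  rfl

theorem isoAt_of [IsNoetherian R A] [Module.Finite R B] {f : A →ₗ[R] B} (h1 : InjAt z f)
    (h2 : SurjAt z f) : IsoAt z f := by
  obtain ⟨r, k1, k2⟩ := h1.unif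
  obtain ⟨s, k3, k4⟩ := h2.unif
  obtain ⟨t, ht⟩ := exists_lift (u := LinearMap.id) k2 k4
  refine ⟨r * s, t, ev_mul k1 k3, fun a => ?_, fun b => ?_⟩
  · rw [ht (f a) (s • a) (map_smul f s a), mul_smul]
  · obtain ⟨a, ha⟩ := k4 b
    rw [ht b a ha, map_smul, ha, mul_smul]

theorem isoAt_iff [IsNoetherian R A] [Module.Finite R B] {f : A →ₗ[R] B} :
    IsoAt z f ↔ InjAt z f ∧ SurjAt z f :=
  ⟨fun h => ⟨h.injAt, h.surjAt⟩, fun h => isoAt_of h.1 h.2⟩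

theorem InjAt.of_surjAt_end [IsNoetherian R A] {φ : A →ₗ[R] A} (h : SurjAt z φ) : InjAt z φ := by
  obtain ⟨r, h1, h2⟩ := h.unif
  obtain ⟨n, hn⟩ := monotone_stabilizes_iff_noetherian.2 ‹IsNoetherian R A› φ.iterateKer
  have h3 : ∀ k : ℕ, ∀ a, ∃ a', (φ ^ k) a' = r ^ k • a := by
    intro k
    induction k with
    | zero => exact fun a => ⟨a, by simp⟩
    | succ k ih =>
      intro a
      obtain ⟨a1, e1⟩ := ih a
      obtain ⟨a2, e2⟩ := h2 a1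
      exact ⟨a2, by rw [pow_succ, Module.End.mul_apply, e2, map_smul, e1, pow_succ', mul_smul]⟩
  intro a ha
  obtain ⟨a', e⟩ := h3 n a
  refine ⟨r ^ n, ev_pow h1 n, ?_⟩
  have h4 : a' ∈ φ.iterateKer (n + 1) := by
    change (φ ^ (n + 1)) a' = 0
    rw [pow_succ', Module.End.mul_apply, e, map_smul, ha, smul_zero]
  rw [← hn _ (Nat.le_succ n)] at h4
  exact e.symm.trans h4

/-! ### free modules at a point -/

theorem FreeAt.of_isoAt {n : ℕ} (h : FreeAt z A n) {f : A →ₗ[R] B} (hf : IsoAt z f) :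
    FreeAt z B n := h.elim fun e he => ⟨f ∘ₗ e, hf.comp he⟩

theorem FreeAt.of_isoAt' {n : ℕ} (h : FreeAt z B n) {f : A →ₗ[R] B} (hf : IsoAt z f) :
    FreeAt z A n := by
  obtain ⟨_, g, -, -, -, hg⟩ := hf.symm
  exact h.of_isoAt hg

theorem FreeAt.of_equiv {n : ℕ} (h : FreeAt z A n) (e : A ≃ₗ[R] B) : FreeAt z B n :=
  h.of_isoAt (IsoAt.of_equiv e)

theorem freeAt_pi (n : ℕ) : FreeAt z (Fin n → R) n := ⟨_, IsoAt.id⟩

theorem freeAt_fun (ι : Type) [Fintype ι] : FreeAt z (ι → R) (Fintype.card ι) :=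
  (freeAt_pi _).of_equiv (LinearEquiv.funCongrLeft R R (Fintype.equivFin ι))

theorem freeAt_one : FreeAt z R 1 := (freeAt_pi 1).of_equiv (LinearEquiv.funUnique (Fin 1) R R)

theorem freeAt_zero_iff [Module.Finite R A] : FreeAt z A 0 ↔ ZeroAt z A := by
  refine ⟨fun ⟨e, he⟩ => ZeroAt.of_surjAt he.surjAt ZeroAt.of_subsingleton, fun h => ?_⟩
  obtain ⟨r, h1, h2⟩ := h.unif
  exact ⟨0, r, 0, h1, fun a => Subsingleton.elim _ _, fun a => (h2 a).symm⟩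

theorem IsoAt.prod {f : A →ₗ[R] B} {g : C →ₗ[R] D} (hf : IsoAt z f) (hg : IsoAt z g) :
    IsoAt z (f.prodMap g) := by
  obtain ⟨r, f', h1, h2, h3⟩ := hf
  obtain ⟨s, g', k1, k2, k3⟩ := hg
  refine ⟨r * s, (s • f').prodMap (r • g'), ev_mul h1 k1, fun a => ?_, fun a => ?_⟩
  · ext <;> simp [h2, k2, smul_smul, mul_comm]
  · ext <;> simp [h3, k3, smul_smul, mul_comm]

theorem FreeAt.prod {m n : ℕ} (hA : FreeAt z A m) (hB : FreeAt z B n) :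
    FreeAt z (A × B) (m + n) := by
  obtain ⟨e, he⟩ := hA
  obtain ⟨e', he'⟩ := hB
  have h := (freeAt_fun (z := z) (Fin m ⊕ Fin n)).of_equiv
    (LinearEquiv.sumArrowLequivProdArrow (Fin m) (Fin n) R R)
  rw [Fintype.card_sum, Fintype.card_fin, Fintype.card_fin] at h
  exact h.of_isoAt (he.prod he')

/-- a module that is free at the point is projective at the point -/
theorem FreeAt.lift {n : ℕ} (h : FreeAt z C n) {g : A →ₗ[R] B} {u : C →ₗ[R] B}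
    (hu : ∀ c, ∃ r a, z r ≠ 0 ∧ g a = r • u c) :
    ∃ (r : R) (t : C →ₗ[R] A), z r ≠ 0 ∧ ∀ c, g (t c) = r • u c := by
  obtain ⟨e, s, e', h1, -, h3⟩ := h
  obtain ⟨r, k1, k2⟩ := unif_fg (N := LinearMap.range (u ∘ₗ e)) (P := LinearMap.range g)
    (Submodule.fg_range _) (by
      rintro _ ⟨v, rfl⟩
      exact (hu (e v)).imp fun r ⟨a, h1, h2⟩ => ⟨h1, a, h2⟩)
  choose a ha using fun i => k2 _ ⟨Pi.single i 1, rfl⟩
  have h4 : g ∘ₗ Fintype.linearCombination R a = r • (u ∘ₗ e) :=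
    LinearMap.pi_ext' fun i => LinearMap.ext_ring (by simpa using ha i)
  refine ⟨r * s, Fintype.linearCombination R a ∘ₗ e', ev_mul k1 h1, fun c => ?_⟩
  have := LinearMap.congr_fun h4 (e' c)
  simp only [LinearMap.comp_apply, LinearMap.smul_apply, h3, map_smul] at this ⊢
  rw [this, mul_smul]

/-- a sequence that is short exact at the point with a free quotient splits at the point -/
theorem exists_split [IsNoetherian R A] [IsNoetherian R B] {n : ℕ} (hC : FreeAt z C n)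
    {f : A →ₗ[R] B} {g : B →ₗ[R] C} (h0 : ∀ a, g (f a) = 0) (h1 : InjAt z f) (h2 : ExAt z f g)
    (h3 : SurjAt z g) : ∃ (r : R) (s : C →ₗ[R] B) (t : B →ₗ[R] A), z r ≠ 0 ∧
      (∀ c, g (s c) = r • c) ∧ (∀ a, t (f a) = r • a) ∧ (∀ c, t (s c) = 0) ∧
      ∀ b, f (t b) + s (g b) = r • b := by
  obtain ⟨r1, s, k1, k2⟩ := hC.lift (u := LinearMap.id) h3
  obtain ⟨r2, k3, k4⟩ := h1.unif
  obtain ⟨r3, k5, k6⟩ := h2.unif
  have k7 : ∀ b, ∃ a, f a = r3 • (r1 • LinearMap.id - s ∘ₗ g : B →ₗ[R] B) b :=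
    fun b => k6 _ (by simp [k2])
  obtain ⟨t, ht⟩ := exists_lift k4 k7
  refine ⟨r2 * r3 * r1, (r2 * r3) • s, t, ev_mul (ev_mul k3 k5) k1, fun c => ?_, fun a => ?_,
    fun c => ?_, fun b => ?_⟩
  · simp [k2, mul_smul]
  · rw [ht (f a) ((r3 * r1) • a) (by simp [h0, mul_smul]), smul_smul, mul_assoc]
  · rw [LinearMap.smul_apply, map_smul, ht (s c) 0 (by simp [k2]), smul_zero, smul_zero]
  · obtain ⟨a, ha⟩ := k7 b
    rw [ht b a ha, map_smul, ha]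
    simp [smul_sub, mul_smul]

theorem isoAt_of_split {f : A →ₗ[R] B} {g : B →ₗ[R] C} (h0 : ∀ a, g (f a) = 0) {r : R}
    {s : C →ₗ[R] B} {t : B →ₗ[R] A} (hr : z r ≠ 0) (h1 : ∀ c, g (s c) = r • c)
    (h2 : ∀ a, t (f a) = r • a) (h3 : ∀ c, t (s c) = 0) (h4 : ∀ b, f (t b) + s (g b) = r • b) :
    IsoAt z (f.coprod s) :=
  ⟨r, t.prod g, hr, fun a => by ext <;> simp [h0, h1, h2, h3], fun b => by simp [h4]⟩

/-- an extension of free modules is free -/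
theorem FreeAt.mid [IsNoetherian R A] [IsNoetherian R B] {m n : ℕ} (hA : FreeAt z A m)
    (hC : FreeAt z C n) {f : A →ₗ[R] B} {g : B →ₗ[R] C} (h0 : ∀ a, g (f a) = 0) (h1 : InjAt z f)
    (h2 : ExAt z f g) (h3 : SurjAt z g) : FreeAt z B (m + n) := by
  obtain ⟨r, s, t, k0, k1, k2, k3, k4⟩ := exists_split hC h0 h1 h2 h3
  exact (hA.prod hC).of_isoAt (isoAt_of_split h0 k0 k1 k2 k3 k4)

theorem isoAt_of_surjAt [IsNoetherianRing R] [Module.Finite R A] [Module.Finite R B] {n : ℕ}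
    (hA : FreeAt z A n) (hB : FreeAt z B n) {f : A →ₗ[R] B} (h : SurjAt z f) : IsoAt z f := by
  obtain ⟨e, he⟩ := hA
  obtain ⟨e', he'⟩ := hB
  obtain ⟨_, u, -, -, -, hu⟩ := he'.symm
  exact isoAt_of (InjAt.of_comp_surj
    (InjAt.of_surjAt_end (hu.surjAt.comp (h.comp he.surjAt))).of_comp he.surjAt) h

/-- the properties are open -/
theorem IsoAt.nhd {f : A →ₗ[R] B} (h : IsoAt z f) :
    ∃ r, z r ≠ 0 ∧ ∀ z' : R →ₐ[ℂ] ℂ, z' r ≠ 0 → IsoAt z' f :=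
  h.imp fun r ⟨g, h1, h2⟩ => ⟨h1, fun _ h' => ⟨r, g, h', h2⟩⟩

theorem FreeAt.nhd {n : ℕ} (h : FreeAt z A n) :
    ∃ r, z r ≠ 0 ∧ ∀ z' : R →ₐ[ℂ] ℂ, z' r ≠ 0 → FreeAt z' A n :=
  h.elim fun e he => he.nhd.imp fun _ h => ⟨h.1, fun z' h' => ⟨e, h.2 z' h'⟩⟩

theorem SurjAt.nhd [Module.Finite R B] {f : A →ₗ[R] B} (h : SurjAt z f) :
    ∃ r, z r ≠ 0 ∧ ∀ z' : R →ₐ[ℂ] ℂ, z' r ≠ 0 → SurjAt z' f :=
  h.unif.imp fun r h => ⟨h.1, fun _ h' b => (h.2 b).elim fun a ha => ⟨r, a, h', ha⟩⟩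

theorem InjAt.nhd [IsNoetherian R A] {f : A →ₗ[R] B} (h : InjAt z f) :
    ∃ r, z r ≠ 0 ∧ ∀ z' : R →ₐ[ℂ] ℂ, z' r ≠ 0 → InjAt z' f :=
  h.unif.imp fun r h => ⟨h.1, fun _ h' a ha => ⟨r, h', h.2 a ha⟩⟩

theorem ZeroAt.nhd [Module.Finite R A] (h : ZeroAt z A) :
    ∃ r, z r ≠ 0 ∧ ∀ z' : R →ₐ[ℂ] ℂ, z' r ≠ 0 → ZeroAt z' A :=
  h.unif.imp fun r h => ⟨h.1, fun _ h' a => ⟨r, h', h.2 a⟩⟩

/-- over a domain the rank does not depend on the point -/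
theorem FreeAt.rank_le [IsDomain R] {z' : R →ₐ[ℂ] ℂ} {m n : ℕ} (h : FreeAt z A m)
    (h' : FreeAt z' A n) : m ≤ n := by
  obtain ⟨e, r, u, h1, h2, -⟩ := h
  obtain ⟨e', s, u', k1, -, k3⟩ := h'
  refine le_of_fin_injective R (u' ∘ₗ e) ((injective_iff_map_eq_zero _).2 fun v hv => ?_)
  have h4 : s • r • v = 0 := by
    rw [← h2, ← map_smul, ← k3, ← LinearMap.comp_apply u', hv, map_zero, map_zero]
  have r0 : r ≠ 0 := fun e => h1 (by rw [e, map_zero])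
  have s0 : s ≠ 0 := fun e => k1 (by rw [e, map_zero])
  exact (smul_eq_zero.1 ((smul_eq_zero.1 h4).resolve_left s0)).resolve_left r0

end Vale.Agent.P297Z
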