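import Vale.Agent.P297Z.K.AK2
import Vale.Agent.P297Z.K.Loc

/-!
# P297: pull-back and dual on K0 and G, flat maps
-/

set_option linter.all false

open scoped TensorProduct

noncomputable section

namespace Vale.Agent.P297Z

open GMod

variable {W X Y Z : Spc}

namespace AK

variable {A B C D M N : GMod X} {a b c d r : ℕ} {f : A.M →ₗ[X.R] B.M} {g : B.M →ₗ[X.R] C.M}

/-- the element `1 ⊗ x` of the pull-back -/
def pu (φ : Mor W X) (A : GMod X) : A.M →+ (φ.pull A).M :=
  (TensorProduct.mk X.R φ.Src A.M 1).toAddMonoidHom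

theorem pu_smul (φ : Mor W X) (s : X.R) (x : A.M) : pu φ A (s • x) = φ.φ s • pu φ A x := by
  show (1 : φ.Src) ⊗ₜ[X.R] (s • x) = algebraMap X.R φ.Src s • (1 : φ.Src) ⊗ₜ[X.R] x
  rw [algebraMap_smul, TensorProduct.tmul_smul]

theorem pu_act (φ : Mor W X) (t : W.J → ℂˣ) (x : A.M) :
    (φ.pull A).act t (pu φ A x) = pu φ A (A.act (tor φ.ρ t) x) := pull_act_one φ A t x

theorem pu_cmul (φ : Mor W X) (c : ℂ) (x : A.M) : pu φ A (c • x) = c • pu φ A x := by
  rw [← algebraMap_smul X.R, pu_smul, AlgHom.commutes, algebraMap_smul]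

theorem pu_wt (φ : Mor W X) {γ : X.J → ℤ} {x : A.M} (h : x ∈ A.wt γ) :
    pu φ A x ∈ (φ.pull A).wt (φ.ρ γ) := fun t => by
  rw [pu_act, h, pu_cmul, chr_tor]

/-- the pull-back of a map -/
def pm (φ : Mor W X) (f : A.M →ₗ[X.R] B.M) : (φ.pull A).M →ₗ[W.R] (φ.pull B).M :=
  f.baseChange φ.Src

theorem pm_pu (φ : Mor W X) (f : A.M →ₗ[X.R] B.M) (x : A.M) :
    pm φ f (pu φ A x) = pu φ B (f x) := rfl

theorem pu_ind {φ : Mor W X} {P : (φ.pull A).M → Prop} (h0 : P 0)
    (h1 : ∀ x : A.M, P (pu φ A x)) (hs : ∀ (s : W.R) m, P m → P (s • m))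
    (ha : ∀ x y, P x → P y → P (x + y)) (m : (φ.pull A).M) : P m :=
  pull_induction h0 h1 hs ha m

theorem pu_ext {φ : Mor W X} {V : Type} [AddCommGroup V] [Module W.R V]
    {F F' : (φ.pull A).M →ₗ[W.R] V} (h : ∀ x, F (pu φ A x) = F' (pu φ A x)) (m : (φ.pull A).M) :
    F m = F' m := by
  induction m using pu_ind with
  | h0 => rw [map_zero, map_zero]
  | h1 x => exact h x
  | hs s m hm => rw [map_smul, map_smul, hm]
  | ha x y hx hy => rw [map_add, map_add, hx, hy]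

theorem isHom_pu {φ : Mor W X} {N : GMod W} {F : (φ.pull A).M →ₗ[W.R] N.M}
    (h : ∀ t x, F (pu φ A (A.act (tor φ.ρ t) x)) = N.act t (F (pu φ A x))) :
    (φ.pull A).IsHom N F := isHom_pull h

/-- the universal property of the pull-back -/
theorem exists_plift (φ : Mor W X) (A : GMod X) {V : Type} [AddCommGroup V] [Module W.R V]
    (F : A.M →+ V) (hF : ∀ s x, F (s • x) = φ.φ s • F x) :
    ∃ L : (φ.pull A).M →ₗ[W.R] V, ∀ x, L (pu φ A x) = F x := by
  let T : φ.Src →+ A.M →+ V :=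
    { toFun := fun s => (DistribSMul.toAddMonoidHom V (show W.R from s)).comp F
      map_zero' := AddMonoidHom.ext fun x => zero_smul W.R (F x)
      map_add' := fun s s' => AddMonoidHom.ext fun x => add_smul (show W.R from s) s' (F x) }
  let L : φ.Src ⊗[X.R] A.M →+ V := TensorProduct.liftAddHom T fun s t x => by
    show (φ.φ s * (show W.R from t)) • F x = (show W.R from t) • F (s • x)
    rw [hF, mul_comm, mul_smul]
  refine ⟨⟨⟨L, L.map_add⟩, fun s m => ?_⟩, fun x => one_smul W.R (F x)⟩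
  refine TensorProduct.induction_on (motive := fun m : φ.Src ⊗[X.R] A.M =>
    L ((show φ.Src from s) • m) = s • L m) m ?_ (fun t x => mul_smul s (show W.R from t) (F x))
    fun x y hx hy => ?_
  · rw [smul_zero, map_zero, smul_zero]
  · rw [smul_add, map_add, map_add, smul_add, hx, hy]

theorem qis_of_inv (h : A.IsHom B f) (u : B.M →ₗ[X.R] A.M) (h1 : ∀ x, u (f x) = x)
    (h2 : ∀ y, f (u y) = y) : Qis A B f :=
  ⟨h, fun _ => ⟨1, u, one_ne, fun x => by rw [h1, one_smul], fun x => by rw [h2, one_smul]⟩⟩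

theorem pull_one (φ : Mor W X) : Qis (φ.pull (one X)) (one W)
    (TensorProduct.AlgebraTensorModule.rid X.R φ.Src φ.Src).toLinearMap :=
  qis_of_equiv (A := φ.pull (one X)) (B := one W) _ (isHom_pu fun t (x : X.R) => by
    show φ.φ (X.act (tor φ.ρ t) x) * 1 = W.act t (φ.φ x * 1)
    rw [mul_one, mul_one, φ.act_map])

theorem pull_ten (φ : Mor W X) (A B : GMod X) :
    Qis (φ.pull (A.ten B)) ((φ.pull A).ten (φ.pull B))
      (TensorProduct.AlgebraTensorModule.distribBaseChange X.R φ.Src A.M B.M).toLinearMap := by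
  let F : (φ.pull (A.ten B)).M ≃ₗ[W.R] ((φ.pull A).ten (φ.pull B)).M :=
    TensorProduct.AlgebraTensorModule.distribBaseChange X.R φ.Src A.M B.M
  refine qis_of_equiv F (isHom_pu fun t m => ?_)
  refine TensorProduct.induction_on (motive := fun m : A.M ⊗[X.R] B.M =>
    F (pu φ (A.ten B) ((A.ten B).act (tor φ.ρ t) m)) =
      ((φ.pull A).ten (φ.pull B)).act t (F (pu φ (A.ten B) m))) m ?_ (fun x y => ?_)
    fun (x y : (A.ten B).M) hx hy => ?_
  · show F (pu φ _ ((A.ten B).act _ 0)) = (ten _ _).act t (F (pu φ (A.ten B) 0))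
    rw [map_zero, map_zero, map_zero, map_zero]
  · have e := congrArg₂ (fun x y => x ⊗ₜ[W.R] y) (pu_act φ t x) (pu_act φ t y)
    exact e.symm
  · show F (pu φ _ ((A.ten B).act _ (x + y))) = (ten _ _).act t (F (pu φ (A.ten B) (x + y)))
    rw [map_add, map_add, map_add, map_add, map_add, map_add, hx, hy]

theorem pull_shift (φ : Mor W X) (A : GMod X) (γ : X.J → ℤ) :
    Qis (φ.pull (A.shift γ)) ((φ.pull A).shift (φ.ρ γ)) LinearMap.id :=
  qis_of_inv (isHom_pu (A := A.shift γ) fun t (x : A.M) => by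
    show pu φ A (chr (-γ) (tor φ.ρ t) • A.act (tor φ.ρ t) x) =
      chr (-φ.ρ γ) t • (φ.pull A).act t (pu φ A x)
    rw [pu_cmul, pu_act, chr_tor, map_neg]) LinearMap.id (fun _ => rfl) fun _ => rfl

theorem pull_id (A : GMod X) : ∃ u, Qis ((Mor.id X).pull A) A u := by
  obtain ⟨L, hL⟩ := exists_plift (Mor.id X) A (AddMonoidHom.id _) fun _ _ => rfl
  refine ⟨L, qis_of_inv (isHom_pu fun t x => ?_)
    ⟨⟨pu (Mor.id X) A, map_add _⟩, pu_smul (Mor.id X)⟩ (pu_ext
      (F := LinearMap.comp ⟨⟨pu (Mor.id X) A, map_add _⟩, pu_smul (Mor.id X)⟩ L)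
      (F' := LinearMap.id) fun x => congrArg (pu (Mor.id X) A) (hL x)) hL⟩
  rw [hL, hL]
  exact congrArg (fun t => A.act t x) (tor_id t)

theorem pull_comp (ψ : Mor X Y) (φ : Mor W X) (A : GMod Y) :
    ∃ u, Qis ((ψ.comp φ).pull A) (φ.pull (ψ.pull A)) u ∧
      ∀ x, u (pu (ψ.comp φ) A x) = pu φ _ (pu ψ A x) := by
  obtain ⟨L, hL⟩ := exists_plift (ψ.comp φ) A ((pu φ _).comp (pu ψ A)) fun s x => by
    show pu φ _ (pu ψ A (s • x)) = φ.φ (ψ.φ s) • pu φ _ (pu ψ A x)
    rw [pu_smul, pu_smul]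
  obtain ⟨K, hK⟩ := exists_plift ψ A (V := φ.Res ((ψ.comp φ).pull A)) (pu (ψ.comp φ) A)
    (pu_smul (ψ.comp φ))
  obtain ⟨K', hK'⟩ := exists_plift φ (ψ.pull A) (V := ((ψ.comp φ).pull A).M) K.toAddMonoidHom
    K.map_smul
  refine ⟨L, qis_of_inv (isHom_pu fun t x => ?_) K'
    (pu_ext (F := K' ∘ₗ L) (F' := LinearMap.id) fun x => ?_)
    (pu_ext (F := L ∘ₗ K') (F' := LinearMap.id) fun y => ?_), hL⟩
  · rw [hL, hL]
    show pu φ _ (pu ψ A (A.act (tor (φ.ρ.comp ψ.ρ) t) x)) = (φ.pull _).act t (pu φ _ (pu ψ A x))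
    rw [pu_act, pu_act, tor_comp]
  · exact ((congrArg K' (hL x)).trans (hK' _)).trans (hK x)
  · show L (K' _) = pu φ _ y
    induction y using pu_ind with
    | h0 => rw [map_zero, map_zero, map_zero]
    | h1 x => exact (congrArg L ((hK' _).trans (hK x))).trans (hL x)
    | hs s m hm => rw [pu_smul, map_smul, map_smul, hm]
    | ha x y hx hy => rw [map_add, map_add, map_add, hx, hy]

theorem lc_smul {R V : Type} [CommRing R] [AddCommGroup V] [Module R V] {n : ℕ} {r : R}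
    {v : Fin n → V} {l : Fin n → V →ₗ[R] R} (h : ∀ x, ∑ i, l i x • v i = r • x)
    {U : Type} [AddCommGroup U] [Module R U] (u : V →ₗ[R] U) (x : V) :
    ∑ i, l i x • u (v i) = r • u x := by
  rw [← map_smul, ← h, map_sum]
  simp only [map_smul]

theorem lc_dual {R V : Type} [CommRing R] [AddCommGroup V] [Module R V] {n : ℕ} {r : R}
    {v : Fin n → V} {l : Fin n → V →ₗ[R] R} (h : ∀ x, ∑ i, l i x • v i = r • x)
    (u : V →ₗ[R] R) : ∑ i, u (v i) • l i = r • u := by
  ext x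
  rw [LinearMap.smul_apply, ← lc_smul h u x, LinearMap.sum_apply]
  exact Finset.sum_congr rfl fun i _ => mul_comm _ _

theorem pull_hom (φ : Mor W X) (hA : A.IsBun a) (B : GMod X) :
    ∃ u, Qis (φ.pull (A.hom B)) ((φ.pull A).hom (φ.pull B)) u := by
  obtain ⟨L, hL⟩ := exists_plift φ (A.hom B) (V := (φ.pull A).M →ₗ[W.R] (φ.pull B).M)
    { toFun := fun u : A.M →ₗ[X.R] B.M => pm φ u
      map_zero' := LinearMap.ext (pu_ext fun x => map_zero (pu φ B))
      map_add' := fun (u v : A.M →ₗ[X.R] B.M) =>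
        LinearMap.ext (pu_ext fun x => map_add (pu φ B) (u x) (v x)) }
    fun s (u : A.M →ₗ[X.R] B.M) => LinearMap.ext (pu_ext fun x => pu_smul φ s (u x))
  replace hL : ∀ (u : (A.hom B).M) x, L (pu φ (A.hom B) u) (pu φ A x) =
      pu φ B ((show A.M →ₗ[X.R] B.M from u) x) := fun u x => LinearMap.congr_fun (hL u) _
  refine ⟨L, isHom_pu fun t u => LinearMap.ext (pu_ext fun x => ?_), fun z => ?_⟩
  · refine (hL _ x).trans ?_
    show _ = (φ.pull B).act t (L (pu φ (A.hom B) u) ((φ.pull A).act t⁻¹ (pu φ A x)))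
    rw [pu_act, hL, pu_act, tor_inv]
    rfl
  obtain ⟨r, v, l, hr, h, -⟩ := free_basis (hA (φ.onPt z))
  let S : Fin a → (φ.pull B).M →ₗ[W.R] (φ.pull (A.hom B)).M := fun i =>
    pm (B := A.hom B) φ (LinearMap.smulRightₗ (l i))
  have hS : ∀ i y x, L (S i y) (pu φ A x) = φ.φ (l i x) • y := fun i y x => by
    induction y using pu_ind with
    | h0 => rw [map_zero, map_zero, smul_zero, LinearMap.zero_apply]
    | h1 y => exact (hL ((l i).smulRight y) x).trans (pu_smul φ _ y)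
    | hs s m hm => rw [map_smul, map_smul, LinearMap.smul_apply, hm, smul_comm]
    | ha x y hx hy => rw [map_add, map_add, LinearMap.add_apply, hx, hy, smul_add]
  let G : ((φ.pull A).M →ₗ[W.R] (φ.pull B).M) →ₗ[W.R] (φ.pull (A.hom B)).M :=
    ∑ i, S i ∘ₗ LinearMap.applyₗ (pu φ A (v i))
  have hG : ∀ u, G u = ∑ i, S i (u (pu φ A (v i))) := fun u => LinearMap.sum_apply _ _ _
  have h1 : ∀ m, G (L m) = φ.φ r • m := fun m => by
    induction m using pu_ind with
    | h0 => rw [map_zero, map_zero, smul_zero]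
    | h1 u =>
      let u' : A.M →ₗ[X.R] B.M := u
      have e : ∀ i, S i (L (pu φ (A.hom B) u) (pu φ A (v i))) =
          pu φ (A.hom B) ((l i).smulRight (u' (v i))) := fun i => by rw [hL]; rfl
      have e' : ∑ i, (l i).smulRight (u' (v i)) = r • u' :=
        LinearMap.ext fun x => (LinearMap.sum_apply _ _ _).trans (lc_smul h u' x)
      exact (hG _).trans ((Finset.sum_congr rfl fun i _ => e i).trans
        ((map_sum (pu φ (A.hom B)) _ _).symm.trans
          ((congrArg (pu φ (A.hom B)) e').trans (pu_smul φ r u))))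
    | hs s m hm => rw [map_smul, map_smul, hm, smul_comm]
    | ha x y hx hy => rw [map_add, map_add, hx, hy, smul_add]
  have h2 : ∀ u, L (G u) = φ.φ r • u := fun u => LinearMap.ext (pu_ext fun x => by
    rw [hG, map_sum, LinearMap.sum_apply, LinearMap.smul_apply, ← map_smul, ← pu_smul, ← h,
      map_sum, map_sum]
    refine Finset.sum_congr rfl fun i _ => (hS i _ x).trans ?_
    rw [pu_smul, map_smul])
  exact ⟨φ.φ r, G, hr, h1, h2⟩

theorem qis_dth (hA : A.IsBun a) (M : GMod X) :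
    Qis (A.dual.ten M) (A.hom M) (dualTensorHom X.R A.M M.M) := by
  refine ⟨isHom_ten fun t (u : A.M →ₗ[X.R] X.R) y => LinearMap.ext fun x =>
    (M.act_smul t _ y).symm, fun z => ?_⟩
  obtain ⟨r, v, l, hr, h, -⟩ := free_basis (hA z)
  let F : (Module.Dual X.R A.M) ⊗[X.R] M.M →ₗ[X.R] A.M →ₗ[X.R] M.M := dualTensorHom X.R A.M M.M
  let G : (A.M →ₗ[X.R] M.M) →ₗ[X.R] (Module.Dual X.R A.M) ⊗[X.R] M.M :=
    ∑ i, TensorProduct.mk X.R _ M.M (l i) ∘ₗ LinearMap.applyₗ (v i)
  have h1 : G ∘ₗ F = r • LinearMap.id := TensorProduct.ext' fun u y => by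
    rw [LinearMap.smul_apply, LinearMap.id_apply, TensorProduct.smul_tmul', ← lc_dual h u,
      TensorProduct.sum_tmul]
    exact (LinearMap.sum_apply _ _ _).trans
      (Finset.sum_congr rfl fun i _ => (TensorProduct.smul_tmul _ _ _).symm)
  have h2 : ∀ u, F (G u) = r • u := fun u => LinearMap.ext fun x => by
    simpa [F, G] using lc_smul h u x
  exact ⟨r, G, hr, LinearMap.congr_fun h1, h2⟩

theorem qis_eval (hA : A.IsBun a) : Qis A A.dual.dual (Module.Dual.eval X.R A.M) := by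
  refine ⟨fun t x => LinearMap.ext fun (u : A.M →ₗ[X.R] X.R) => ?_, fun z => ?_⟩
  · show u (A.act t x) = X.act t (X.act t⁻¹ (u (A.act t⁻¹⁻¹ x)))
    rw [inv_inv, X.act_act_inv]
  obtain ⟨r, v, l, hr, h, -⟩ := free_basis (hA z)
  let G : ((A.M →ₗ[X.R] X.R) →ₗ[X.R] X.R) →ₗ[X.R] A.M :=
    ∑ i, (LinearMap.applyₗ (l i)).smulRight (v i)
  have h2 : ∀ w (u : A.M →ₗ[X.R] X.R), u (G w) = r • w u := fun w u => by
    rw [← map_smul, ← lc_dual h u]
    simp [G, mul_comm]
  have h1 : ∀ x, G (Module.Dual.eval X.R A.M x) = r • x := fun x =>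
    (LinearMap.sum_apply _ _ _).trans (h x)
  exact ⟨r, G, hr, h1, fun w => LinearMap.ext (h2 w)⟩

theorem qis_curry (A B C : GMod X) : Qis (A.hom (B.hom C)) ((A.ten B).hom C)
    (TensorProduct.lift.equiv (RingHom.id X.R) A.M B.M C.M).toLinearMap :=
  qis_of_equiv (A := A.hom (B.hom C)) (B := (A.ten B).hom C) _
    fun t (u : A.M →ₗ[X.R] B.M →ₗ[X.R] C.M) => TensorProduct.ext' fun x y => rfl

theorem qis_hom_line (M : GMod X) (γ : X.J → ℤ) : Qis (((one X).shift γ).hom M) (M.shift (-γ))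
    (LinearMap.ringLmapEquivSelf X.R X.R M.M).toLinearMap :=
  qis_of_equiv (A := ((one X).shift γ).hom M) (B := M.shift (-γ)) _
    fun t (u : X.R →ₗ[X.R] M.M) => by
      show M.act t (u (chr (-γ) t⁻¹ • X.act t⁻¹ 1)) = chr (- -γ) t • M.act t (u 1)
      rw [map_one, LinearMap.map_smul_of_tower, map_smul, chr_inv, chr_neg (-γ)]

theorem qis_hom_one (M : GMod X) : Qis ((one X).hom M) M
    (LinearMap.ringLmapEquivSelf X.R X.R M.M).toLinearMap :=
  qis_of_equiv (A := (one X).hom M) (B := M) _ fun t (u : X.R →ₗ[X.R] M.M) =>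
    congrArg (fun s => M.act t (u s)) (map_one (X.act t⁻¹))

theorem qis_contract (h : M.IsBun 1) :
    Qis (M.dual.ten M) (one X) (contractLeft X.R M.M) := by
  refine ⟨isHom_ten fun t (u : M.M →ₗ[X.R] X.R) y =>
    congrArg (fun y => X.act t (u y)) (M.act_inv_act t y), fun z => ?_⟩
  obtain ⟨r, v, l, hr, -, h1⟩ := free_basis (h z)
  exact isoAt_of_surjAt (A := (M.dual.ten M).M) (h.dual.ten h z) freeAt_one fun (s : X.R) =>
    ⟨r, s • (l 0 ⊗ₜ[X.R] v 0 : Module.Dual X.R M.M ⊗[X.R] M.M), hr,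
      ((contractLeft X.R M.M).map_smul s _).trans
        ((congrArg (s * ·) (h1 0 0)).trans (mul_comm _ _))⟩

theorem qis_llcomp (h : Qis A B f) (M : GMod X) :
    Qis (M.hom A) (M.hom B) (LinearMap.llcomp X.R M.M A.M B.M f) :=
  ⟨h.1.llcomp M, fun z => iso_llcomp (h.2 z)⟩

theorem K0_ind {P : K0 X → Prop} (h1 : ∀ (M : GMod X) r, M.IsBun r → P (kc M r))
    (h2 : ∀ x y, P x → P y → P (x - y)) (x : K0 X) : P x := by
  obtain ⟨A, B, rfl⟩ := K0_induction x
  exact h2 _ _ (kc_bun A ▸ h1 _ _ A.free) (kc_bun B ▸ h1 _ _ B.free)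

theorem G_ind {P : G X → Prop} (h0 : P 0) (h1 : ∀ M, P (cls M)) (h2 : ∀ x, P x → P (-x))
    (h3 : ∀ x y, P x → P y → P (x + y)) (x : G X) : P x := by
  obtain ⟨y, rfl⟩ := QuotientAddGroup.mk_surjective (s := GRel X) x
  exact FreeAbelianGroup.induction_on (motive := fun y => P (QuotientAddGroup.mk y)) y h0 h1
    (fun M h => h2 _ h) fun x y => h3 _ _

theorem flat_of_equiv (φ : Mor W X) (V : Type) [AddCommGroup V] [Module X.R V]
    [Module.Flat X.R V] (e : W.R ≃+ V) (he : ∀ r s, e (φ.φ r * s) = r • e s) :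
    Module.Flat X.R φ.Src :=
  Module.Flat.of_linearEquiv (M := V) (N := φ.Src) { e with map_smul' := he }

end AK

open AK

section K0

variable {A B C D M N : GMod X} {a b c d r : ℕ} {f : A.M →ₗ[X.R] B.M} {g : B.M →ₗ[X.R] C.M}

/-! ### pull-back -/

theorem pullK_cls (φ : Mor W X) (B : Bun X) : pullK φ B.cls = kc (φ.pull B.M) B.rk := by
  have h : ∃ ψ : K0 X →+* K0 W, ∀ B : Bun X, ψ B.cls = kc (φ.pull B.M) B.rk :=
    K0_rep _ (fun A B C f g h hr => by
        rw [hr, kc_ses (h.pull C.free φ) (A.free.pull φ) (C.free.pull φ)])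
      (fun A B => (kc_qis (pull_ten φ A.M B.M) _).trans (kc_ten (A.free.pull φ) (B.free.pull φ)))
      ((kc_qis (pull_one φ) _).trans kc_one)
  rw [pullK, dif_pos h]
  exact h.choose_spec B

theorem pullK_kc (φ : Mor W X) (h : M.IsBun r) : pullK φ (kc M r) = kc (φ.pull M) r := by
  rw [kc_eq h, pullK_cls]

theorem pullK_id (x : K0 X) : pullK (Mor.id X) x = x := by
  induction x using K0_ind with
  | h1 M r h => rw [pullK_kc _ h, kc_qis (pull_id M).choose_spec]
  | h2 x y hx hy => rw [map_sub, hx, hy]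

theorem pullK_comp (ψ : Mor X Y) (φ : Mor W X) (x : K0 Y) :
    pullK (ψ.comp φ) x = pullK φ (pullK ψ x) := by
  induction x using K0_ind with
  | h1 M r h => rw [pullK_kc _ h, pullK_kc _ h, pullK_kc _ (h.pull ψ),
      kc_qis (pull_comp ψ φ M).choose_spec.1]
  | h2 x y hx hy => rw [map_sub, map_sub, map_sub, hx, hy]

theorem pullK_line (φ : Mor W X) (γ : X.J → ℤ) : pullK φ (line X γ) = line W (φ.ρ γ) :=
  (pullK_kc φ ((isBun_one X).shift γ)).trans
    ((kc_qis (pull_shift φ (one X) γ) 1).trans (kc_qis ((pull_one φ).shift (φ.ρ γ)) 1))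

theorem rk_pullK (φ : Mor W X) (x : K0 X) : rk W (pullK φ x) = rk X x := by
  induction x using K0_ind with
  | h1 M r h => rw [pullK_kc _ h, rk_kc h, rk_kc (h.pull φ)]
  | h2 x y hx hy => rw [map_sub, map_sub, map_sub, hx, hy]

theorem pullG_cls {φ : Mor W X} (h : φ.Flat) (M : GMod X) : pullG φ (cls M) = cls (φ.pull M) := by
  have h : ∃ ψ : G X →+ G W, ∀ M : GMod X, ψ (cls M) = cls (φ.pull M) :=
    G_lift _ fun _ _ _ _ _ hs => G_ses (hs.pull_flat h)
  rw [pullG, dif_pos h]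
  exact h.choose_spec M

theorem pullG_oG {φ : Mor W X} (h : φ.Flat) : pullG φ (oG X) = oG W :=
  (pullG_cls h _).trans (G_qis (pull_one φ))

theorem pullG_kact {φ : Mor W X} (h : φ.Flat) (s : K0 X) (x : G X) :
    pullG φ (kact X s x) = kact W (pullK φ s) (pullG φ x) := by
  induction s using K0_ind with
  | h1 B r hB =>
    refine DFunLike.congr_fun (G_ext (ψ := (pullG φ).comp (kact X (kc B r)))
      (ψ' := (kact W (pullK φ (kc B r))).comp (pullG φ)) fun M => ?_) x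
    rw [AddMonoidHom.comp_apply, AddMonoidHom.comp_apply, kact_kc hB, pullG_cls h, pullG_cls h,
      pullK_kc φ hB, kact_kc (hB.pull φ), G_qis (pull_ten φ B M)]
  | h2 s t hs ht =>
    rw [map_sub, map_sub, map_sub, AddMonoidHom.sub_apply, AddMonoidHom.sub_apply, map_sub, hs, ht]

theorem flat_of_module (φ : Mor W X) (h : Module.Flat X.R φ.Src) : φ.Flat := by
  intro A B u _ hu z x hx
  obtain ⟨r, hr, h1⟩ := AK.unif_fg (z := (φ.onPt z).1) (T := ⊥)
    (IsNoetherian.noetherian (LinearMap.ker u)) fun a ha => hu _ a ha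
  obtain ⟨y, rfl⟩ := (Module.Flat.lTensor_exact φ.Src (LinearMap.exact_subtype_ker_map u) x).1 hx
  refine ⟨φ.φ r, hr, ?_⟩
  show algebraMap X.R φ.Src r • (LinearMap.ker u).subtype.lTensor φ.Src y = 0
  rw [algebraMap_smul]
  clear hx
  induction y using TensorProduct.induction_on with
  | zero => rw [map_zero, smul_zero]
  | tmul s m =>
    rw [LinearMap.lTensor_tmul, ← TensorProduct.tmul_smul, Submodule.subtype_apply,
      (Submodule.mem_bot _).1 (h1 m.1 m.2), TensorProduct.tmul_zero]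
  | add x y hx hy => rw [map_add, smul_add, hx, hy, add_zero]

theorem flat_id (X : Spc) : (Mor.id X).Flat :=
  flat_of_module _ (flat_of_equiv _ X.R (AddEquiv.refl _) fun _ _ => rfl)

theorem Mor.Flat.comp {ψ : Mor X Y} {φ : Mor W X} (hψ : ψ.Flat) (hφ : φ.Flat) :
    (ψ.comp φ).Flat := by
  intro A B u hu h z
  obtain ⟨e, he, h1⟩ := pull_comp ψ φ A
  obtain ⟨e', -, h2⟩ := pull_comp ψ φ B
  have h3 : pm φ (pm ψ u) ∘ₗ e = e' ∘ₗ pm (ψ.comp φ) u := LinearMap.ext (pu_ext fun x =>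
    (congrArg (pm φ (pm ψ u)) (h1 x)).trans (h2 (u x)).symm)
  exact InjAt.of_comp (g := e') (f := pm (ψ.comp φ) u)
    (h3 ▸ InjAt.comp (hφ _ _ _ (hu.pull ψ) (hψ A B u hu h) z) (he.2 z).injAt)

theorem flat_fst (X Y : Spc) : (Mor.fst X Y).Flat :=
  flat_of_module _ (flat_of_equiv _ (X.R ⊗[ℂ] Y.R) (AddEquiv.refl _) fun r s =>
    (Algebra.smul_def r (show X.R ⊗[ℂ] Y.R from s)).symm)

theorem flat_snd (X Y : Spc) : (Mor.snd X Y).Flat :=
  flat_of_module _ (flat_of_equiv _ (Y.R ⊗[ℂ] X.R)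
    (Algebra.TensorProduct.comm ℂ X.R Y.R).toAddEquiv fun r s =>
      (map_mul (Algebra.TensorProduct.comm ℂ X.R Y.R) _ s).trans (Algebra.smul_def r _).symm)

theorem flat_adjPr (X : Spc) (ι : Type) [Fintype ι] [Nonempty ι] (d : ι → X.J → ℤ) :
    (Mor.adjPr X ι d).Flat :=
  flat_of_module _ (flat_of_equiv _ (MvPolynomial ι X.R) (AddEquiv.refl _) fun r s =>
    (Algebra.smul_def r (show MvPolynomial ι X.R from s)).symm)

theorem pullG_id (x : G X) : pullG (Mor.id X) x = x :=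
  DFunLike.congr_fun (G_ext (ψ' := AddMonoidHom.id _) fun M =>
    (pullG_cls (flat_id X) M).trans (G_qis (pull_id M).choose_spec)) x

theorem pullG_comp {ψ : Mor X Y} {φ : Mor W X} (hψ : ψ.Flat) (hφ : φ.Flat) (x : G Y) :
    pullG (ψ.comp φ) x = pullG φ (pullG ψ x) :=
  DFunLike.congr_fun (G_ext (ψ' := (pullG φ).comp (pullG ψ)) fun M => by
    rw [AddMonoidHom.comp_apply, pullG_cls (hψ.comp hφ), pullG_cls hψ, pullG_cls hφ,
      G_qis (pull_comp ψ φ M).choose_spec.1]) x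

/-! ### duals -/

theorem dualK_cls (B : Bun X) : dualK X B.cls = kc B.M.dual B.rk := by
  have h : ∃ ψ : K0 X →+* K0 X, ∀ B : Bun X, ψ B.cls = kc B.M.dual B.rk :=
    K0_rep _ (fun A B C f g h hr => by
        rw [hr, add_comm A.rk, kc_ses (h.dual C.free) C.free.dual A.free.dual, add_comm])
      (fun A B => (kc_qis ((qis_dth A.free _).comp (qis_curry A.M B.M (one X))) _).symm.trans
        (kc_ten A.free.dual B.free.dual))
      ((kc_qis (qis_hom_one (one X)) _).trans kc_one)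
  rw [dualK, dif_pos h]
  exact h.choose_spec B

theorem dualK_kc (h : M.IsBun r) : dualK X (kc M r) = kc M.dual r := by
  rw [kc_eq h, dualK_cls]

theorem dualK_dualK (x : K0 X) : dualK X (dualK X x) = x := by
  induction x using K0_ind with
  | h1 M r h => rw [dualK_kc h, dualK_kc h.dual, kc_qis (qis_eval h)]
  | h2 x y hx hy => rw [map_sub, map_sub, hx, hy]

theorem dualK_line (γ : X.J → ℤ) : dualK X (line X γ) = line X (-γ) :=
  (dualK_kc ((isBun_one X).shift γ)).trans (kc_qis (qis_hom_line (one X) γ) 1)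

theorem rk_dualK (x : K0 X) : rk X (dualK X x) = rk X x := by
  induction x using K0_ind with
  | h1 M r h => rw [dualK_kc h, rk_kc h, rk_kc h.dual]
  | h2 x y hx hy => rw [map_sub, map_sub, map_sub, hx, hy]

theorem pullK_dualK (φ : Mor W X) (x : K0 X) : pullK φ (dualK X x) = dualK W (pullK φ x) := by
  induction x using K0_ind with
  | h1 M r h =>
    rw [dualK_kc h, pullK_kc φ h, pullK_kc φ h.dual, dualK_kc (h.pull φ)]
    exact kc_qis ((pull_hom φ h (one X)).choose_spec.comp (qis_llcomp (pull_one φ) _)) r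
  | h2 x y hx hy => rw [map_sub, map_sub, map_sub, map_sub, hx, hy]

theorem kc_mul_dual (h : M.IsBun 1) : kc M 1 * dualK X (kc M 1) = 1 := by
  rw [dualK_kc h, mul_comm, ← kc_ten h.dual h, kc_qis (qis_contract h), kc_one]

theorem kc_hom (hA : A.IsBun a) (hB : B.IsBun b) :
    kc (A.hom B) (a * b) = dualK X (kc A a) * kc B b := by
  rw [dualK_kc hA, ← kc_ten hA.dual hB, kc_qis (qis_dth hA B)]

theorem cls_hom (hA : A.IsBun a) (M : GMod X) :
    cls (A.hom M) = kact X (dualK X (kc A a)) (cls M) := by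
  rw [dualK_kc hA, kact_kc hA.dual, G_qis (qis_dth hA M)]

end K0

end Vale.Agent.P297Z
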