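import Vale.Agent.P297Z.K.PartT
import Vale.Agent.P297Z.K.Prj

/-!
# P297: base change of the parts
-/

set_option linter.all false

open scoped TensorProduct

noncomputable section

namespace Vale.Agent.P297Z

variable {W X Y Z : Spc}

/-- a cartesian square -/
structure Cart {X' Y' : Spc} (f : Mor X Y) (g : Mor Y' Y) (f' : Mor X' Y') (g' : Mor X' X) :
    Prop where
  comm : f.comp g' = g.comp f'
  bij : ∀ (A : Type) [CommRing A] [Algebra ℂ A] (a : X.R →ₐ[ℂ] A) (b : Y'.R →ₐ[ℂ] A),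
    a.comp f.φ = b.comp g.φ → ∃! c : X'.R →ₐ[ℂ] A, c.comp g'.φ = a ∧ c.comp f'.φ = b

theorem prod_hom_ext {A : Type} [CommRing A] [Algebra ℂ A] {a b : (X.prod Y).R →ₐ[ℂ] A}
    (h1 : ∀ r, a ((Mor.fst X Y).φ r) = b ((Mor.fst X Y).φ r))
    (h2 : ∀ r, a ((Mor.snd X Y).φ r) = b ((Mor.snd X Y).φ r)) : a = b :=
  Algebra.TensorProduct.ext (AlgHom.ext h1) (AlgHom.ext h2)

theorem cart_fst (g : Mor W X) (Y : Spc) :
    Cart (Mor.fst X Y) g (Mor.fst W Y) (g.map (Mor.id Y)) := by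
  refine ⟨Mor.ext' (fun r => g.map_φ_fst _ r) fun γ => g.map_ρ _ _, fun A _ _ a b h => ?_⟩
  let c : (W.prod Y).R →ₐ[ℂ] A := Algebra.TensorProduct.productMap b (a.comp (Mor.snd X Y).φ)
  have h2 : ∀ r, c ((Mor.fst W Y).φ r) = b r := fun r =>
    (Algebra.TensorProduct.productMap_left_apply _ _ r)
  have h3 : ∀ r, c ((Mor.snd W Y).φ r) = a ((Mor.snd X Y).φ r) := fun r =>
    (Algebra.TensorProduct.productMap_right_apply _ _ r)
  refine ⟨c, ⟨prod_hom_ext (fun r => ?_) fun r => ?_, AlgHom.ext h2⟩, fun c' hc =>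
    prod_hom_ext (fun r => (AlgHom.congr_fun hc.2 r).trans (h2 r).symm) fun r => ?_⟩
  · rw [AlgHom.comp_apply, Mor.map_φ_fst, h2]
    exact (AlgHom.congr_fun h r).symm
  · rw [AlgHom.comp_apply, Mor.map_φ_snd, Mor.id_φ, h3]
  · rw [h3, ← hc.1, AlgHom.comp_apply, Mor.map_φ_snd, Mor.id_φ]

namespace Cart

variable {X' Y' : Spc} {f : Mor X Y} {g : Mor Y' Y} {f' : Mor X' Y'} {g' : Mor X' X}

theorem symm (h : Cart f g f' g') : Cart g f g' f' :=
  ⟨h.comm.symm, fun A _ _ a b e => by simpa only [and_comm] using h.bij A b a e.symm⟩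

variable (h : Cart f g f' g')
include h

theorem comm_φ (r : Y.R) : g'.φ (f.φ r) = f'.φ (g.φ r) := congrArg (fun u => u.φ r) h.comm

theorem comm_ρ (γ : Y.J → ℤ) : g'.ρ (f.ρ γ) = f'.ρ (g.ρ γ) := congrArg (fun u => u.ρ γ) h.comm

theorem ring_induction {P : X'.R → Prop} (h0 : P 0) (ht : ∀ r x, P (f'.φ r * g'.φ x))
    (ha : ∀ x y, P x → P y → P (x + y)) (s : X'.R) : P s := by
  let T := (Algebra.TensorProduct.productMap f'.φ g'.φ).range
  obtain ⟨c, hc, -⟩ := h.bij T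
    (g'.φ.codRestrict T fun x => ⟨_, Algebra.TensorProduct.productMap_right_apply _ _ x⟩)
    (f'.φ.codRestrict T fun x => ⟨_, Algebra.TensorProduct.productMap_left_apply _ _ x⟩)
    (AlgHom.ext fun r => Subtype.ext (h.comm_φ r))
  have h1 : T.val.comp c = AlgHom.id ℂ _ := (h.bij _ _ _ (AlgHom.ext h.comm_φ)).unique
    ⟨by rw [AlgHom.comp_assoc, hc.1]; rfl, by rw [AlgHom.comp_assoc, hc.2]; rfl⟩ ⟨rfl, rfl⟩
  obtain ⟨t, ht'⟩ := (c s).2
  rw [← show _ = s from ht'.trans (AlgHom.congr_fun h1 s)]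
  clear ht'
  induction t using TensorProduct.induction_on with
  | zero => rwa [map_zero]
  | tmul r x => exact ht r x
  | add x y hx hy => rw [map_add]; exact ha _ _ hx hy

theorem induction (M : GMod X) {P : (g'.pull M).M → Prop} (h0 : P 0)
    (ht : ∀ r m, P (g'.tm M (f'.φ r) m)) (ha : ∀ x y, P x → P y → P (x + y))
    (x : (g'.pull M).M) : P x :=
  g'.pull_induction M h0 (fun s m => h.ring_induction (P := fun s => P (g'.tm M s m))
    (by rw [g'.tm_zero_left]; exact h0) (fun r x => by rw [mul_comm, ← g'.tm_smul]; exact ht _ _)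
    (fun x y hx hy => by rw [g'.tm_add_left]; exact ha _ _ hx hy) s) ha x

theorem exists_lift (M : GMod X) {T : Type} [AddCommGroup T] (B : Y'.R →+ M.M →+ T)
    (hB : ∀ y r m, B (g.φ y * r) m = B r (f.φ y • m)) :
    ∃ Ψ : (g'.pull M).M →+ T, ∀ r m, Ψ (g'.tm M (f'.φ r) m) = B r m := by
  let a : X.R →ₐ[ℂ] g.Src ⊗[Y.R] f.Src :=
    (Algebra.TensorProduct.includeRight : f.Src →ₐ[Y.R] g.Src ⊗[Y.R] f.Src).restrictScalars ℂ
  let b : Y'.R →ₐ[ℂ] g.Src ⊗[Y.R] f.Src :=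
    (Algebra.TensorProduct.includeLeft : g.Src →ₐ[ℂ] g.Src ⊗[Y.R] f.Src)
  obtain ⟨c, ⟨h1, h2⟩, -⟩ := h.bij _ a b (AlgHom.ext fun r =>
    (Algebra.TensorProduct.tmul_one_eq_one_tmul (A := g.Src) (B := f.Src) r).symm)
  let ν : Y'.R →+ X.R →+ M.M →+ T :=
    AddMonoidHom.mk' (fun r => (AddMonoidHom.compHom (B r)).comp (smulAddHom X.R M.M))
      fun r r' => by rw [map_add, map_add, AddMonoidHom.add_comp]
  let μ : g.Src ⊗[Y.R] f.Src →+ M.M →+ T := TensorProduct.liftAddHom (R := Y.R) ν fun y r x =>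
    AddMonoidHom.ext fun m => (hB y r _).trans (congrArg (B r) (mul_smul (f.φ y) _ m).symm)
  have hμ : ∀ (r : Y'.R) (x : X.R) (m : M.M), μ (g.toSrc r ⊗ₜ f.toSrc x) m = B r (x • m) :=
    fun _ _ _ => rfl
  refine ⟨g'.pullLift M (μ.comp c.toRingHom.toAddMonoidHom) fun x s m => ?_, fun r m => ?_⟩
  · change μ (c (g'.φ x * s)) m = μ (c s) (x • m)
    rw [map_mul, show c (g'.φ x) = a x from AlgHom.congr_fun h1 x]
    induction c s using TensorProduct.induction_on with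
    | zero => simp
    | add s t hs ht => simp only [mul_add, map_add, AddMonoidHom.add_apply, hs, ht]
    | tmul r y =>
      obtain ⟨r, rfl⟩ := g.toSrc.surjective r
      obtain ⟨y, rfl⟩ := f.toSrc.surjective y
      have : a x * g.toSrc r ⊗ₜ f.toSrc y = g.toSrc r ⊗ₜ f.toSrc (x * y) :=
        (Algebra.TensorProduct.tmul_mul_tmul _ _ _ _).trans (by rw [one_mul]; rfl)
      rw [this, hμ, hμ, mul_comm, mul_smul]
  · rw [g'.pullLift_tm]
    change μ (c (f'.φ r)) m = _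
    rw [show c (f'.φ r) = b r from AlgHom.congr_fun h2 r]
    exact (hμ r 1 m).trans (by rw [one_smul])

omit h in
theorem tm_mem_wtE (P : Prj f) (P' : Prj f') (τ : (P.E → ℤ) ≃+ (P'.E → ℤ))
    (hτ : ∀ δ, P'.π (g'.ρ δ) = τ (P.π δ)) (M : GMod X) (r : Y'.R) {k : P.E → ℤ} {m : M.M}
    (hm : m ∈ wt (P.actE M) k) : g'.tm M (f'.φ r) m ∈ wt (P'.actE (g'.pull M)) (τ k) := fun t => by
  have h1 : M.act (tor P.π (tor τ.toAddMonoidHom t)) m = _ := hm _
  have h2 : tor f'.ρ (tor P'.π t) = 1 := chr_ext fun γ => by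
    rw [chr_tor, chr_tor, P'.π_ρ, chr_zero, chr_one]
  have h3 : tor g'.ρ (tor P'.π t) = tor P.π (tor τ.toAddMonoidHom t) := chr_ext fun γ => by
    rw [chr_tor, chr_tor, chr_tor, chr_tor, hτ]
    rfl
  show (g'.pull M).act (tor P'.π t) _ = _
  rw [g'.act_tm, ← f'.act_map, h2, Y'.act_one, h3, h1, g'.tm_csmul, chr_tor]
  rfl

theorem part' (P : Prj f) (P' : Prj f') (τ : (P.E → ℤ) ≃+ (P'.E → ℤ))
    (hτ : ∀ δ, P'.π (g'.ρ δ) = τ (P.π δ)) (M : GMod X) (δ : X.J → ℤ) :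
    ∃ e : (g.pull (P.piece δ M)).M ≃ₗ[Y'.R] (P'.piece (g'.ρ δ) (g'.pull M)).M,
      GMod.IsHom _ _ e.toLinearMap ∧ ∀ r n, P'.val ((P'.toPiece _ _).symm
        (e (g.tm _ r (P.toPiece δ M n)))) = g'.tm M (f'.φ r) (P.val n) := by
  have hw : ∀ (r : Y'.R) (n : (P.part (P.π δ) M).M), g'.tm M (f'.φ r) (P.val n) ∈
      wt (P'.actE (g'.pull M)) (P'.π (g'.ρ δ)) := fun r n =>
    hτ δ ▸ tm_mem_wtE P P' τ hτ M r (P.val_mem n)
  let u₀ : (g.pull (P.piece δ M)).M →+ (P'.part (P'.π (g'.ρ δ)) (g'.pull M)).M :=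
    g.pullLift _ (AddMonoidHom.mk' (fun r => AddMonoidHom.mk'
      (fun n => P'.el _ (hw r ((P.toPiece δ M).symm n))) fun n n' => P'.val_inj (by
        simp only [map_add, Prj.val_el, g'.tm_add])) fun r r' =>
      AddMonoidHom.ext fun n => P'.val_inj (by
        simp only [map_add, AddMonoidHom.add_apply, AddMonoidHom.mk'_apply, Prj.val_el,
          g'.tm_add_left])) fun y r n => P'.val_inj (by
      simp only [AddMonoidHom.mk'_apply, Prj.val_el, map_smul, Prj.val_smul, g'.tm_smul, map_mul,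
        h.comm_φ])
  have h0 : ∀ r n, P'.val (u₀ (g.tm _ r (P.toPiece δ M n))) = g'.tm M (f'.φ r) (P.val n) :=
    fun _ _ => rfl
  have hi : ∀ {p : (g.pull (P.piece δ M)).M → Prop} (a : p 0)
      (a_1 : ∀ r n, p (g.tm _ r (P.toPiece δ M n))) (a_2 : ∀ x y, p x → p y → p (x + y)) x, p x :=
    fun h1 h2 h3 => g.pull_induction _ h1 h2 h3
  let u : (g.pull (P.piece δ M)).M →ₗ[Y'.R] (P'.part (P'.π (g'.ρ δ)) (g'.pull M)).M :=
    { u₀ with
      map_smul' := fun s x => P'.val_inj (by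
        change P'.val (u₀ (s • x)) = P'.val (s • u₀ x)
        induction x using hi with
        | a => simp
        | a_1 r n => rw [g.smul_tm, h0, P'.val_smul, h0, g'.smul_tm, map_mul]
        | a_2 x y hx hy => simp only [smul_add, map_add, hx, hy]) }
  let p : M.M →+ (P.piece δ M).M := AddMonoidHom.mk'
    (fun m => P.toPiece δ M (P.el _ (cmp_mem (P.spanE M) (P.π δ) m))) fun m m' => by
      rw [← map_add]
      exact congrArg _ (P.val_inj (by simp only [map_add, Prj.val_el]))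
  have hb : Function.Bijective u := by
    constructor
    · obtain ⟨Ψ, hΨ⟩ := h.exists_lift M (T := (g.pull (P.piece δ M)).M)
        (AddMonoidHom.mk' (fun r => (AddMonoidHom.mk' (g.tm _ r) (g.tm_add _ r)).comp p)
          fun r r' => AddMonoidHom.ext fun m => g.tm_add_left _ _ _ _) fun y r m => by
        change g.tm _ _ (p m) = g.tm _ r (p _)
        rw [← g.tm_smul]
        exact congrArg _ (Subtype.ext (P.cmpE_smul M _ y m).symm)
      refine Function.LeftInverse.injective (g := fun x => Ψ (P'.val x)) fun x => ?_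
      change Ψ (P'.val (u₀ x)) = x
      induction x using hi with
      | a => simp
      | a_1 r n =>
        rw [h0, hΨ]
        exact congrArg (g.tm _ r) (Subtype.ext (cmp_of_mem (P.spanE M) (P.val_mem n)))
      | a_2 x y hx hy => simp only [map_add, hx, hy]
    · have key : ∀ x, ∃ y, P'.val (u₀ y) = cmp (P'.spanE (g'.pull M)) (P'.π (g'.ρ δ)) x := by
        refine h.induction M ⟨0, by simp⟩ (fun r m => ⟨g.tm _ r (p m), (h0 _ _).trans ?_⟩) ?_
        · rw [hτ]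
          exact map_cmp (P.spanE M) _ (AddMonoidHom.mk' (g'.tm M (f'.φ r)) (g'.tm_add M _)) τ
            τ.injective (fun k m hm => tm_mem_wtE P P' τ hτ M r hm) _ m
        · rintro x y ⟨a, ha⟩ ⟨b, hb⟩
          exact ⟨a + b, by simp only [map_add, ha, hb]⟩
      intro x
      obtain ⟨y, hy⟩ := key (P'.val x)
      exact ⟨y, P'.val_inj (hy.trans (cmp_of_mem _ (P'.val_mem x)))⟩
  refine ⟨(LinearEquiv.ofBijective u hb).trans (P'.toPiece _ _), fun t x => ?_, h0⟩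
  induction x using g.pull_induction_wt with
  | h0 => simp
  | ha x y hx hy => simp only [map_add, hx, hy]
  | ht γ γ' r hr n hn =>
    obtain ⟨n, rfl⟩ := (P.toPiece δ M).surjective n
    have h1 := g'.tm_mem_wt M (f'.wt_map _ _ hr) (P.toPiece_mem_wt.1 hn)
    rw [map_add, h.comm_ρ, ← add_assoc, ← map_add, ← h0, ← P'.toPiece_mem_wt] at h1
    rw [g.tm_mem_wt _ hr hn t, LinearMap.map_smul_of_tower]
    exact (h1 t).symm

theorem part (P : Prj f) (P' : Prj f') (τ : (P.E → ℤ) ≃+ (P'.E → ℤ))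
    (hτ : ∀ δ, P'.π (g'.ρ δ) = τ (P.π δ)) (M : GMod X) (δ : X.J → ℤ) :
    ∃ e : (g.pull (P.piece δ M)).M ≃ₗ[Y'.R] (P'.piece (g'.ρ δ) (g'.pull M)).M,
      GMod.IsHom _ _ e.toLinearMap :=
  (h.part' P P' τ hτ M δ).imp fun _ h => h.1

end Cart

theorem cart_map (f : Mor X Y) (W : Spc) :
    Cart f (Mor.fst Y W) (f.map (Mor.id W)) (Mor.fst X W) := (cart_fst f W).symm

end Vale.Agent.P297Z
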