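import Vale.Agent.P297Z.K.Fstar
import Vale.Agent.P297Z.K.Cart
import Vale.Agent.P297Z.K.AK3

/-!
# P297: base change, the Euler characteristic
-/

set_option linter.all false

open scoped TensorProduct

noncomputable section

namespace Vale.Agent.P297Z

variable {V W X Y Z : Spc}

theorem cls_piece {f : Mor X Y} (P : Prj f) (M : GMod X) (γ : Y.J → ℤ) (k : P.E → ℤ) :
    cls (P.piece (f.ρ γ + P.σ k) M) = kact Y (line Y γ) (cls (P.part k M)) := by
  rw [kact_line, Prj.piece, P.π_add, P.ret_add]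

/-- flat base change -/
theorem push_bc {X' Y' : Spc} {f : Mor X Y} {g : Mor Y' Y} {f' : Mor X' Y'} {g' : Mor X' X}
    (h : Cart f g f' g') (hg : g.Flat) (hg' : g'.Flat) (P : Prj f) (P' : Prj f')
    (τ : (P.E → ℤ) ≃+ (P'.E → ℤ)) (hτ : ∀ δ, P'.π (g'.ρ δ) = τ (P.π δ))
    (hm : ∀ l, ∃ k₀, ∀ k, k₀ ≤ k → l ≤ τ k) (x : G X) :
    push P' (pullG g' x) = pullG g (push P x) := by
  refine DFunLike.congr_fun (push_ext P (α := (push P').comp (pullG g'))
    (β := (pullG g).comp (push P)) fun M => ?_) x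
  obtain ⟨k₁, h1⟩ := push_char P M
  obtain ⟨l, h2⟩ := push_char P' (g'.pull M)
  obtain ⟨k₂, h3⟩ := hm l
  refine ⟨k₁ ⊔ k₂, fun k hk γ => ?_⟩
  obtain ⟨e, he⟩ := h.part P P' τ hτ M (f.ρ γ + P.σ k)
  have h4 : l ≤ P'.π (g'.ρ (f.ρ γ + P.σ k)) := by
    rw [hτ, P.π_add]; exact h3 k (le_sup_right.trans hk)
  rw [AddMonoidHom.comp_apply, AddMonoidHom.comp_apply, h1 k (le_sup_left.trans hk), ← cls_piece,
    pullG_cls hg, cls_equiv e he, ← kact_line, pullG_kact hg', pullK_line, pullG_cls hg',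
    kact_line, ← P'.tot (g'.ρ (f.ρ γ + P.σ k)), h2 _ h4, cls_piece]

theorem fstar_map_fst (hX : X.IsProj) (hY : Y.IsProj) (hW : W.IsProj) (f : Mor X Y) (x : G X) :
    fstar (f.map (Mor.id W)) (pullG (Mor.fst X W) x) = pullG (Mor.fst Y W) (fstar f x) := by
  obtain ⟨P⟩ := ne_prj_gr2 hX f
  have hG := f.gr_isProj hX hY
  have e : f.map (Mor.id W) = (f.gr2.map (Mor.id W)).comp (f.sec.map (Mor.id W)) := by
    rw [Mor.map_map, f.gr2_sec, Mor.comp_id]
  have h1 : (f.gr1.map (Mor.id W)).comp (f.sec.map (Mor.id W)) = Mor.id _ := by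
    rw [Mor.map_map, f.gr1_sec, Mor.comp_id, Mor.map_id]
  have h2 : ((f.sec.map (Mor.id W)).comp (f.gr1.map (Mor.id W))).Homot (Mor.id _) := by
    rw [Mor.map_map, Mor.comp_id, ← Mor.map_id]
    exact (f.sec_gr1 hY).map (Mor.Homot.refl _)
  rw [e, fstar_comp (hX.prod hW) (hG.prod hW) (hY.prod hW),
    fstar_inv (hX.prod hW) (hG.prod hW) h1 h2,
    ← pullG_comp (flat_fst X W) (flat_of_inv (hX.prod hW) (hG.prod hW) h1 h2), Mor.fst_map,
    pullG_comp (flat_gr1 hX hY f) (flat_fst _ W), fstar_push (hG.prod hW) (hY.prod hW) (P.mapId W),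
    fstar_eq P]
  exact push_bc (cart_map f.gr2 W) (flat_fst Y W) (flat_fst _ W) P (P.mapId W) (AddEquiv.refl _)
    (fun _ => rfl) (fun l => ⟨l, fun _ h => h⟩) _

theorem swap_homot (X Y : Spc) : ((Mor.swap X Y).comp (Mor.swap Y X)).Homot (Mor.id _) := by
  rw [Mor.swap_swap]; exact Mor.Homot.refl _

theorem fstar_swap (hX : X.IsProj) (hY : Y.IsProj) :
    fstar (Mor.swap X Y) = pullG (Mor.swap Y X) :=
  fstar_inv (hX.prod hY) (hY.prod hX) Mor.swap_swap (swap_homot X Y)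

theorem flat_swap (hX : X.IsProj) (hY : Y.IsProj) : (Mor.swap X Y).Flat :=
  flat_of_inv (hY.prod hX) (hX.prod hY) Mor.swap_swap (swap_homot Y X)

theorem fstar_map_snd (hX : X.IsProj) (hY : Y.IsProj) (hW : W.IsProj) (f : Mor X Y) (x : G X) :
    fstar ((Mor.id W).map f) (pullG (Mor.snd W X) x) = pullG (Mor.snd W Y) (fstar f x) := by
  have e : (Mor.id W).map f = (Mor.swap Y W).comp ((f.map (Mor.id W)).comp (Mor.swap W X)) := by
    rw [Mor.swap, Mor.swap, Mor.map_lift, Mor.lift_comp, Mor.fst_lift, Mor.snd_lift, Mor.map]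
  have e1 : (Mor.snd W X).comp (Mor.swap X W) = Mor.fst X W := Mor.snd_lift _ _
  have e2 : (Mor.fst Y W).comp (Mor.swap W Y) = Mor.snd W Y := Mor.fst_lift _ _
  rw [e, fstar_comp (hW.prod hX) (hY.prod hW) (hW.prod hY),
    fstar_comp (hW.prod hX) (hX.prod hW) (hY.prod hW), fstar_swap hW hX, fstar_swap hY hW,
    ← pullG_comp (flat_snd W X) (flat_swap hX hW), e1, fstar_map_fst hX hY hW,
    ← pullG_comp (flat_fst Y W) (flat_swap hW hY), e2]

namespace BC

/-- the point of the point -/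
def pt0 : (Spc.pt Empty).Pt := ⟨AlgHom.id ℂ ℂ, (1 : ℂ), trivial, one_ne_zero (α := ℂ)⟩

theorem emp {α : Type} (a b : (Spc.pt Empty).J → α) : a = b := funext fun e => Empty.elim e

theorem unit_of {r : (Spc.pt Empty).R} (h : pt0.1 r ≠ 0) : IsUnit r := IsUnit.mk0 (G₀ := ℂ) r h

theorem fin_pt (M : GMod (Spc.pt Empty)) : Module.Finite ℂ M.M :=
  haveI : Module.Finite ℂ (Spc.pt Empty).R := Module.Finite.self ℂ
  Module.Finite.trans (Spc.pt Empty).R M.M

theorem exists_chi : ∃ ψ : G (Spc.pt Empty) →+ ℤ, ∀ M, ψ (cls M) = Module.finrank ℂ M.M := by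
  refine G_lift (fun M => (Module.finrank ℂ M.M : ℤ)) fun A B C f g h => ?_
  obtain ⟨h1, h2, h3⟩ := h.2.2.2 pt0
  haveI := fin_pt B
  have a1 : Function.Injective (f.restrictScalars ℂ) :=
    (injective_iff_map_eq_zero _).2 fun a ha => by
      obtain ⟨r, hr, e⟩ := h1 a ha
      exact (unit_of hr).smul_eq_zero.1 e
  have a2 : LinearMap.ker (g.restrictScalars ℂ) = LinearMap.range (f.restrictScalars ℂ) := by
    refine le_antisymm (fun b hb => ?_) ?_
    · obtain ⟨r, a, hr, e⟩ := h2 b hb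
      obtain ⟨u, rfl⟩ := unit_of hr
      refine ⟨(↑u⁻¹ : (Spc.pt Empty).R) • a, ?_⟩
      rw [LinearMap.restrictScalars_apply, map_smul, e, smul_smul, Units.inv_mul, one_smul]
    · rintro _ ⟨a, rfl⟩
      exact h.2.2.1 a
  have a3 : LinearMap.range (g.restrictScalars ℂ) = ⊤ := eq_top_iff.2 fun c _ => by
    obtain ⟨r, b, hr, e⟩ := h3 c
    obtain ⟨u, rfl⟩ := unit_of hr
    refine ⟨(↑u⁻¹ : (Spc.pt Empty).R) • b, ?_⟩
    rw [LinearMap.restrictScalars_apply, map_smul, e, smul_smul, Units.inv_mul, one_smul]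
  rw [← LinearMap.finrank_range_add_finrank_ker (g.restrictScalars ℂ), a2, a3, finrank_top,
    LinearMap.finrank_range_of_inj a1, Nat.cast_add, add_comm]

theorem finrank_part (hX : X.IsProj) (M : GMod X) (k : X.J → ℤ) :
    Module.finrank ℂ ((Prj.toPt hX).part k M).M = Module.finrank ℂ (M.wt k) := by
  have e : LinearMap.range ((Prj.toPt hX).val (k := k) (M := M)) = M.wt k := by
    refine le_antisymm ?_ fun m hm => ⟨(Prj.toPt hX).el m ((Prj.toPt hX).mem_wtE hm), rfl⟩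
    rintro _ ⟨m, rfl⟩ g
    have h : M.act (tor (AddMonoidHom.id _) g) _ = _ := (Prj.toPt hX).val_mem m g
    rwa [tor_id] at h
  rw [← e]
  exact (LinearMap.finrank_range_of_inj (Prj.toPt hX).val_inj).symm

theorem extr_push (hX : X.IsProj) {ψ : G (Spc.pt Empty) →+ ℤ}
    (hψ : ∀ M, ψ (cls M) = Module.finrank ℂ M.M) (M : GMod X) :
    Extr (fun _ : Unit => AddMonoidHom.id ℤ) (fun k => (Module.finrank ℂ (M.wt k) : ℤ))
      (ψ (push (Prj.toPt hX) (cls M))) := by
  have h := (push_spec (Prj.toPt hX) M).map (u' := fun _ : Unit => AddMonoidHom.id ℤ) ψ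
    (fun _ => ()) fun γ a => by
      rw [emp γ 0, line_zero, kact_one]; rfl
  exact h.congr (k₀ := 0) fun k _ => (hψ _).trans (congrArg Nat.cast (finrank_part hX M k))

theorem uniq {E : Type} [DecidableEq E] [Finite E] {h : (E → ℤ) → ℤ} {a a' : ℤ}
    (h1 : Extr (fun _ : Unit => AddMonoidHom.id ℤ) h a)
    (h2 : Extr (fun _ : Unit => AddMonoidHom.id ℤ) h a') : a = a' :=
  h1.unique ⟨fun _ => Function.bijective_id, fun _ _ _ => rfl⟩ h2

theorem to_pt_eq (f g : Mor X (Spc.pt Empty)) : f = g :=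
  Mor.eq_of (fun r => (f.φ.commutes r).trans (g.φ.commutes r).symm) fun γ => by
    rw [emp γ 0, map_zero, map_zero]

end BC

open BC

theorem chiG_spec (hX : X.IsProj) (M : GMod X) : Extr (fun _ : Unit => AddMonoidHom.id ℤ)
    (fun k => (Module.finrank ℂ (M.wt k) : ℤ)) (chiG X (cls M)) := by
  obtain ⟨ψ, hψ⟩ := exists_chi
  have h : ∃ ψ : G X →+ ℤ, ∀ M : GMod X, Extr (fun _ : Unit => AddMonoidHom.id ℤ)
      (fun k => (Module.finrank ℂ (M.wt k) : ℤ)) (ψ (cls M)) :=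
    ⟨ψ.comp (push (Prj.toPt hX)), extr_push hX hψ⟩
  rw [chiG, dif_pos h]
  exact h.choose_spec M

theorem chiG_shift (hX : X.IsProj) (M : GMod X) :
    ∃ k₀, ∀ k, k₀ ≤ k → chiG X (cls (M.shift k)) = Module.finrank ℂ (M.wt k) := by
  obtain ⟨k₀, h⟩ := (chiG_spec hX M).shift
  refine ⟨k₀, fun c hc => uniq ((chiG_spec hX (M.shift c)).congr (k₀ := 0) fun k _ => ?_) (h c hc)⟩
  have e : (M.shift c).wt k = M.wt (k + c) := Submodule.ext fun _ => GMod.mem_shift_wt
  exact congrArg (fun S : Submodule ℂ M.M => (Module.finrank ℂ S : ℤ)) e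

theorem chiG_pt_cls (M : GMod (Spc.pt Empty)) : chiG _ (cls M) = Module.finrank ℂ M.M := by
  obtain ⟨k, h⟩ := chiG_shift Spc.isProj_pt M
  have h1 := h k le_rfl
  have e : M.wt 0 = ⊤ := eq_top_iff.2 fun m _ g => by
    rw [emp g 1, chr_zero, one_smul]; exact M.act_one m
  rwa [emp k 0, cls_shift_zero, e, finrank_top] at h1

theorem chiG_pt_oG : chiG (Spc.pt Empty) (oG _) = 1 :=
  (chiG_pt_cls _).trans (congrArg Nat.cast (Module.finrank_self ℂ))

theorem G_pt (x : G (Spc.pt Empty)) : x = chiG _ x • oG _ := by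
  refine G_induction (P := fun x => x = chiG _ x • oG _) (by rw [map_zero, zero_smul]) (fun M => ?_)
    (fun x h => by rw [map_neg, neg_smul, ← h]) (fun x y hx hy => by
      rw [map_add, add_smul, ← hx, ← hy]) x
  haveI := fin_pt M
  let e₀ : M.M ≃ₗ[ℂ] (GMod.pi fun _ : Fin (Module.finrank ℂ M.M) => GMod.one (Spc.pt Empty)).M :=
    (Module.finBasis ℂ M.M).equivFun
  have hs : Function.Surjective (algebraMap ℂ (Spc.pt Empty).R) := fun r => ⟨r, rfl⟩
  rw [chiG_pt_cls, cls_equiv (e₀.extendScalarsOfSurjective hs) fun g m => by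
    rw [emp g 1, GMod.act_one, GMod.act_one], cls_pi, Finset.sum_const,
    Finset.card_univ, Fintype.card_fin, natCast_zsmul, oG]

theorem chiG_toPt (hX : X.IsProj) (x : G X) :
    chiG _ (fstar (Mor.toPt X Empty 0) x) = chiG X x := by
  rw [fstar_push hX Spc.isProj_pt (Prj.toPt hX)]
  exact DFunLike.congr_fun (G_ext (ψ := (chiG _).comp (push (Prj.toPt hX))) (ψ' := chiG X)
    fun M => uniq (extr_push hX chiG_pt_cls M) (chiG_spec hX M)) x

theorem chiG_fstar (hX : X.IsProj) (hY : Y.IsProj) (f : Mor X Y) (x : G X) :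
    chiG Y (fstar f x) = chiG X x := by
  rw [← chiG_toPt hY, ← fstar_comp hX hY Spc.isProj_pt, to_pt_eq (Mor.comp _ f) (Mor.toPt X Empty 0),
    chiG_toPt hX]

theorem fstar_toPt (hX : X.IsProj) (f : Mor X (Spc.pt Empty)) (x : G X) :
    fstar f x = chiG X x • oG _ := by
  rw [G_pt (fstar f x), chiG_fstar hX Spc.isProj_pt]

theorem fstar_snd_pull (hX : X.IsProj) (hW : W.IsProj) (x : G X) :
    fstar (Mor.snd X W) (pullG (Mor.fst X W) x) = chiG X x • oG W := by
  have h0 := Spc.isProj_pt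
  have e : Mor.snd X W = (Mor.snd _ W).comp ((Mor.toPt X Empty 0).map (Mor.id W)) := by
    rw [Mor.snd_map, Mor.id_comp]
  have h1 : (Mor.lift (Mor.toPt W Empty 0) (Mor.id W)).comp (Mor.snd (Spc.pt Empty) W) =
      Mor.id _ := by
    rw [Mor.lift_comp, Mor.id_comp, to_pt_eq (Mor.comp _ _) (Mor.fst _ W), Mor.lift_fst_snd]
  rw [e, fstar_comp (hX.prod hW) (h0.prod hW) hW, fstar_map_fst hX h0 hW, fstar_toPt hX, map_zsmul,
    map_zsmul, pullG_oG (flat_fst _ W), fstar_of_inv (h0.prod hW) hW h1 (Mor.snd_lift _ _)]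

theorem fstar_fst_pull (hX : X.IsProj) (hW : W.IsProj) (x : G X) :
    fstar (Mor.fst W X) (pullG (Mor.snd W X) x) = chiG X x • oG W := by
  have h0 := Spc.isProj_pt
  have e : Mor.fst W X = (Mor.fst W _).comp ((Mor.id W).map (Mor.toPt X Empty 0)) := by
    rw [Mor.fst_map, Mor.id_comp]
  have h1 : (Mor.lift (Mor.id W) (Mor.toPt W Empty 0)).comp (Mor.fst W (Spc.pt Empty)) =
      Mor.id _ := by
    rw [Mor.lift_comp, Mor.id_comp, to_pt_eq (Mor.comp _ _) (Mor.snd W _), Mor.lift_fst_snd]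
  rw [e, fstar_comp (hW.prod hX) (hW.prod h0) hW, fstar_map_snd hX h0 hW, fstar_toPt hX, map_zsmul,
    map_zsmul, pullG_oG (flat_snd W _), fstar_of_inv (hW.prod h0) hW h1 (Mor.fst_lift _ _)]

theorem chiG_prod (hX : X.IsProj) (hW : W.IsProj) (x : G X) (b : K0 W) :
    chiG (X.prod W) (kact _ (pullK (Mor.snd X W) b) (pullG (Mor.fst X W) x)) =
      chiG X x * chiG W (kact W b (oG W)) := by
  rw [← chiG_fstar (hX.prod hW) hW (Mor.snd X W), fstar_proj (hX.prod hW) hW,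
    fstar_snd_pull hX hW, map_zsmul, map_zsmul, smul_eq_mul]

theorem chiG_prod_oG (hX : X.IsProj) (hW : W.IsProj) (a : K0 X) (b : K0 W) :
    chiG (X.prod W) (kact _ (pullK (Mor.fst X W) a * pullK (Mor.snd X W) b) (oG _)) =
      chiG X (kact X a (oG X)) * chiG W (kact W b (oG W)) := by
  rw [← chiG_prod hX hW, pullG_kact (flat_fst X W), pullG_oG (flat_fst X W), ← kact_mul, mul_comm]

end Vale.Agent.P297Z
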