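import Vale.Agent.P297Z.K.Fub

/-!
# P297: extrapolation and the push-forward on `G` (files `Rec`, `Push`, `Fub`)
-/
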