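import Vale.Agent.P297Z.K.Img
import Vale.Agent.P297Z.K.AP

/-!
# P297: the push-forward along a map of projective spaces
-/

set_option linter.all false

open scoped TensorProduct

noncomputable section

namespace Vale.Agent.P297Z

variable {V W X Y Z : Spc}

theorem ne_prj_gr2 (hX : X.IsProj) (f : Mor X Y) : Nonempty (Prj f.gr2) :=
  ⟨(Prj.snd hX Y).sub f.grS f.grS_stab⟩

theorem fstar_eq {f : Mor X Y} (P : Prj f.gr2) (x : G X) :
    fstar f x = push P (pullG f.gr1 x) := by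
  rw [fstar, dif_pos ⟨P⟩, push_indep _ P]
  rfl

theorem fstar_oG (hX : X.IsProj) (hY : Y.IsProj) {f : Mor X Y} (P : Prj f.gr2) :
    fstar f (oG X) = push P (oG f.gr) := by
  rw [fstar_eq P, pullG_oG (flat_gr1 hX hY f)]

theorem pullG_shift {f : Mor W X} (h : f.Flat) (M : GMod X) (k : X.J → ℤ) :
    pullG f (cls (M.shift k)) = cls ((f.pull M).shift (f.ρ k)) := by
  rw [← kact_line, pullG_kact h, pullK_line, pullG_cls h, kact_line]

theorem fstar_img (hX : X.IsProj) (hY : Y.IsProj) (f : Mor X Y) (M : GMod X) :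
    ∃ k₀, ∀ k, k₀ ≤ k → ∃ N, Img f (M.shift k) N ∧ fstar f (cls (M.shift k)) = cls N := by
  let P : Prj f.gr2 := (Prj.snd hX Y).sub f.grS f.grS_stab
  obtain ⟨γ₀, h1⟩ := (img_of_inv hX (f.gr_isProj hX hY) f.gr1_sec (f.sec_gr1 hY) M).comp
  obtain ⟨k₁, h2⟩ := push_char P (f.gr1.pull M)
  refine ⟨(show X.J → ℤ from k₁) ⊔ fun j => γ₀ (.inl j), fun k hk =>
    ⟨P.part k (f.gr1.pull M), ?_, ?_⟩⟩
  · have h3 := h1 Y f.gr2 (f.gr1.ρ k) _ (img_part P (f.gr1.pull M) k)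
      ⟨fun j => γ₀ (.inr j), fun δ hδ => by
        rintro (j | j)
        · exact (le_sup_right.trans hk j).trans_eq (zero_add _).symm
        · exact (hδ j).trans_eq (add_zero _).symm⟩
    rwa [inv_ρ f.gr1_sec, f.gr2_sec] at h3
  · have h3 := h2 k (le_sup_left.trans hk) 0
    rw [map_zero, zero_add, kact_line_zero] at h3
    rw [fstar_eq P, pullG_shift (flat_gr1 hX hY f)]
    exact h3

theorem G_ext_large {A : Type*} [AddCommGroup A] (hX : X.IsProj) {α β : G X →+ A}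
    (h : ∀ M : GMod X, ∃ k₀, ∀ k, k₀ ≤ k → α (cls (M.shift k)) = β (cls (M.shift k))) : α = β :=
  push_ext (Prj.toPt hX) fun M => (h M).imp fun _ e k hk _ => e _ (hk.trans_eq (zero_add k).symm)

theorem ext_along {A : Type*} [AddCommGroup A] (hY : Y.IsProj) (f : Mor X Y) (α : G X →+ A)
    (x : G X) {l₀ : Y.J → ℤ} (h : ∀ l, l₀ ≤ l → α (kact X (line X (f.ρ l)) x) = 0) : α x = 0 := by
  classical
  obtain ⟨s, h1, -, h3⟩ := hY
  refine ext_gen (Γ := Unit) 0 f.ρ (fun j => (s j).image f.φ) (fun j a ha => ?_) (fun z j => ?_) α x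
    fun l hl _ => by rw [AddMonoidHom.zero_apply, zero_add]; exact h l hl
  · obtain ⟨y, hy, rfl⟩ := Finset.mem_image.1 ha
    exact ⟨(), by rw [AddMonoidHom.zero_apply, zero_add]; exact f.wt_map _ y (h1 j y hy)⟩
  · obtain ⟨y, hy, h0⟩ := (h3 (f.onPt z).1).1 (f.onPt z).2 j
    exact ⟨_, Finset.mem_image_of_mem _ hy, h0⟩

open Classical in
/-- the correspondence of a closed subset of the product -/
def corr (S : Set (X.prod Y).Pt) (hS : (X.prod Y).Stab S) : G X →+ G Y :=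
  if h : Nonempty (Prj ((Mor.snd X Y).comp (Mor.incl _ S hS))) then
    (push h.some).comp (pullG ((Mor.fst X Y).comp (Mor.incl _ S hS))) else 0

theorem fstar_homot {f f' : Mor X Y} (h : f.Homot f') : fstar f = fstar f' := by
  have key : ∀ (S S' : Set (X.prod Y).Pt) hS hS', S = S' → corr S hS = corr S' hS' := by
    rintro S _ _ _ rfl
    rfl
  exact key _ _ f.grS_stab f'.grS_stab
    (Set.ext fun w => ⟨fun hw => (h _).symm.trans hw, fun hw => (h _).trans hw⟩)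

theorem Img.shift_shift {f : Mor X Y} {M : GMod X} {N : GMod Y} {k l : X.J → ℤ}
    (h : Img f ((M.shift k).shift l) N) : Img f (M.shift (k + l)) N := by
  have e : ∀ δ (m : M.M), m ∈ ((M.shift k).shift l).wt δ ↔ m ∈ (M.shift (k + l)).wt δ :=
    fun δ m => (GMod.mem_shift_wt (M := M.shift k)).trans (GMod.mem_shift_wt.trans (by
      rw [GMod.mem_shift_wt, add_assoc, add_comm l]))
  obtain ⟨θ, h1, h2, γ₀, h3⟩ := h
  exact ⟨θ, h1, fun γ n hn => (e _ _).1 (h2 γ n hn), γ₀, fun γ hγ =>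
    ⟨(h3 γ hγ).1, fun m hm => (h3 γ hγ).2 m ((e _ _).2 hm)⟩⟩

theorem fstar_line (hX : X.IsProj) (hY : Y.IsProj) (f : Mor X Y) (γ : Y.J → ℤ) (x : G X) :
    fstar f (kact X (line X (f.ρ γ)) x) = kact Y (line Y γ) (fstar f x) := by
  refine DFunLike.congr_fun (G_ext_large hX (α := (fstar f).comp (kact X (line X (f.ρ γ))))
    (β := (kact Y (line Y γ)).comp (fstar f)) fun M => ?_) x
  obtain ⟨k₀, h⟩ := fstar_img hX hY f M
  refine ⟨k₀ ⊔ (k₀ - f.ρ γ), fun k hk => ?_⟩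
  obtain ⟨N, h1, h2⟩ := h k (le_sup_left.trans hk)
  obtain ⟨N', h3, h4⟩ := h (k + f.ρ γ) (sub_le_iff_le_add.1 (le_sup_right.trans hk))
  rw [AddMonoidHom.comp_apply, AddMonoidHom.comp_apply, kact_line, cls_shift_shift, h4, h2,
    kact_line, h3.cls_eq hY (h1.shift γ).shift_shift]

theorem fstar_of_img (hX : X.IsProj) (hY : Y.IsProj) {f : Mor X Y}
    (hρ : ∀ k₀, ∃ γ, k₀ ≤ f.ρ γ) {M : GMod X} {N : GMod Y} (h : Img f M N) :
    fstar f (cls M) = cls N := by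
  obtain ⟨k₀, h1⟩ := fstar_img hX hY f M
  obtain ⟨γ, hγ⟩ := hρ k₀
  obtain ⟨N', h2, h3⟩ := h1 _ hγ
  apply ((tw_line Y).1 γ).1
  show kact Y (line Y γ) _ = kact Y (line Y γ) _
  rw [← fstar_line hX hY, kact_line, kact_line, h3, h2.cls_eq hY (h.shift γ)]

theorem fstar_push (hX : X.IsProj) (hY : Y.IsProj) {f : Mor X Y} (P : Prj f) :
    fstar f = push P := by
  rcases isEmpty_or_nonempty X.Pt with h | ⟨⟨z⟩⟩
  · exact AddMonoidHom.ext fun x => by rw [G_empty x, map_zero, map_zero]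
  have hm : Monotone P.π := mono_of_single _ fun j => by
    obtain ⟨a, h1, h2⟩ := hX.exists_single z j
    exact P.π_nonneg h1 fun h => h2 (by rw [h, map_zero])
  refine G_ext_large hX fun M => ?_
  obtain ⟨k₀, h1⟩ := fstar_img hX hY f M
  obtain ⟨k₁, h2⟩ := push_piece P M
  refine ⟨k₀ ⊔ P.σ k₁, fun k hk => ?_⟩
  obtain ⟨N, h3, h4⟩ := h1 k (le_sup_left.trans hk)
  rw [h4, h2 k ((P.π_σ k₁).symm.trans_le (hm (le_sup_right.trans hk))),
    h3.cls_eq hY (img_piece P M k)]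

theorem fstar_inv (hX : X.IsProj) (hY : Y.IsProj) {e : Mor X Y} {e1 : Mor Y X}
    (h1 : e1.comp e = Mor.id X) (h2 : (e.comp e1).Homot (Mor.id Y)) : fstar e = pullG e1 :=
  G_ext fun M => (fstar_of_img hX hY (fun k => ⟨e1.ρ k, (inv_ρ h1 k).ge⟩)
    (img_of_inv hX hY h1 h2 M)).trans (pullG_cls (flat_of_inv hX hY h1 h2) M).symm

theorem fstar_id (hX : X.IsProj) (x : G X) : fstar (Mor.id X) x = x := by
  rw [fstar_inv hX hX (Mor.comp_id _) (Mor.Homot.refl (Mor.id X)), pullG_id]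

theorem fstar_of_inv (hX : X.IsProj) (hY : Y.IsProj) {e : Mor X Y} {e1 : Mor Y X}
    (h1 : e1.comp e = Mor.id X) (h2 : e.comp e1 = Mor.id Y) : fstar e (oG X) = oG Y := by
  have h3 : (e.comp e1).Homot (Mor.id Y) := h2 ▸ Mor.Homot.refl _
  rw [fstar_inv hX hY h1 h3, pullG_oG (flat_of_inv hX hY h1 h3)]

theorem fstar_comp (hX : X.IsProj) (hY : Y.IsProj) (hZ : Z.IsProj) (g : Mor Y Z) (f : Mor X Y)
    (x : G X) : fstar (g.comp f) x = fstar g (fstar f x) := by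
  rcases isEmpty_or_nonempty X.Pt with h | h
  · rw [G_empty x, map_zero, map_zero, map_zero]
  haveI : Nonempty Y.Pt := h.map f.onPt
  refine DFunLike.congr_fun (G_ext_large hX (α := fstar (g.comp f))
    (β := (fstar g).comp (fstar f)) fun M => ?_) x
  obtain ⟨k₀, h1⟩ := fstar_img hX hY f M
  obtain ⟨k₁, h2⟩ := fstar_img hX hZ (g.comp f) M
  refine ⟨k₀ ⊔ k₁, fun k hk => ?_⟩
  obtain ⟨N, h3, h4⟩ := h1 k (le_sup_left.trans hk)
  obtain ⟨γ₀, h5⟩ := h3.comp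
  obtain ⟨l₀, h6⟩ := fstar_img hY hZ g N
  refine sub_eq_zero.1 (ext_along hY f (fstar (g.comp f) - (fstar g).comp (fstar f)) _
    (l₀ := 0 ⊔ (γ₀ ⊔ l₀)) fun l hl => ?_)
  obtain ⟨L, h7, h8⟩ := h6 l (le_sup_right.trans (le_sup_right.trans hl))
  obtain ⟨L', h9, h10⟩ := h2 (k + f.ρ l) ((le_sup_right.trans hk).trans
    (le_add_of_nonneg_right (f.rho_nonneg hX hY (le_sup_left.trans hl))))
  rw [AddMonoidHom.sub_apply, AddMonoidHom.comp_apply, fstar_line hX hY, h4, kact_line, kact_line,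
    h8, cls_shift_shift, h10, sub_eq_zero]
  exact h9.cls_eq hZ (h5 Z g l L h7 ⟨0, fun δ hδ =>
    (le_sup_left.trans (le_sup_right.trans hl)).trans
      (le_add_of_nonneg_left (g.rho_nonneg hY hZ hδ))⟩).shift_shift

/-- closed embeddings -/
theorem fstar_emb (hX : X.IsProj) (hY : Y.IsProj) {f : Mor X Y} (hρ : ∀ k₀, ∃ γ, k₀ ≤ f.ρ γ)
    (hs : ∃ γ₀, ∀ γ, γ₀ ≤ γ → ∀ a ∈ X.wt (f.ρ γ), ∃ r ∈ Y.wt γ, f.φ r = a) {S : Set Y.Pt}
    (hS : ∀ y, y ∈ S ↔ ∃ x, Y.Orb (f.onPt x) y) (hst : (GMod.one Y).Stab (Y.van S)) :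
    fstar f (oG X) = cls ((GMod.one Y).quo (Y.van S) hst) := by
  obtain ⟨γ₀, hs⟩ := hs
  have hp : ∀ γ, ∀ n ∈ ((GMod.one Y).quo (Y.van S) hst).wt γ, ∃ r ∈ Y.wt γ,
      (Y.van S).mkQ r = n := fun γ n hn => by
    obtain ⟨r, rfl⟩ := (Y.van S).mkQ_surjective n
    exact (GMod.isHom_mkQ (GMod.one Y) _ hst).exists_preimage hn
  let θ := (Y.van S).liftQ (f.φ : Y.R →+* X.R).toSemilinearMap fun r hr =>
    X.sep _ fun x hx => hr _ ((hS _).2 ⟨⟨x, hx⟩, Spc.Orb.refl _⟩)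
  refine fstar_of_img hX hY hρ ⟨θ.toAddMonoidHom, fun r n => θ.map_smulₛₗ r n, fun γ n hn => ?_, γ₀,
    fun γ hγ => ⟨fun n hn h0 => ?_, fun a ha => ?_⟩⟩
  · obtain ⟨r, hr, rfl⟩ := hp γ n hn
    exact f.wt_map γ r hr
  · obtain ⟨r, hr, rfl⟩ := hp γ n hn
    refine (Submodule.Quotient.mk_eq_zero _).2 fun y hy => ?_
    obtain ⟨x, hx⟩ := (hS y).1 hy
    exact by_contra fun e => (hx.ne_iff hr).2 e ((congrArg x.1 h0).trans (map_zero _))
  · obtain ⟨r, hr, rfl⟩ := hs γ hγ a ha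
    exact ⟨_, (GMod.isHom_mkQ (GMod.one Y) _ hst).map_wt hr, rfl⟩

theorem fstar_incl (hX : X.IsProj) (S : Set X.Pt) (hS : X.Stab S) :
    fstar (Mor.incl X S hS) (oG _) = cls ((GMod.one X).quo (X.van S) (Spc.van_act hS)) :=
  fstar_of_img (hX.sub S hS) hX (fun k => ⟨k, le_rfl⟩)
    ⟨AddMonoidHom.id (X.R ⧸ X.van S), fun r (n : X.R ⧸ X.van S) => by
      obtain ⟨a, rfl⟩ := Ideal.Quotient.mk_surjective n
      rfl, fun _ _ h => h, 0, fun _ _ => ⟨fun _ _ h => h, fun m hm => ⟨m, hm, rfl⟩⟩⟩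

theorem fstar_graph (hX : X.IsProj) (hY : Y.IsProj) (f : Mor X Y) :
    fstar (Mor.lift (Mor.id X) f) (oG X) =
      cls ((GMod.one (X.prod Y)).quo ((X.prod Y).van f.grS) (Spc.van_act f.grS_stab)) := by
  have hG := f.gr_isProj hX hY
  rw [← f.incl_sec]
  refine (fstar_comp hX hG (hX.prod hY) (Mor.incl _ f.grS f.grS_stab) f.sec _).trans ?_
  rw [fstar_inv hX hG f.gr1_sec (f.sec_gr1 hY), pullG_oG (flat_gr1 hX hY f)]
  exact fstar_incl (hX.prod hY) _ _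

theorem fstar_pt (hY : Y.IsProj) (f : Mor (Spc.pt Empty) Y) (z : Y.Pt) (hz : ∀ r, f.φ r = z.1 r)
    {S : Set Y.Pt} (hS : ∀ y, y ∈ S ↔ Y.Orb z y) (hst : (GMod.one Y).Stab (Y.van S)) :
    fstar f (oG _) = cls ((GMod.one Y).quo (Y.van S) hst) := by
  have e : ∀ x : (Spc.pt Empty).Pt, f.onPt x = z := fun x => Subtype.ext (AlgHom.ext fun r =>
    (congrArg x.1 (hz r)).trans (x.1.commutes (z.1 r)))
  refine fstar_emb Spc.isProj_pt hY (fun k => ⟨0, fun j => j.elim⟩) ⟨0, fun γ hγ (a : ℂ) _ => ?_⟩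
    (fun y => (hS y).trans ⟨fun h => ⟨⟨AlgHom.id ℂ ℂ, (1 : ℂ), trivial, one_ne_zero⟩,
      (e _).symm ▸ h⟩, fun ⟨x, h⟩ => e x ▸ h⟩) hst
  obtain ⟨r, hr, h0⟩ := hY.exists_ne z hγ
  refine ⟨(a / z.1 r) • r, Submodule.smul_mem _ _ hr, (hz _).trans ?_⟩
  rw [map_smul, smul_eq_mul, div_mul_cancel₀ _ h0]

end Vale.Agent.P297Z
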