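import Vale.Agent.P297Z.K.AG
import Vale.Agent.P297Z.K.Cat
import Vale.Agent.P297Z.Dim.Fib

/-!
# P297: projective spaces, orbits, graphs
-/

set_option linter.all false

open scoped TensorProduct

noncomputable section

namespace Vale.Agent.P297Z

variable {V W X Y Z : Spc}

theorem sum_single_eq {J : Type} [Fintype J] [DecidableEq J] {γ : J → ℤ} (hγ : 0 ≤ γ) :
    ∑ j, (γ j).toNat • (Pi.single j 1 : J → ℤ) = γ := by
  ext k
  rw [Finset.sum_apply, Finset.sum_eq_single k]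
  · simp [Int.toNat_of_nonneg (hγ k)]
  · intro b _ hb
    simp [Pi.single_eq_of_ne hb.symm]
  · simp

theorem finite_of_le {A : Type} [CommRing A] [Algebra ℂ A] {S T : Subalgebra ℂ A} (h : S ≤ T)
    (hS : Module.Finite S A) : Module.Finite T A := by
  obtain ⟨s, hs⟩ := Module.finite_def.1 hS
  refine Module.finite_def.2 ⟨s, Submodule.eq_top_iff'.2 fun a => ?_⟩
  have ha : a ∈ Submodule.span S (s : Set A) := hs ▸ Submodule.mem_top
  induction ha using Submodule.span_induction with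
  | mem x hx => exact Submodule.subset_span hx
  | zero => exact Submodule.zero_mem _
  | add x y _ _ hx hy => exact Submodule.add_mem _ hx hy
  | smul r x _ hx => exact Submodule.smul_mem _ (⟨r.1, h r.2⟩ : T) hx

theorem finite_map {A B : Type} [CommRing A] [Algebra ℂ A] [CommRing B] [Algebra ℂ B]
    (φ : A →ₐ[ℂ] B) {S : Subalgebra ℂ A} (hS : Module.Finite S A) {T : Subalgebra ℂ B}
    (h : ∀ a ∈ S, φ a ∈ T) : ∃ t : Finset B, ∀ a, φ a ∈ Submodule.span T (t : Set B) := by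
  classical
  obtain ⟨s, hs⟩ := Module.finite_def.1 hS
  refine ⟨s.image φ, fun a => ?_⟩
  have ha : a ∈ Submodule.span S (s : Set A) := hs ▸ Submodule.mem_top
  induction ha using Submodule.span_induction with
  | mem x hx => exact Submodule.subset_span (Finset.mem_coe.2 (Finset.mem_image_of_mem _ hx))
  | zero => rw [map_zero]; exact Submodule.zero_mem _
  | add x y _ _ hx hy => rw [map_add]; exact Submodule.add_mem _ hx hy
  | smul r x _ hx =>
    rw [Subalgebra.smul_def, smul_eq_mul, map_mul]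
    exact Submodule.smul_mem _ (⟨φ r.1, h _ r.2⟩ : T) hx

theorem map_adjoin_mem {A B : Type} [CommRing A] [Algebra ℂ A] [CommRing B] [Algebra ℂ B]
    (φ : A →ₐ[ℂ] B) {s : Set A} {t : Set B} (h : ∀ a ∈ s, φ a ∈ t) :
    ∀ a ∈ Algebra.adjoin ℂ s, φ a ∈ Algebra.adjoin ℂ t := fun a ha =>
  (Algebra.adjoin_le (S := (Algebra.adjoin ℂ t).comap φ) fun x hx =>
    Algebra.subset_adjoin (h x hx)) ha

theorem ex_image {A B : Type} [CommRing A] [Algebra ℂ A] [CommRing B] [Algebra ℂ B]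
    (φ : A →ₐ[ℂ] B) (z : B →ₐ[ℂ] ℂ) (s : Finset A) :
    (∃ y ∈ s, z.comp φ y ≠ 0) ↔ ∃ y ∈ φ '' s, z y ≠ 0 :=
  (Set.exists_mem_image (f := φ) (s := (s : Set A)) (p := fun y => z y ≠ 0)).symm

namespace Spc

theorem Orb.val {z z' : X.Pt} (h : X.Orb z z') :
    ∃ g, ∀ γ, ∀ r ∈ X.wt γ, z'.1 r = chr γ g * z.1 r := by
  obtain ⟨g, h⟩ := h
  refine ⟨g, fun γ r hr => ?_⟩
  rw [h, AlgHom.comp_apply, mem_wt.1 hr, map_smul, smul_eq_mul]

theorem orb_of_val {z z' : X.Pt} {g : X.J → ℂˣ}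
    (h : ∀ γ, ∀ r ∈ X.wt γ, z'.1 r = chr γ g * z.1 r) : X.Orb z z' :=
  ⟨g, AlgHom.ext fun r => X.induction (P := fun r => z'.1 r = z.1.comp (X.act g) r) (by simp)
    (fun γ r hr => by rw [h γ r hr, AlgHom.comp_apply, mem_wt.1 hr, map_smul, smul_eq_mul])
    (fun x y hx hy => by rw [map_add, map_add, hx, hy]) r⟩

theorem Orb.ne_iff {z z' : X.Pt} (h : X.Orb z z') {γ : X.J → ℤ} {r : X.R} (hr : r ∈ X.wt γ) :
    z.1 r ≠ 0 ↔ z'.1 r ≠ 0 := by
  obtain ⟨g, h⟩ := h.val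
  rw [h γ r hr, mul_ne_zero_iff, and_iff_right (chr_ne γ g)]

theorem IsProj.exists_single (h : X.IsProj) (z : X.Pt) (j : X.J) :
    ∃ r ∈ X.wt (Pi.single j 1), z.1 r ≠ 0 := by
  obtain ⟨s, h1, -, h3⟩ := h
  obtain ⟨y, hy, h0⟩ := (h3 z.1).1 z.2 j
  exact ⟨y, h1 j y hy, h0⟩

theorem mon_mem {y : X.J → X.R} (hy : ∀ j, y j ∈ X.wt (Pi.single j 1)) {γ : X.J → ℤ}
    (hγ : 0 ≤ γ) : ∏ j, y j ^ (γ j).toNat ∈ X.wt γ := by
  have := prod_mem Finset.univ fun j _ => pow_mem (hy j) (γ j).toNat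
  rwa [sum_single_eq hγ] at this

theorem IsProj.exists_ne (h : X.IsProj) (z : X.Pt) {γ : X.J → ℤ} (hγ : 0 ≤ γ) :
    ∃ r ∈ X.wt γ, z.1 r ≠ 0 := by
  choose y hy h0 using h.exists_single z
  refine ⟨_, mon_mem hy hγ, ?_⟩
  rw [map_prod]
  exact Finset.prod_ne_zero_iff.2 fun j _ => ev_pow (h0 j) _

theorem IsProj.free (h : X.IsProj) : X.Free := fun z => eq_top_iff.2 fun γ _ => by
  rw [← posPart_sub_negPart γ]
  exact sub_mem (AddSubgroup.subset_closure (h.exists_ne z (posPart_nonneg γ)))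
    (AddSubgroup.subset_closure (h.exists_ne z (negPart_nonneg γ)))

theorem single_inl (J J' : Type) [DecidableEq J] [DecidableEq J'] (j : J) :
    (Sum.elim (Pi.single j 1) 0 : J ⊕ J' → ℤ) = Pi.single (.inl j) 1 := by
  funext k
  rcases k with k | k <;> simp [Pi.single_apply]

theorem single_inr (J J' : Type) [DecidableEq J] [DecidableEq J'] (j : J') :
    (Sum.elim 0 (Pi.single j 1) : J ⊕ J' → ℤ) = Pi.single (.inr j) 1 := by
  funext k
  rcases k with k | k <;> simp [Pi.single_apply]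

theorem isProj_of (s : X.J → Set X.R) (hf : ∀ j, (s j).Finite)
    (h1 : ∀ j, ∀ y ∈ s j, y ∈ X.wt (Pi.single j 1))
    (h2 : Module.Finite (Algebra.adjoin ℂ (⋃ j, s j)) X.R)
    (h3 : ∀ z : X.R →ₐ[ℂ] ℂ, (∃ f ∈ X.b, z f ≠ 0) ↔ ∀ j, ∃ y ∈ s j, z y ≠ 0) : X.IsProj :=
  ⟨fun j => (hf j).toFinset, fun j y hy => h1 j y ((hf j).mem_toFinset.1 hy),
    finite_of_le (Algebra.adjoin_mono (Set.iUnion_mono fun j _ hy => (hf j).mem_toFinset.2 hy)) h2,
    fun z => (h3 z).trans (forall_congr' fun j => exists_congr fun y =>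
      and_congr_left' (hf j).mem_toFinset.symm)⟩

theorem tmul_eq (a : X.R) (b : Y.R) :
    (Mor.fst X Y).φ a * (Mor.snd X Y).φ b = (a ⊗ₜ[ℂ] b : X.R ⊗[ℂ] Y.R) := by
  show (a ⊗ₜ[ℂ] (1 : Y.R)) * ((1 : X.R) ⊗ₜ[ℂ] b) = _
  rw [Algebra.TensorProduct.tmul_mul_tmul, mul_one, one_mul]

theorem IsProj.prod (hX : X.IsProj) (hY : Y.IsProj) : (X.prod Y).IsProj := by
  obtain ⟨s, h1, h2, h3⟩ := hX
  obtain ⟨t, k1, k2, k3⟩ := hY
  let u : (X.prod Y).J → Set (X.prod Y).R :=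
    Sum.elim (fun j => (Mor.fst X Y).φ '' s j) fun j => (Mor.snd X Y).φ '' t j
  refine isProj_of u ?_ ?_ ?_ fun z => ?_
  · rintro (j | j)
    · exact (s j).finite_toSet.image _
    · exact (t j).finite_toSet.image _
  · rintro (j | j) _ ⟨a, ha, rfl⟩
    · exact single_inl X.J Y.J j ▸ (Mor.fst X Y).wt_map _ a (h1 j a ha)
    · exact single_inr X.J Y.J j ▸ (Mor.snd X Y).wt_map _ a (k1 j a ha)
  · obtain ⟨a, ha⟩ := finite_map (Mor.fst X Y).φ h2 (map_adjoin_mem _ (t := ⋃ j, u j)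
      fun a ha => by
        obtain ⟨j, hj⟩ := Set.mem_iUnion.1 ha
        exact Set.mem_iUnion.2 ⟨.inl j, a, hj, rfl⟩)
    obtain ⟨b, hb⟩ := finite_map (Mor.snd X Y).φ k2 (map_adjoin_mem _ (t := ⋃ j, u j)
      fun a ha => by
        obtain ⟨j, hj⟩ := Set.mem_iUnion.1 ha
        exact Set.mem_iUnion.2 ⟨.inr j, a, hj, rfl⟩)
    have e : Submodule.span (Algebra.adjoin ℂ (⋃ j, u j)) (a : Set (X.prod Y).R) *
        Submodule.span _ (b : Set (X.prod Y).R) = ⊤ := Submodule.eq_top_iff'.2 fun r =>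
      TensorProduct.induction_on (motive := fun r : X.R ⊗[ℂ] Y.R => (show (X.prod Y).R from r) ∈
        Submodule.span (Algebra.adjoin ℂ (⋃ j, u j)) (a : Set (X.prod Y).R) *
          Submodule.span _ (b : Set (X.prod Y).R)) r (Submodule.zero_mem _)
        (fun x y => tmul_eq x y ▸ Submodule.mul_mem_mul (ha x) (hb y))
        fun x y hx hy => Submodule.add_mem _ hx hy
    exact Module.finite_def.2 (e ▸ Submodule.FG.mul ⟨a, rfl⟩ ⟨b, rfl⟩)
  · refine (prod_pt X Y z).trans ?_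
    refine (and_congr (h3 (z.comp (Mor.fst X Y).φ)) (k3 (z.comp (Mor.snd X Y).φ))).trans ?_
    exact (and_congr (forall_congr' fun j => ex_image _ _ _)
      (forall_congr' fun j => ex_image _ _ _)).trans
      (Sum.forall (p := fun j => ∃ y ∈ u j, z y ≠ 0)).symm

theorem IsProj.sub (hX : X.IsProj) (S : Set X.Pt) (hS : X.Stab S) : (X.sub S hS).IsProj := by
  obtain ⟨s, h1, h2, h3⟩ := hX
  let φ := (Mor.incl X S hS).φ
  refine isProj_of (fun j => φ '' s j) (fun j => (s j).finite_toSet.image _) ?_ ?_ fun z => ?_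
  · rintro j _ ⟨a, ha, rfl⟩
    exact mk_mem hS (h1 j a ha)
  · obtain ⟨a, ha⟩ := finite_map φ h2 (map_adjoin_mem _ (t := ⋃ j, φ '' s j) fun a ha => by
      obtain ⟨j, hj⟩ := Set.mem_iUnion.1 ha
      exact Set.mem_iUnion.2 ⟨j, a, hj, rfl⟩)
    refine Module.finite_def.2 ⟨a, Submodule.eq_top_iff'.2 fun r => ?_⟩
    obtain ⟨r, rfl⟩ := Ideal.Quotient.mk_surjective r
    exact ha r
  · exact (sub_pt X S hS z).trans ((h3 (z.comp φ)).trans
      (forall_congr' fun j => ex_image _ _ _))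

theorem IsProj.adj (hX : X.IsProj) (ι : Type) [Fintype ι] [Nonempty ι] :
    (X.adj ι fun _ => 0).IsProj := by
  obtain ⟨s, h1, h2, h3⟩ := hX
  let φ := (Mor.adjPr X ι fun _ => 0).φ
  let x : ι → (X.adj ι fun _ => 0).R := MvPolynomial.X
  let u : (X.adj ι fun _ => 0).J → Set (X.adj ι fun _ => 0).R := fun o =>
    Option.elim o (Set.range x) fun j => φ '' s j
  refine isProj_of u ?_ ?_ ?_ fun z => ?_
  · rintro (_ | j)
    · exact Set.finite_range x
    · exact (s j).finite_toSet.image _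
  · rintro (_ | j) y hy
    · obtain ⟨i, rfl⟩ := hy
      have e : (fun j => j.elim 1 0 : Option X.J → ℤ) = Pi.single none 1 := by
        funext k
        cases k <;> simp
      exact e ▸ X_mem X ι (fun _ => 0) i
    · obtain ⟨a, ha, rfl⟩ := hy
      have e : (fun k => k.elim 0 (Pi.single j 1) : Option X.J → ℤ) = Pi.single (some j) 1 := by
        funext k
        cases k <;> simp [Pi.single_apply]
      exact e ▸ C_mem X ι (fun _ => 0) (h1 j a ha)
  · obtain ⟨a, ha⟩ := finite_map φ h2 (map_adjoin_mem _ (t := ⋃ j, u j) fun a ha => by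
      obtain ⟨j, hj⟩ := Set.mem_iUnion.1 ha
      exact Set.mem_iUnion.2 ⟨some j, a, hj, rfl⟩)
    refine Module.finite_def.2 ⟨a, Submodule.eq_top_iff'.2 fun p => ?_⟩
    refine MvPolynomial.induction_on (motive := fun p : MvPolynomial ι X.R =>
      (show (X.adj ι fun _ => 0).R from p) ∈ Submodule.span (Algebra.adjoin ℂ (⋃ j, u j))
        (a : Set (X.adj ι fun _ => 0).R)) p ha (fun p q hp hq => Submodule.add_mem _ hp hq)
      fun p i hp => ?_
    have := Submodule.smul_mem _ (⟨x i, Algebra.subset_adjoin (Set.mem_iUnion.2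
      ⟨none, i, rfl⟩)⟩ : Algebra.adjoin ℂ (⋃ j, u j)) hp
    rwa [Subalgebra.smul_def, smul_eq_mul, mul_comm] at this
  · refine (adj_pt X ι _ z).trans (and_comm.trans ?_)
    exact (and_congr (Set.exists_range_iff (f := x) (p := fun y => z y ≠ 0)).symm
      ((h3 (z.comp φ)).trans (forall_congr' fun j => ex_image _ _ _))).trans
      (Option.forall (p := fun j => ∃ y ∈ u j, z y ≠ 0)).symm

theorem isProj_pt : (Spc.pt Empty).IsProj :=
  ⟨fun j => j.elim, fun j => j.elim, Module.finite_def.2 ⟨{1}, eq_top_iff.2 fun (c : ℂ) _ => by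
    have := Submodule.smul_mem (Submodule.span (Algebra.adjoin ℂ
      (⋃ j : Empty, ((j.elim : Finset ℂ) : Set ℂ))) (({1} : Finset ℂ) : Set ℂ))
      ⟨c, Subalgebra.algebraMap_mem _ c⟩ (Submodule.subset_span (Finset.mem_singleton_self 1))
    rwa [Subalgebra.smul_def, smul_eq_mul, mul_one] at this⟩,
    fun z => ⟨fun _ j => j.elim, fun _ => ⟨1, trivial, ev_one⟩⟩⟩

/-- the projective structure on the map to the point -/
def IsProj.absPrj (hX : X.IsProj) : Prj (Mor.toPt X Empty 0) where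
  E := X.J
  π := AddMonoidHom.id _
  σ := AddMonoidHom.id _
  ret := 0
  ret_ρ := fun _ => funext fun j => j.elim
  ret_σ := fun _ => rfl
  π_ρ := fun _ => rfl
  π_σ := fun _ => rfl
  tot := fun δ => zero_add δ
  y := hX.choose
  y_wt := fun e a ha => ⟨0, (zero_add (Pi.single e 1 : X.J → ℤ)).symm ▸ hX.choose_spec.1 e a ha⟩
  fin := finite_of_le (Algebra.adjoin_mono Set.subset_union_right) hX.choose_spec.2.1
  pts := fun z => (hX.choose_spec.2.2 z).trans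
    (and_iff_right ⟨(1 : ℂ), trivial, ev_one (z := z.comp (Algebra.ofId ℂ X.R))⟩).symm

/-- the degree of a monomial -/
def IsProj.dg (hX : X.IsProj) (α : hX.absPrj.Ix → ℕ) : X.J → ℤ := hX.absPrj.deg α

theorem IsProj.mem_partS (hX : X.IsProj) {M : GMod X} {k : X.J → ℤ} {m : M.M} :
    (Mor.toPt X Empty 0).toRes M m ∈ hX.absPrj.partS k M ↔ m ∈ M.wt k :=
  hX.absPrj.toRes_mem_partS.trans (forall_congr' fun g : X.J → ℂˣ => by
    show M.act (tor (AddMonoidHom.id _) g) m = _ ↔ _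
    rw [tor_id]
    exact Iff.rfl)

theorem IsProj.exists_gens (hX : X.IsProj) (M : GMod X) :
    ∃ (T : Finset M.M) (w : M.M → X.J → ℤ), ∀ k, ∃ s : Set M.M, s.Finite ∧
      M.wt k = Submodule.span ℂ s ∧
        ∀ m ∈ s, ∃ t ∈ T, ∃ α, hX.dg α + w t = k ∧ m = hX.absPrj.mon α • t := by
  obtain ⟨T, w, -, h⟩ := hX.absPrj.exists_gens M
  refine ⟨T, w, fun k => ⟨{m | ∃ t ∈ T, ∃ α, hX.dg α + w t = k ∧
    m = hX.absPrj.mon α • t}, ?_, ?_, fun m hm => hm⟩⟩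
  · refine (T.finite_toSet.biUnion (t := fun t => (fun α => hX.absPrj.mon α • t) ''
      {α | hX.dg α = k - w t}) fun t _ => (hX.absPrj.finite_deg _).image _).subset ?_
    rintro _ ⟨t, ht, α, e, rfl⟩
    exact Set.mem_biUnion ht ⟨α, eq_sub_of_add_eq e, rfl⟩
  · ext m
    rw [← hX.mem_partS, h k]
    constructor
    · intro hm
      refine Submodule.span_induction (p := fun (m : (Mor.toPt X Empty 0).Res M) _ =>
        ((Mor.toPt X Empty 0).toRes M).symm m ∈ Submodule.span ℂ _) (fun x hx => ?_) ?_ ?_ ?_ hm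
      · exact Submodule.subset_span hx
      · exact Submodule.zero_mem _
      · exact fun x y _ _ hx hy => Submodule.add_mem _ hx hy
      · intro (c : ℂ) x _ hx
        have := Submodule.smul_mem _ c hx
        rwa [← algebraMap_smul X.R] at this
    · intro hm
      induction hm using Submodule.span_induction with
      | mem x hx => exact Submodule.subset_span hx
      | zero => exact Submodule.zero_mem _
      | add x y _ _ hx hy => exact Submodule.add_mem _ hx hy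
      | smul c x _ hx => rw [map_smul]; exact Submodule.smul_of_tower_mem _ c hx

theorem IsProj.finite_wt (hX : X.IsProj) (M : GMod X) (γ : X.J → ℤ) :
    Module.Finite ℂ (M.wt γ) := by
  obtain ⟨T, w, h⟩ := hX.exists_gens M
  obtain ⟨s, h1, h2, -⟩ := h γ
  rw [h2]
  exact Module.Finite.span_of_finite ℂ h1

theorem IsProj.exists_bot (hX : X.IsProj) (M : GMod X) :
    ∃ c : X.J → ℤ, ∀ k, ∀ m ∈ M.wt k, m ≠ 0 → c ≤ k := by
  obtain ⟨T, w, h⟩ := hX.exists_gens M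
  obtain ⟨c, hc⟩ := (T.finite_toSet.image w).bddBelow
  refine ⟨c, fun k m hm h0 => ?_⟩
  obtain ⟨s, -, h2, h3⟩ := h k
  rcases s.eq_empty_or_nonempty with rfl | ⟨x, hx⟩
  · rw [h2, Submodule.span_empty] at hm
    exact (h0 hm).elim
  · obtain ⟨t, ht, α, rfl, -⟩ := h3 x hx
    exact (hc ⟨t, ht, rfl⟩).trans (le_add_of_nonneg_left fun e =>
      Finset.sum_nonneg fun _ _ => Int.natCast_nonneg _)

theorem IsProj.wt_nonneg (hX : X.IsProj) {γ : X.J → ℤ} {r : X.R} (hr : r ∈ X.wt γ) (h0 : r ≠ 0) :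
    0 ≤ γ := by
  obtain ⟨c, hc⟩ := hX.exists_bot (GMod.one X)
  have hn : ∀ n : ℕ, r ^ n ≠ 0 := fun n e => h0 (X.sep r fun z _ => by
    have := congrArg z e
    rw [map_pow, map_zero] at this
    exact eq_zero_of_pow_eq_zero this)
  intro j
  by_contra hj
  have h1 := hc _ _ (pow_mem hr ((c j).natAbs + 1)) (hn _) j
  have h2 : γ j ≤ -1 := by
    have : ¬(0 : ℤ) ≤ γ j := hj
    omega
  have h3 : (((c j).natAbs + 1 : ℕ) : ℤ) * γ j ≤ (((c j).natAbs + 1 : ℕ) : ℤ) * -1 :=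
    mul_le_mul_of_nonneg_left h2 (Int.natCast_nonneg _)
  rw [Pi.smul_apply, nsmul_eq_mul] at h1
  have h4 := h1.trans h3
  have h5 := Int.le_natAbs (a := -c j)
  rw [Int.natAbs_neg] at h5
  push_cast at h4 h5
  linarith

theorem IsProj.zero_top (hX : X.IsProj) (M : GMod X) (N : Submodule X.R M.M)
    (h : ∀ (z : X.Pt) (b : M.M), ∃ r, z.1 r ≠ 0 ∧ r • b ∈ N) :
    ∃ k₀, ∀ k, k₀ ≤ k → ∀ b ∈ M.wt k, b ∈ N := by
  classical
  let P := hX.absPrj
  have h1 : ∀ c : ∀ j, P.y j, ∃ n : ℕ, ∀ b : M.M, (∏ j, (c j : X.R)) ^ n • b ∈ N := by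
    intro c
    have : ∏ j, (c j : X.R) ∈ (N.colon (Set.univ : Set M.M)).radical := by
      refine Dim.mem_radical (k := ℂ) fun z hz => by_contra fun hne => ?_
      rw [map_prod] at hne
      have hz' : ∃ f ∈ X.b, z f ≠ 0 := (hX.choose_spec.2.2 z).2 fun j =>
        ⟨c j, (c j).2, Finset.prod_ne_zero_iff.1 hne j (Finset.mem_univ j)⟩
      obtain ⟨r, hr, e⟩ := unif_fg (N := ⊤) (Module.finite_def.1 inferInstance)
        fun b _ => h ⟨z, hz'⟩ b
      exact hr (hz r (Submodule.mem_colon.2 fun b _ => e b trivial))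
    obtain ⟨n, hn⟩ := this
    exact ⟨n, fun b => Submodule.mem_colon.1 hn b trivial⟩
  choose n hn using h1
  obtain ⟨n₀, hn₀⟩ := (Set.finite_range n).bddAbove
  obtain ⟨T, w, hT⟩ := hX.exists_gens M
  obtain ⟨c, hc⟩ := (T.finite_toSet.image w).bddAbove
  refine ⟨fun j => c j + (P.y j).card * n₀ + 1, fun k hk b hb => ?_⟩
  obtain ⟨s, -, h2, h3⟩ := hT k
  rw [h2] at hb
  refine (Submodule.span_le (p := N.restrictScalars ℂ)).2 (fun m hm => ?_) hb
  obtain ⟨t, ht, α, rfl, rfl⟩ := h3 m hm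
  have h4 : ∀ j, ∃ a : P.y j, n₀ ≤ α ⟨j, a⟩ := fun j => by
    by_contra hj
    push Not at hj
    have h5 : P.deg α j ≤ ∑ _a : P.y j, (n₀ : ℤ) :=
      Finset.sum_le_sum fun a _ => Int.ofNat_le.2 (hj a).le
    rw [Finset.sum_const, Finset.card_univ, Fintype.card_coe, nsmul_eq_mul] at h5
    have h6 : c j + (P.y j).card * n₀ + 1 ≤ P.deg α j + w t j := hk j
    have h7 : w t j ≤ c j := hc ⟨t, ht, rfl⟩ j
    omega
  choose a ha using h4
  have h5 : (∏ j, (a j : X.R)) ^ n a ∣ P.mon α := by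
    unfold Prj.mon
    rw [← Finset.prod_pow, Fintype.prod_sigma]
    exact Finset.prod_dvd_prod_of_dvd _ _ fun j _ =>
      (pow_dvd_pow _ ((hn₀ ⟨a, rfl⟩).trans (ha j))).trans
        (Finset.dvd_prod_of_mem (fun b : P.y j => (b : X.R) ^ α ⟨j, b⟩) (Finset.mem_univ (a j)))
  obtain ⟨q, hq⟩ := h5
  show P.mon α • t ∈ N
  rw [hq, mul_smul]
  exact hn a _

theorem IsProj.zero_sub (hX : X.IsProj) (M : GMod X) {N₁ : Submodule X.R M.M} (h₁ : M.Stab N₁)
    (N₂ : Submodule X.R M.M) (h : ∀ z : X.Pt, ∀ b ∈ N₁, ∃ r, z.1 r ≠ 0 ∧ r • b ∈ N₂) :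
    ∃ k₀, ∀ k, k₀ ≤ k → ∀ b ∈ N₁, b ∈ M.wt k → b ∈ N₂ := by
  obtain ⟨k₀, hk⟩ := hX.zero_top (M.sub N₁ h₁) (N₂.comap N₁.subtype) fun z b => h z b.1 b.2
  exact ⟨k₀, fun k e b hb hw => hk k e ⟨b, hb⟩ fun g => Subtype.ext (hw g)⟩

theorem IsProj.at_of_large (hX : X.IsProj) (M : GMod X) {N₁ : Submodule X.R M.M} (h₁ : M.Stab N₁)
    (N₂ : Submodule X.R M.M) {k₀ : X.J → ℤ} (h : ∀ k, k₀ ≤ k → ∀ b ∈ N₁, b ∈ M.wt k → b ∈ N₂)
    (z : X.Pt) : ∀ b ∈ N₁, ∃ r, z.1 r ≠ 0 ∧ r • b ∈ N₂ := by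
  refine M.induction_sub h₁ ⟨1, ev_one, by rw [smul_zero]; exact N₂.zero_mem⟩ ?_ ?_
  · intro γ m hm hw
    obtain ⟨r, hr, h0⟩ := hX.exists_ne z (posPart_nonneg (k₀ - γ))
    exact ⟨r, h0, h _ (sub_le_iff_le_add.1 (le_posPart _)) _ (N₁.smul_mem r hm)
      (GMod.smul_mem_wt hr hw)⟩
  · rintro x y ⟨r, hr, hx⟩ ⟨s, hs, hy⟩
    refine ⟨r * s, ev_mul hr hs, ?_⟩
    rw [smul_add]
    exact N₂.add_mem (by rw [mul_comm, mul_smul]; exact N₂.smul_mem s hx)
      (by rw [mul_smul]; exact N₂.smul_mem r hy)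

theorem IsProj.zero (hX : X.IsProj) (M : GMod X) (h : ∀ z : X.Pt, ZeroAt z.1 M.M) :
    ∃ k₀, ∀ k, k₀ ≤ k → ∀ m ∈ M.wt k, m = 0 := hX.zero_top M ⊥ h

theorem IsProj.zeroAt (hX : X.IsProj) (M : GMod X) {k₀ : X.J → ℤ}
    (h : ∀ k, k₀ ≤ k → ∀ m ∈ M.wt k, m = 0) (z : X.Pt) : ZeroAt z.1 M.M := fun m =>
  hX.at_of_large M M.stab_top ⊥ (fun k e b _ hb => h k e b hb) z m trivial

theorem IsProj.inj (hX : X.IsProj) {A B : GMod X} {u : A.M →ₗ[X.R] B.M} (hu : A.IsHom B u) :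
    (∀ z : X.Pt, InjAt z.1 u) ↔ ∃ k₀, ∀ k, k₀ ≤ k → ∀ a ∈ A.wt k, u a = 0 → a = 0 :=
  ⟨fun h => (hX.zero_sub A hu.stab_ker ⊥ h).imp fun _ e k hk a ha h0 => e k hk a h0 ha,
    fun ⟨_, e⟩ => hX.at_of_large A hu.stab_ker ⊥ fun k hk a h0 ha => e k hk a ha h0⟩

theorem IsProj.ex (hX : X.IsProj) {A B C : GMod X} {u : A.M →ₗ[X.R] B.M} {v : B.M →ₗ[X.R] C.M}
    (hu : A.IsHom B u) (hv : B.IsHom C v) : (∀ z : X.Pt, ExAt z.1 u v) ↔
      ∃ k₀, ∀ k, k₀ ≤ k → ∀ b ∈ B.wt k, v b = 0 → ∃ a ∈ A.wt k, u a = b := by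
  constructor
  · intro h
    refine (hX.zero_sub B hv.stab_ker (LinearMap.range u) fun z b hb => ?_).imp
      fun _ e k hk b hb h0 => ?_
    · obtain ⟨r, a, hr, e⟩ := h z b hb
      exact ⟨r, hr, a, e⟩
    · obtain ⟨a, rfl⟩ := e k hk b h0 hb
      exact hu.exists_preimage hb
  · rintro ⟨k₀, e⟩ z b hb
    obtain ⟨r, hr, a, ha⟩ := hX.at_of_large B hv.stab_ker (LinearMap.range u)
      (fun k hk b h0 hb => by obtain ⟨a, -, ha⟩ := e k hk b hb h0; exact ⟨a, ha⟩) z b hb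
    exact ⟨r, a, hr, ha⟩

theorem IsProj.surj (hX : X.IsProj) {A B : GMod X} {u : A.M →ₗ[X.R] B.M} (hu : A.IsHom B u) :
    (∀ z : X.Pt, SurjAt z.1 u) ↔ ∃ k₀, ∀ k, k₀ ≤ k → ∀ b ∈ B.wt k, ∃ a ∈ A.wt k, u a = b :=
  Iff.trans ⟨fun h z b _ => h z b, fun h z b => h z b rfl⟩
    ((hX.ex hu (GMod.IsHom.zero B B)).trans
      ⟨fun h => h.imp fun _ e k hk b hb => e k hk b hb rfl,
        fun h => h.imp fun _ e k hk b hb _ => e k hk b hb⟩)

theorem IsProj.orb_iff (hX : X.IsProj) (z z' : X.Pt) : X.Orb z z' ↔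
    ∀ γ, ∀ r ∈ X.wt γ, ∀ r' ∈ X.wt γ, z.1 r * z'.1 r' = z.1 r' * z'.1 r := by
  constructor
  · intro h γ r hr r' hr'
    obtain ⟨g, h⟩ := h.val
    rw [h γ r hr, h γ r' hr']
    ring
  · intro h
    choose y hy h0 using hX.exists_single z
    have h0' : ∀ j, z'.1 (y j) ≠ 0 := fun j e => by
      obtain ⟨r, hr, h1⟩ := hX.exists_single z' j
      have := h _ _ (hy j) _ hr
      rw [e, mul_zero] at this
      exact mul_ne_zero (h0 j) h1 this
    let g : X.J → ℂˣ := fun j => Units.mk0 _ (div_ne_zero (h0' j) (h0 j))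
    have hm : ∀ γ : X.J → ℤ, 0 ≤ γ → z'.1 (∏ j, y j ^ (γ j).toNat) =
        chr γ g * z.1 (∏ j, y j ^ (γ j).toNat) ∧ z.1 (∏ j, y j ^ (γ j).toNat) ≠ 0 := by
      intro γ hγ
      rw [map_prod, map_prod, chr_eq_prod, ← Finset.prod_mul_distrib]
      refine ⟨Finset.prod_congr rfl fun j _ => ?_,
        Finset.prod_ne_zero_iff.2 fun j _ => ev_pow (h0 j) _⟩
      conv_rhs => rw [← Int.toNat_of_nonneg (hγ j), zpow_natCast, Int.toNat_natCast]
      rw [map_pow, map_pow, ← mul_pow, Units.val_mk0, div_mul_cancel₀ _ (h0 j)]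
    refine orb_of_val (g := g) fun γ r hr => ?_
    obtain ⟨e1, n1⟩ := hm _ (posPart_nonneg γ)
    obtain ⟨e2, n2⟩ := hm _ (negPart_nonneg γ)
    have e3 : γ⁺ = γ + γ⁻ := eq_add_of_sub_eq (posPart_sub_negPart γ)
    have := h _ _ (mon_mem hy (posPart_nonneg γ)) _
      (e3 ▸ mul_mem hr (mon_mem hy (negPart_nonneg γ)))
    rw [map_mul, map_mul, e1, e2, congrArg (fun δ => chr δ g) e3, chr_add] at this
    apply mul_left_cancel₀ (mul_ne_zero n1 (mul_ne_zero (chr_ne γ⁻ g) n2))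
    linear_combination this

theorem orb_prod (w w' : (X.prod Y).Pt) : (X.prod Y).Orb w w' ↔
    X.Orb ((Mor.fst X Y).onPt w) ((Mor.fst X Y).onPt w') ∧
      Y.Orb ((Mor.snd X Y).onPt w) ((Mor.snd X Y).onPt w') := by
  refine ⟨fun h => ⟨(Mor.fst X Y).orb h, (Mor.snd X Y).orb h⟩, fun ⟨⟨g, h⟩, k, h'⟩ => ?_⟩
  refine ⟨Sum.elim g k, Algebra.TensorProduct.ext' fun a b => ?_⟩
  show w'.1 (a ⊗ₜ b) = w.1 (X.act g a ⊗ₜ Y.act k b)
  rw [← tmul_eq, ← tmul_eq, map_mul, map_mul]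
  exact congrArg₂ (· * ·) (DFunLike.congr_fun h a) (DFunLike.congr_fun h' b)

theorem orb_sub (S : Set X.Pt) (hS : X.Stab S) (w w' : (X.sub S hS).Pt) : (X.sub S hS).Orb w w' ↔
    X.Orb ((Mor.incl X S hS).onPt w) ((Mor.incl X S hS).onPt w') := by
  refine ⟨(Mor.incl X S hS).orb, fun ⟨g, h⟩ => ⟨g, AlgHom.ext fun v => ?_⟩⟩
  obtain ⟨r, rfl⟩ := Ideal.Quotient.mk_surjective v
  exact DFunLike.congr_fun h r

theorem nonempty_pt (X : Spc) [Nontrivial X.R] : Nonempty X.Pt := by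
  by_contra h
  exact one_ne_zero (X.sep 1 fun z hz => (h ⟨⟨z, hz⟩⟩).elim)

end Spc

namespace Mor

theorem rho_nonneg (f : Mor X Y) (hX : X.IsProj) (hY : Y.IsProj) [h : Nonempty X.Pt]
    {γ : Y.J → ℤ} (hγ : 0 ≤ γ) : 0 ≤ f.ρ γ := by
  obtain ⟨z⟩ := h
  obtain ⟨r, hr, h0⟩ := hY.exists_ne (f.onPt z) hγ
  exact hX.wt_nonneg (f.wt_map γ r hr) fun e => h0 ((congrArg z.1 e).trans (map_zero _))

theorem Homot.refl (f : Mor X Y) : f.Homot f := fun _ => Spc.Orb.refl _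

theorem Homot.symm {f g : Mor X Y} (h : f.Homot g) : g.Homot f := fun z => (h z).symm

theorem Homot.trans {f g k : Mor X Y} (h : f.Homot g) (h' : g.Homot k) : f.Homot k :=
  fun z => (h z).trans (h' z)

theorem Homot.comp {f f' : Mor X Y} {g g' : Mor Y Z} (hg : g.Homot g') (hf : f.Homot f') :
    (g.comp f).Homot (g'.comp f') := fun z => (g.orb (hf z)).trans (hg _)

theorem Homot.lift {f f' : Mor W X} {g g' : Mor W Y} (hf : f.Homot f') (hg : g.Homot g') :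
    (Mor.lift f g).Homot (Mor.lift f' g') := fun z => by
  rw [Spc.orb_prod, ← onPt_comp, ← onPt_comp, ← onPt_comp, ← onPt_comp, fst_lift, fst_lift,
    snd_lift, snd_lift]
  exact ⟨hf z, hg z⟩

theorem Homot.map {f f' : Mor W X} {g g' : Mor Y Z} (hf : f.Homot f') (hg : g.Homot g') :
    (f.map g).Homot (f'.map g') := (hf.comp (.refl _)).lift (hg.comp (.refl _))

theorem Homot.rel {f g : Mor X Y} (h : f.Homot g) {γ : Y.J → ℤ} {r r' : Y.R} (hr : r ∈ Y.wt γ)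
    (hr' : r' ∈ Y.wt γ) : f.φ r * g.φ r' = f.φ r' * g.φ r := by
  refine sub_eq_zero.1 (X.sep _ fun z hz => ?_)
  obtain ⟨k, e⟩ := (h ⟨z, hz⟩).val
  have e1 : z (g.φ r) = chr γ k * z (f.φ r) := e γ r hr
  have e2 : z (g.φ r') = chr γ k * z (f.φ r') := e γ r' hr'
  rw [map_sub, map_mul, map_mul, e1, e2]
  ring

theorem grS_clo (f : Mor X Y) (hY : Y.IsProj) : (X.prod Y).Clo f.grS := fun w h =>
  (hY.orb_iff _ _).2 fun γ r hr r' hr' => by
    have := h ((f.comp (fst X Y)).φ r * (snd X Y).φ r' - (f.comp (fst X Y)).φ r' * (snd X Y).φ r)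
      fun v hv => by
        rw [map_sub, map_mul, map_mul]
        exact sub_eq_zero.2 ((hY.orb_iff _ _).1 hv γ r hr r' hr')
    rw [map_sub, map_mul, map_mul] at this
    exact sub_eq_zero.1 this

theorem incl_mem {S : Set X.Pt} (hS : X.Stab S) (h : X.Clo S) (w : (X.sub S hS).Pt) :
    (incl X S hS).onPt w ∈ S := h _ fun r hr =>
  (congrArg w.1 (Ideal.Quotient.eq_zero_iff_mem.2 hr)).trans (map_zero _)

theorem gr_homot (f : Mor X Y) (hY : Y.IsProj) : (f.comp f.gr1).Homot f.gr2 := fun w =>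
  incl_mem f.grS_stab (f.grS_clo hY) w

theorem gr_isProj (f : Mor X Y) (hX : X.IsProj) (hY : Y.IsProj) : f.gr.IsProj :=
  (hX.prod hY).sub _ _

/-- the section of the graph -/
def sec (f : Mor X Y) : Mor X f.gr :=
  (Mor.lift (Mor.id X) f).toSub f.grS f.grS_stab fun w => by
    show Y.Orb (f.onPt _) _
    rw [← onPt_comp (fst X Y), ← onPt_comp (snd X Y), fst_lift, snd_lift]
    exact Spc.Orb.refl _

theorem incl_sec (f : Mor X Y) :
    (Mor.incl _ f.grS f.grS_stab).comp f.sec = Mor.lift (Mor.id X) f :=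
  eq_of (fun _ => rfl) fun _ => rfl

theorem gr1_sec (f : Mor X Y) : f.gr1.comp f.sec = Mor.id X :=
  (congrArg (fst X Y).comp f.incl_sec).trans (fst_lift _ _)

theorem gr2_sec (f : Mor X Y) : f.gr2.comp f.sec = f :=
  (congrArg (snd X Y).comp f.incl_sec).trans (snd_lift _ _)

theorem sec_gr1 (f : Mor X Y) (hY : Y.IsProj) : (f.sec.comp f.gr1).Homot (Mor.id f.gr) := fun w =>
  (Spc.orb_sub _ f.grS_stab _ _).2 ((Spc.orb_prod _ _).2 ⟨by
    show X.Orb ((f.gr1.comp f.sec).onPt (f.gr1.onPt w)) (f.gr1.onPt w)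
    rw [gr1_sec]
    exact Spc.Orb.refl _, by
    show Y.Orb ((f.gr2.comp f.sec).onPt (f.gr1.onPt w)) (f.gr2.onPt w)
    rw [gr2_sec]
    exact f.gr_homot hY w⟩)

end Mor

end Vale.Agent.P297Z
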