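import Vale.Agent.P297Z.K.KG

/-!
# P297: tangent vectors, fibres of maps
-/

noncomputable section

namespace Vale.Agent.P297Z

/-- the tangent vectors at a point -/
def Tan {R : Type} [CommRing R] [Algebra ℂ R] (z : R →ₐ[ℂ] ℂ) : Submodule ℂ (R →ₗ[ℂ] ℂ) where
  carrier := {D | ∀ a b, D (a * b) = z a * D b + z b * D a}
  add_mem' := fun {D D'} h h' a b => by
    rw [LinearMap.add_apply, LinearMap.add_apply, LinearMap.add_apply, h a b, h' a b]
    ring
  zero_mem' := fun a b => by simp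
  smul_mem' := fun c D h a b => by
    rw [LinearMap.smul_apply, LinearMap.smul_apply, LinearMap.smul_apply, h a b]
    simp only [smul_eq_mul]
    ring

/-- the tangent vectors along the orbit of the torus -/
def Spc.Rad (X : Spc) (z : X.Pt) (D : X.R →ₗ[ℂ] ℂ) : Prop :=
  ∃ ξ : X.J → ℂ, ∀ γ, ∀ r ∈ X.wt γ, D r = (∑ j, ξ j * γ j) * z.1 r

/-- injective on tangent spaces, modulo the orbits -/
def Mor.Unr {X Y : Spc} (f : Mor X Y) : Prop :=
  ∀ (z : X.Pt), ∀ D ∈ Tan z.1, Y.Rad (f.onPt z) (D.comp f.φ.toLinearMap) → X.Rad z D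

/-- injective on orbits -/
def Mor.Inj {X Y : Spc} (f : Mor X Y) : Prop :=
  ∀ z z' : X.Pt, Y.Orb (f.onPt z) (f.onPt z') → X.Orb z z'

/-- surjective on orbits -/
def Mor.Surj {X Y : Spc} (f : Mor X Y) : Prop := ∀ y : Y.Pt, ∃ z : X.Pt, Y.Orb (f.onPt z) y

/-- the map on fibres -/
def fibMap {R : Type} [CommRing R] [Algebra ℂ R] (z : R →ₐ[ℂ] ℂ) {A B : Type} [AddCommGroup A]
    [Module R A] [AddCommGroup B] [Module R B] (f : A →ₗ[R] B) : Fib z A →ₗ[R] Fib z B :=
  Submodule.mapQ _ _ f (by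
    refine Submodule.smul_le.2 fun r hr a _ => ?_
    rw [Submodule.mem_comap, map_smul]
    exact Submodule.smul_mem_smul hr Submodule.mem_top)

end Vale.Agent.P297Z
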