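import Vale.Agent.P297Z.K.Part

/-!
# P297: parts of a tensor product with a pull-back
-/

set_option linter.all false

open scoped TensorProduct

noncomputable section

namespace Vale.Agent.P297Z

variable {W X Y Z : Spc}

namespace Mor

variable (f : Mor X Y)

/-- the identity map to the source ring -/
def toSrc : X.R ≃+* f.Src := RingEquiv.refl X.R

/-- a pure tensor of the pull-back -/
def tm (N : GMod Y) (a : X.R) (n : N.M) : (f.pull N).M := f.toSrc a ⊗ₜ[Y.R] n

theorem tm_add_left (N : GMod Y) (a b : X.R) (n : N.M) :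
    f.tm N (a + b) n = f.tm N a n + f.tm N b n := TensorProduct.add_tmul (f.toSrc a) (f.toSrc b) n

theorem tm_add (N : GMod Y) (a : X.R) (n m : N.M) :
    f.tm N a (n + m) = f.tm N a n + f.tm N a m := TensorProduct.tmul_add (f.toSrc a) n m

theorem tm_zero_left (N : GMod Y) (n : N.M) : f.tm N 0 n = 0 := TensorProduct.zero_tmul f.Src n

theorem tm_zero (N : GMod Y) (a : X.R) : f.tm N a 0 = 0 := TensorProduct.tmul_zero N.M (f.toSrc a)

theorem smul_tm (N : GMod Y) (r a : X.R) (n : N.M) : r • f.tm N a n = f.tm N (r * a) n := rfl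

theorem tm_smul (N : GMod Y) (a : X.R) (r : Y.R) (n : N.M) :
    f.tm N a (r • n) = f.tm N (f.φ r * a) n := (TensorProduct.smul_tmul r (f.toSrc a) n).symm

theorem act_tm (N : GMod Y) (g : X.J → ℂˣ) (a : X.R) (n : N.M) :
    (f.pull N).act g (f.tm N a n) = f.tm N (X.act g a) (N.act (tor f.ρ g) n) := rfl

theorem tm_csmul (N : GMod Y) (c : ℂ) (a : X.R) (n : N.M) :
    f.tm N a (c • n) = c • f.tm N a n := TensorProduct.tmul_smul c (f.toSrc a) n

theorem csmul_tm (N : GMod Y) (c : ℂ) (a : X.R) (n : N.M) :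
    f.tm N (c • a) n = c • f.tm N a n := rfl

theorem pull_induction (N : GMod Y) {P : (f.pull N).M → Prop} (h0 : P 0)
    (ht : ∀ a n, P (f.tm N a n)) (ha : ∀ x y, P x → P y → P (x + y)) (x : (f.pull N).M) : P x :=
  TensorProduct.induction_on (motive := fun x : f.Src ⊗[Y.R] N.M => P x) x h0 ht ha

theorem tm_mem_wt (N : GMod Y) {γ : X.J → ℤ} {δ : Y.J → ℤ} {a : X.R} {n : N.M} (ha : a ∈ X.wt γ)
    (hn : n ∈ N.wt δ) : f.tm N a n ∈ (f.pull N).wt (γ + f.ρ δ) := fun g => by
  rw [act_tm, Spc.mem_wt.1 ha, N.mem_wt.1 hn, tm_csmul, csmul_tm, chr_tor, chr_add, smul_smul,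
    mul_comm]

/-- induction over pure tensors of homogeneous elements -/
theorem pull_induction_wt (N : GMod Y) {P : (f.pull N).M → Prop} (h0 : P 0)
    (ht : ∀ γ δ, ∀ a ∈ X.wt γ, ∀ n ∈ N.wt δ, P (f.tm N a n)) (ha : ∀ x y, P x → P y → P (x + y))
    (x : (f.pull N).M) : P x := by
  refine f.pull_induction N h0 (fun a n => ?_) ha x
  induction a using X.induction with
  | h0 => rw [tm_zero_left]; exact h0
  | ha x y hx hy => rw [tm_add_left]; exact ha _ _ hx hy
  | hw γ a ha' =>
    induction n using N.induction with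
    | h0 => rw [tm_zero]; exact h0
    | ha x y hx hy => rw [tm_add]; exact ha _ _ hx hy
    | hw δ n hn => exact ht γ δ a ha' n hn

/-- additive maps out of a pull-back -/
def pullLift (N : GMod Y) {A : Type} [AddCommGroup A] (u : X.R →+ N.M →+ A)
    (h : ∀ (r : Y.R) a n, u (f.φ r * a) n = u a (r • n)) : (f.pull N).M →+ A :=
  TensorProduct.liftAddHom (R := Y.R) (M := f.Src) (N := N.M) u h

theorem pullLift_tm (N : GMod Y) {A : Type} [AddCommGroup A] (u : X.R →+ N.M →+ A)
    (h : ∀ (r : Y.R) a n, u (f.φ r * a) n = u a (r • n)) (a : X.R) (n : N.M) :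
    f.pullLift N u h (f.tm N a n) = u a n :=
  TensorProduct.liftAddHom_tmul (R := Y.R) (M := f.Src) (N := N.M) u h a n

end Mor

namespace GMod

/-- a pure tensor -/
def tm (M N : GMod X) (m : M.M) (n : N.M) : (M.ten N).M := m ⊗ₜ[X.R] n

variable (M N : GMod X)

theorem tm_add_left (a b : M.M) (n : N.M) : M.tm N (a + b) n = M.tm N a n + M.tm N b n :=
  TensorProduct.add_tmul a b n

theorem tm_add (a : M.M) (n m : N.M) : M.tm N a (n + m) = M.tm N a n + M.tm N a m :=
  TensorProduct.tmul_add a n m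

theorem tm_zero_left (n : N.M) : M.tm N 0 n = 0 := TensorProduct.zero_tmul M.M n

theorem tm_zero (a : M.M) : M.tm N a 0 = 0 := TensorProduct.tmul_zero N.M a

theorem smul_tm (r : X.R) (a : M.M) (n : N.M) : r • M.tm N a n = M.tm N (r • a) n :=
  TensorProduct.smul_tmul' r a n

theorem tm_smul (r : X.R) (a : M.M) (n : N.M) : M.tm N a (r • n) = M.tm N (r • a) n :=
  (TensorProduct.smul_tmul r a n).symm

theorem act_tm (g : X.J → ℂˣ) (a : M.M) (n : N.M) :
    (M.ten N).act g (M.tm N a n) = M.tm N (M.act g a) (N.act g n) := rfl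

theorem tm_mem_wt {γ δ : X.J → ℤ} {a : M.M} {n : N.M} (ha : a ∈ M.wt γ) (hn : n ∈ N.wt δ) :
    M.tm N a n ∈ (M.ten N).wt (γ + δ) :=
  tmul_mem_wt (R := X.R) (c := (M.ten N).act) (fun _ _ _ => rfl) ha hn

theorem ten_induction {P : (M.ten N).M → Prop} (h0 : P 0) (ht : ∀ a n, P (M.tm N a n))
    (ha : ∀ x y, P x → P y → P (x + y)) (x : (M.ten N).M) : P x :=
  TensorProduct.induction_on (motive := fun x : M.M ⊗[X.R] N.M => P x) x h0 ht ha

theorem ten_induction_wt {P : (M.ten N).M → Prop} (h0 : P 0)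
    (ht : ∀ γ δ, ∀ a ∈ M.wt γ, ∀ n ∈ N.wt δ, P (M.tm N a n)) (ha : ∀ x y, P x → P y → P (x + y))
    (x : (M.ten N).M) : P x := by
  refine M.ten_induction N h0 (fun a n => ?_) ha x
  induction a using M.induction with
  | h0 => rw [tm_zero_left]; exact h0
  | ha x y hx hy => rw [tm_add_left]; exact ha _ _ hx hy
  | hw γ a ha' =>
    induction n using N.induction with
    | h0 => rw [tm_zero]; exact h0
    | ha x y hx hy => rw [tm_add]; exact ha _ _ hx hy
    | hw δ n hn => exact ht γ δ a ha' n hn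

end GMod

namespace Prj

variable {f : Mor X Y}

/-- the comparison map -/
def tenMap (f : Mor X Y) (N : GMod Y) (M : GMod X) :
    N.M ⊗[Y.R] f.Res M →ₗ[Y.R] f.Res ((f.pull N).ten M) :=
  TensorProduct.lift (LinearMap.mk₂ Y.R
    (fun n m => f.toRes _ ((f.pull N).tm M (f.tm N 1 n) ((f.toRes M).symm m)))
    (fun a b m => by rw [f.tm_add, GMod.tm_add_left, map_add])
    (fun r a m => by rw [f.smul_toRes, GMod.smul_tm, f.tm_smul, f.smul_tm])
    (fun a m m' => by rw [map_add, GMod.tm_add, map_add])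
    (fun r a m => by rw [f.smul_toRes, f.toRes_symm_smul, GMod.tm_smul, GMod.smul_tm]))

theorem tenMap_tmul (N : GMod Y) (M : GMod X) (n : N.M) (m : f.Res M) :
    tenMap f N M (n ⊗ₜ m) = f.toRes _ ((f.pull N).tm M (f.tm N 1 n) ((f.toRes M).symm m)) := rfl

/-- the inverse of the comparison map -/
def tenInv0 (f : Mor X Y) (N : GMod Y) (M : GMod X) :
    (f.pull N).M →+ M.M →+ N.M ⊗[Y.R] f.Res M :=
  f.pullLift N
    (AddMonoidHom.mk' (fun a => AddMonoidHom.mk' (fun n => AddMonoidHom.mk'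
        (fun m => n ⊗ₜ[Y.R] f.toRes M (a • m))
        fun m m' => by rw [smul_add, map_add, TensorProduct.tmul_add])
      fun n n' => by ext m; exact TensorProduct.add_tmul _ _ _)
      fun a a' => by
        ext n m
        show n ⊗ₜ[Y.R] f.toRes M ((a + a') • m) = n ⊗ₜ[Y.R] f.toRes M (a • m) + n ⊗ₜ f.toRes M (a' • m)
        rw [add_smul, map_add, TensorProduct.tmul_add])
    fun r a n => by
      ext m
      show n ⊗ₜ[Y.R] f.toRes M ((f.φ r * a) • m) = (r • n) ⊗ₜ[Y.R] f.toRes M (a • m)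
      rw [mul_smul, ← f.smul_toRes, TensorProduct.smul_tmul]

theorem tenInv0_tm (N : GMod Y) (M : GMod X) (a : X.R) (n : N.M) (m : M.M) :
    tenInv0 f N M (f.tm N a n) m = n ⊗ₜ[Y.R] f.toRes M (a • m) := by
  unfold tenInv0
  rw [f.pullLift_tm]
  rfl

theorem tenMap_bij (f : Mor X Y) (N : GMod Y) (M : GMod X) : Function.Bijective (tenMap f N M) := by
  let ψ : ((f.pull N).ten M).M →+ N.M ⊗[Y.R] f.Res M :=
    TensorProduct.liftAddHom (R := X.R) (tenInv0 f N M) fun r x m => by
      induction x using f.pull_induction N with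
      | h0 => simp
      | ht a n => rw [f.smul_tm, tenInv0_tm, tenInv0_tm, smul_smul, mul_comm]
      | ha x y hx hy => simp only [smul_add, map_add, AddMonoidHom.add_apply, hx, hy]
  have hψ : ∀ a n m, ψ ((f.pull N).tm M (f.tm N a n) m) = n ⊗ₜ[Y.R] f.toRes M (a • m) :=
    fun a n m => (TensorProduct.liftAddHom_tmul _ _ _ _).trans (tenInv0_tm N M a n m)
  constructor
  · refine Function.LeftInverse.injective (g := fun x => ψ ((f.toRes _).symm x)) fun x => ?_
    show ψ ((f.toRes _).symm (tenMap f N M x)) = x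
    induction x using TensorProduct.induction_on with
    | zero => rw [map_zero, map_zero, map_zero]
    | tmul n m =>
      rw [tenMap_tmul, LinearEquiv.symm_apply_apply, hψ, one_smul, LinearEquiv.apply_symm_apply]
    | add x y hx hy => rw [map_add, map_add, map_add, hx, hy]
  · intro x
    obtain ⟨x, rfl⟩ := (f.toRes _).surjective x
    show _ ∈ LinearMap.range (tenMap f N M)
    induction x using GMod.ten_induction with
    | h0 => rw [map_zero]; exact Submodule.zero_mem _
    | ha x y hx hy => rw [map_add]; exact Submodule.add_mem _ hx hy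
    | ht x m =>
      induction x using f.pull_induction N with
      | h0 => rw [GMod.tm_zero_left, map_zero]; exact Submodule.zero_mem _
      | ha x y hx hy => rw [GMod.tm_add_left, map_add]; exact Submodule.add_mem _ hx hy
      | ht a n =>
        refine ⟨n ⊗ₜ f.toRes M (a • m), ?_⟩
        rw [tenMap_tmul, LinearEquiv.symm_apply_apply, GMod.tm_smul, f.smul_tm, mul_one]

variable (P : Prj f)

theorem tm_mem_wtE (N : GMod Y) (M : GMod X) (n : N.M) {k : P.E → ℤ} {m : M.M}
    (hm : m ∈ wt (P.actE M) k) :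
    (f.pull N).tm M (f.tm N 1 n) m ∈ wt (P.actE ((f.pull N).ten M)) k := fun h => by
  have h1 : M.act (tor P.π h) m = _ := hm h
  have h2 : tor f.ρ (tor P.π h) = 1 := chr_ext fun γ => by
    rw [chr_tor, chr_tor, P.π_ρ, chr_zero, chr_one]
  show ((f.pull N).ten M).act (tor P.π h) _ = _
  rw [GMod.act_tm, f.act_tm, h1, h2, N.act_one, map_one]
  exact TensorProduct.tmul_smul (chr k h) (f.tm N 1 n) m

theorem cmpE_tenMap (N : GMod Y) (M : GMod X) (k : P.E → ℤ) (x : N.M ⊗[Y.R] f.Res M) :
    P.cmpE _ k (tenMap f N M x) = tenMap f N M ((P.cmpE M k).lTensor N.M x) := by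
  induction x using TensorProduct.induction_on with
  | zero => simp
  | add x y hx hy => simp only [map_add, hx, hy]
  | tmul n m =>
    obtain ⟨m, rfl⟩ := (f.toRes M).surjective m
    rw [LinearMap.lTensor_tmul]
    induction m using wt_induction (P.spanE M) with
    | h0 => simp
    | ha x y hx hy => simp only [map_add, TensorProduct.tmul_add, hx, hy]
    | hw l m hm =>
      have h1 : tenMap f N M (n ⊗ₜ f.toRes M m) ∈ P.partS l _ :=
        P.toRes_mem_partS.2 (P.tm_mem_wtE N M n hm)
      by_cases e : l = k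
      · subst e
        rw [P.cmpE_of_mem h1, P.cmpE_of_mem (P.toRes_mem_partS.2 hm)]
      · rw [P.cmpE_of_ne e h1, P.cmpE_of_ne e (P.toRes_mem_partS.2 hm), TensorProduct.tmul_zero,
          map_zero]

theorem part_ten' (k : P.E → ℤ) (N : GMod Y) (M : GMod X) :
    ∃ e : (N.ten (P.part k M)).M ≃ₗ[Y.R] (P.part k ((f.pull N).ten M)).M,
      GMod.IsHom _ _ e.toLinearMap ∧
      ∀ n m, P.val (e (N.tm _ n m)) = (f.pull N).tm M (f.tm N 1 n) (P.val m) := by
  let ι : N.M ⊗[Y.R] P.partS k M →ₗ[Y.R] N.M ⊗[Y.R] f.Res M := (P.partS k M).subtype.lTensor N.M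
  let r : f.Res M →ₗ[Y.R] P.partS k M := (P.cmpE M k).codRestrict _ (P.cmpE_mem M k)
  have hr : r ∘ₗ (P.partS k M).subtype = LinearMap.id :=
    LinearMap.ext fun m => Subtype.ext (P.cmpE_of_mem m.2)
  have hι : Function.Injective ι := by
    refine Function.LeftInverse.injective (g := r.lTensor N.M) fun x => ?_
    rw [← LinearMap.comp_apply, ← LinearMap.lTensor_comp, hr, LinearMap.lTensor_id,
      LinearMap.id_apply]
  have hmem : ∀ x, (tenMap f N M ∘ₗ ι) x ∈ P.partS k ((f.pull N).ten M) := by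
    intro x
    induction x using TensorProduct.induction_on with
    | zero => rw [map_zero]; exact Submodule.zero_mem _
    | add x y hx hy => rw [map_add]; exact Submodule.add_mem _ hx hy
    | tmul n m => exact P.toRes_mem_partS.2 (P.tm_mem_wtE N M n (P.mem_partS.1 m.2))
  let u : (N.ten (P.part k M)).M →ₗ[Y.R] (P.part k ((f.pull N).ten M)).M :=
    (tenMap f N M ∘ₗ ι).codRestrict _ hmem
  have hu : ∀ n m, P.val (u (N.tm _ n m)) = (f.pull N).tm M (f.tm N 1 n) (P.val m) :=
    fun _ _ => rfl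
  have hb : Function.Bijective u := by
    constructor
    · exact fun a b e => hι ((tenMap_bij f N M).1 (congrArg Subtype.val e))
    · intro b
      obtain ⟨x, hx⟩ := (tenMap_bij f N M).2 b.1
      refine ⟨r.lTensor N.M x, Subtype.ext ?_⟩
      show tenMap f N M (ι (r.lTensor N.M x)) = b.1
      rw [← P.cmpE_of_mem b.2, ← hx, cmpE_tenMap]
      congr 1
      show ((P.partS k M).subtype.lTensor N.M ∘ₗ r.lTensor N.M) x = _
      rw [← LinearMap.lTensor_comp]
      rfl
  refine ⟨LinearEquiv.ofBijective u hb, fun g x => P.val_inj ?_, hu⟩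
  show P.val (u _) = P.val ((P.part k _).act g (u x))
  induction x using GMod.ten_induction with
  | h0 => simp
  | ha x y hx hy => simp only [map_add, hx, hy]
  | ht n m =>
    rw [GMod.act_tm, hu, val_act, val_act, hu, GMod.act_tm, f.act_tm, map_one, P.tor_ret]

theorem part_ten (k : P.E → ℤ) (N : GMod Y) (M : GMod X) :
    ∃ e : (N.ten (P.part k M)).M ≃ₗ[Y.R] (P.part k ((f.pull N).ten M)).M,
      GMod.IsHom _ _ e.toLinearMap :=
  (P.part_ten' k N M).imp fun _ h => h.1

end Prj

end Vale.Agent.P297Z
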