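import Vale.Agent.P297Z.K.AK3

/-!
# P297: two maps that agree on the quotient by the torus have the same pull-back
-/

set_option linter.all false

open scoped TensorProduct

noncomputable section

namespace Vale.Agent.P297Z

open GMod AK

variable {X Y : Spc}

namespace HT

variable {f f' : Mor X Y} {g : X.Pt → Y.J → ℂˣ}

theorem exists_add (M : GMod Y) {V : Type} [AddCommGroup V] (F : (Y.J → ℤ) → M.M →+ V) :
    ∃ T : M.M →+ V, ∀ γ, ∀ m ∈ M.wt γ, T m = F γ m := by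
  classical
  let e := LinearEquiv.ofBijective (DirectSum.coeLinearMap (wt M.act)) (wt_internal M.span)
  refine ⟨(DirectSum.toAddMonoid fun γ => (F γ).comp (wt M.act γ).subtype.toAddMonoidHom).comp
    e.symm.toLinearMap.toAddMonoidHom, fun γ m hm => ?_⟩
  have : e.symm m = DirectSum.of (fun γ => wt M.act γ) γ ⟨m, hm⟩ :=
    e.symm_apply_eq.2 (DirectSum.coeLinearMap_of (wt M.act) γ ⟨m, hm⟩).symm
  exact (congrArg _ this).trans (DirectSum.toAddMonoid_of _ γ _)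

variable (f f' g) in
/-- the two maps differ by `g` -/
def H : Prop := ∀ z : X.Pt, ∀ γ, ∀ r ∈ Y.wt γ, z.1 (f'.φ r) = chr γ (g z) * z.1 (f.φ r)

variable (f f' g) in
/-- a homogeneous fraction that represents the character `γ` of `g` -/
def HP (γ : Y.J → ℤ) (a a' : X.R) : Prop :=
  (∃ δ δ', a ∈ X.wt δ ∧ a' ∈ X.wt δ' ∧ δ + f.ρ γ = δ' + f'.ρ γ) ∧
    ∀ z : X.Pt, z.1 a = chr γ (g z) * z.1 a'

theorem H.symm (h : H f f' g) : H f' f g⁻¹ := fun z γ r hr => by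
  rw [h z γ r hr, Pi.inv_apply, chr_inv, inv_mul_cancel_left₀ (chr_ne _ _)]

theorem HP.symm {γ : Y.J → ℤ} {a a' : X.R} (h : HP f f' g γ a a') : HP f' f g⁻¹ γ a' a :=
  ⟨h.1.elim fun δ ⟨δ', h1, h2, h3⟩ => ⟨δ', δ, h2, h1, h3.symm⟩, fun z => by
    rw [h.2 z, Pi.inv_apply, chr_inv, inv_mul_cancel_left₀ (chr_ne _ _)]⟩

theorem exists_HP (h : H f f' g) (hY : Y.Free) (z : X.Pt) (γ : Y.J → ℤ) :
    ∃ a a', HP f f' g γ a a' ∧ z.1 a ≠ 0 := by
  have hγ : γ ∈ AddSubgroup.closure {γ : Y.J → ℤ | ∃ r ∈ Y.wt γ, (f.onPt z).1 r ≠ 0} :=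
    hY (f.onPt z) ▸ AddSubgroup.mem_top γ
  induction hγ using AddSubgroup.closure_induction with
  | mem γ hγ =>
    obtain ⟨r, hr, h0⟩ := hγ
    exact ⟨f'.φ r, f.φ r, ⟨⟨_, _, f'.wt_map γ r hr, f.wt_map γ r hr, add_comm _ _⟩,
      fun z => h z γ r hr⟩, h z γ r hr ▸ mul_ne_zero (chr_ne _ _) h0⟩
  | zero => exact ⟨1, 1, ⟨⟨0, 0, X.one_mem, X.one_mem, by rw [map_zero, map_zero]⟩,
      fun z => by rw [chr_zero, one_mul]⟩, one_ne⟩
  | add γ γ' _ _ h1 h2 =>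
    obtain ⟨a, a', ⟨⟨δ, δ', h1, h1', e1⟩, k1⟩, n1⟩ := h1
    obtain ⟨b, b', ⟨⟨ε, ε', h2, h2', e2⟩, k2⟩, n2⟩ := h2
    refine ⟨a * b, a' * b', ⟨⟨_, _, Spc.mul_mem h1 h2, Spc.mul_mem h1' h2', ?_⟩, fun z => ?_⟩,
      mul_ne n1 n2⟩
    · rw [map_add, map_add, add_add_add_comm, e1, e2, add_add_add_comm]
    · rw [map_mul, map_mul, k1, k2, chr_add, mul_mul_mul_comm]
  | neg γ _ h1 =>
    obtain ⟨a, a', ⟨⟨δ, δ', h1, h1', e1⟩, k1⟩, n1⟩ := h1
    refine ⟨a', a, ⟨⟨_, _, h1', h1, ?_⟩, fun z => ?_⟩, right_ne_zero_of_mul (k1 z ▸ n1)⟩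
    · rw [map_neg, map_neg]
      linear_combination (exp := 1) -e1
    · rw [k1, ← mul_assoc, chr_neg_mul, one_mul]

variable (f f' g) in
/-- the graph of the identification of the two pull-backs -/
def S (M : GMod Y) : Submodule X.R ((f.pull M).M × (f'.pull M).M) :=
  Submodule.span X.R {p | ∃ γ m a a', m ∈ M.wt γ ∧ HP f f' g γ a a' ∧
    p = (a • pu f M m, a' • pu f' M m)}

theorem S_mem {M : GMod Y} {γ : Y.J → ℤ} {m : M.M} {a a' : X.R} (h1 : m ∈ M.wt γ)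
    (h2 : HP f f' g γ a a') : (a • pu f M m, a' • pu f' M m) ∈ S f f' g M :=
  Submodule.subset_span ⟨γ, m, a, a', h1, h2, rfl⟩

theorem S_map {A : GMod Y} {V : Type} [AddCommGroup V] [Module X.R V] {T : Submodule X.R V}
    (F : (f.pull A).M × (f'.pull A).M →ₗ[X.R] V) (h : ∀ γ m a a', m ∈ A.wt γ → HP f f' g γ a a' →
      F (a • pu f A m, a' • pu f' A m) ∈ T) {p} (hp : p ∈ S f f' g A) : F p ∈ T :=
  (Submodule.span_le (p := T.comap F)).2
    (by rintro _ ⟨γ, m, a, a', h1, h2, rfl⟩; exact h γ m a a' h1 h2) hp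

theorem S_swap {M : GMod Y} {x y} (h : (x, y) ∈ S f f' g M) : (y, x) ∈ S f' f g⁻¹ M :=
  S_map (LinearEquiv.prodComm X.R _ _).toLinearMap (fun γ m a a' h1 h2 => S_mem h1 h2.symm) h

theorem S_nat {A B : GMod Y} {u : A.M →ₗ[Y.R] B.M} (hu : A.IsHom B u) {x y}
    (h : (x, y) ∈ S f f' g A) : (pm f u x, pm f' u y) ∈ S f f' g B :=
  S_map ((pm f u).prodMap (pm f' u)) (fun γ m a a' h1 h2 => by
    rw [LinearMap.prodMap_apply, map_smul, map_smul]
    exact S_mem (hu.map_wt h1) h2) h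

theorem S_stab (M : GMod Y) : ((f.pull M).prod (f'.pull M)).Stab (S f f' g M) :=
  stab_span_wt (M := (f.pull M).prod (f'.pull M)) (by
    rintro _ ⟨γ, m, a, a', h1, ⟨⟨δ, δ', h2, h3, e⟩, -⟩, rfl⟩
    exact ⟨δ + f.ρ γ, fun t => Prod.ext (smul_mem_wt h2 (pu_wt f h1) t)
      ((e ▸ smul_mem_wt h3 (pu_wt f' h1)) t)⟩)

theorem S_inj (h : H f f' g) (hY : Y.Free) (M : GMod Y) (z : X.Pt) (y : (f'.pull M).M)
    (hy : (0, y) ∈ S f f' g M) : ∃ t, z.1 t ≠ 0 ∧ t • y = 0 := by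
  choose a a' hp ha using exists_HP h hY z
  let U : Submonoid X.R := ⟨⟨{r | z.1 r ≠ 0}, mul_ne⟩, one_ne⟩
  let ι := LocalizedModule.mkLinearMap U (f'.pull M).M
  let w : (Y.J → ℤ) → Localization U := fun γ => Localization.mk (a' γ) ⟨a γ, ha γ⟩
  have hw : ∀ γ b b', (∀ z : X.Pt, z.1 b = chr γ (g z) * z.1 b') → ∀ x,
      b • w γ • ι x = b' • ι x := fun γ b b' hb x => by
    have e : a γ * b' = b * a' γ := sub_eq_zero.1 (X.sep _ fun z hz => by
      rw [map_sub, map_mul, map_mul, hb ⟨z, hz⟩, (hp γ).2 ⟨z, hz⟩]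
      ring)
    rw [← smul_assoc, ← algebraMap_smul (Localization U) b', Localization.smul_mk, smul_eq_mul,
      ← e, ← Localization.mk_one_eq_algebraMap]
    congr 1
    exact Localization.mk_eq_mk_iff.2 (Localization.r_of_eq (one_mul _))
  obtain ⟨T, hT⟩ := exists_add M fun γ =>
    (DistribSMul.toAddMonoidHom _ (w γ)).comp (ι.toAddMonoidHom.comp (pu f' M))
  replace hT : ∀ γ, ∀ m ∈ M.wt γ, T m = w γ • ι (pu f' M m) := hT
  obtain ⟨L, hL⟩ := exists_plift f M T fun s x => by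
    induction x using M.induction with
    | h0 => rw [smul_zero, map_zero, smul_zero]
    | ha x y hx hy => rw [smul_add, map_add, map_add, smul_add, hx, hy]
    | hw γ x hx =>
      induction s using Y.induction with
      | h0 => rw [zero_smul, map_zero, map_zero, zero_smul]
      | ha s t hs ht => rw [add_smul, map_add, map_add, add_smul, hs, ht]
      | hw δ s hs =>
        refine (IsLocalizedModule.map_units ι (⟨a γ, ha γ⟩ : U)).smul_left_cancel.1 ?_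
        show a γ • T (s • x) = a γ • f.φ s • T x
        rw [hT _ _ hx, hT _ _ (smul_mem_wt hs hx), pu_smul, map_smul, smul_comm (w _), smul_smul,
          hw (δ + γ) _ (f.φ s * a' γ), smul_comm (a γ), hw γ _ _ (hp γ).2, mul_smul]
        intro z
        rw [map_mul, map_mul, h z δ s hs, (hp γ).2, chr_add]
        ring
  have := S_map (T := ⊥) (L.coprod (-ι)) (fun γ m b b' h1 h2 => by
    rw [LinearMap.coprod_apply, map_smul, hL, hT _ _ h1, hw γ _ _ h2.2, LinearMap.neg_apply,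
      map_smul, add_neg_cancel]
    exact Submodule.zero_mem _) hy
  rw [Submodule.mem_bot, LinearMap.coprod_apply, map_zero, zero_add, LinearMap.neg_apply,
    neg_eq_zero] at this
  obtain ⟨t, ht⟩ := (IsLocalizedModule.eq_zero_iff U ι).1 this
  exact ⟨t.1, t.2, ht⟩

theorem S_surj (h : H f f' g) (hY : Y.Free) (M : GMod Y) (z : X.Pt) (x : (f.pull M).M) :
    ∃ t y, z.1 t ≠ 0 ∧ (t • x, y) ∈ S f f' g M := by
  have h0 : ∃ (t : X.R) (y : _), z.1 t ≠ 0 ∧ (t • (0 : (f.pull M).M), y) ∈ S f f' g M :=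
    ⟨1, 0, one_ne, by rw [smul_zero]; exact Submodule.zero_mem _⟩
  have ha : ∀ x x' : (f.pull M).M, (∃ (t : X.R) (y : _), z.1 t ≠ 0 ∧ (t • x, y) ∈ S f f' g M) →
      (∃ (t : X.R) (y : _), z.1 t ≠ 0 ∧ (t • x', y) ∈ S f f' g M) →
      ∃ (t : X.R) (y : _), z.1 t ≠ 0 ∧ (t • (x + x'), y) ∈ S f f' g M := by
    rintro x x' ⟨t, y, h1, h2⟩ ⟨t', y', h1', h2'⟩
    refine ⟨t * t', t' • y + t • y', mul_ne h1 h1', ?_⟩
    rw [smul_add, mul_smul t t' x', mul_comm, mul_smul]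
    exact Submodule.add_mem _ (Submodule.smul_mem _ t' h2) (Submodule.smul_mem _ t h2')
  induction x using pu_ind with
  | h0 => exact h0
  | ha x y hx hy => exact ha x y hx hy
  | hs s x hx =>
    obtain ⟨t, y, h1, h2⟩ := hx
    exact ⟨t, s • y, h1, smul_comm s t x ▸ Submodule.smul_mem _ s h2⟩
  | h1 m =>
    induction m using M.induction with
    | h0 => exact (map_zero (pu f M)).symm ▸ h0
    | ha x y hx hy => exact (map_add (pu f M) x y).symm ▸ ha _ _ hx hy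
    | hw γ m hm =>
      obtain ⟨a, a', h1, h2⟩ := exists_HP h hY z γ
      exact ⟨a, _, h2, S_mem hm h1⟩

theorem S_inj' (h : H f f' g) (hY : Y.Free) (M : GMod Y) (z : X.Pt) (x : (f.pull M).M)
    (hx : (x, 0) ∈ S f f' g M) : ∃ t, z.1 t ≠ 0 ∧ t • x = 0 := S_inj h.symm hY M z x (S_swap hx)

theorem S_surj' (h : H f f' g) (hY : Y.Free) (M : GMod Y) (z : X.Pt) (y : (f'.pull M).M) :
    ∃ t x, z.1 t ≠ 0 ∧ (x, t • y) ∈ S f f' g M := by
  obtain ⟨t, x, h1, h2⟩ := S_surj h.symm hY M z y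
  exact ⟨t, x, h1, inv_inv g ▸ S_swap h2⟩

theorem exists_H (h : f.Homot f') : ∃ g, H f f' g := by
  choose g hg using h
  refine ⟨g, fun z γ r hr => (AlgHom.congr_fun (hg z) r).trans ?_⟩
  show z.1 (f.φ (Y.act (g z) r)) = _
  rw [Spc.mem_wt.1 hr, map_smul, map_smul, smul_eq_mul]

end HT

open HT

theorem Mor.Homot.roof {f f' : Mor X Y} (h : f.Homot f') (hY : Y.Free) (M : GMod Y) :
    ∃ (N : GMod X) (u : N.M →ₗ[X.R] (f.pull M).M) (v : N.M →ₗ[X.R] (f'.pull M).M),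
      N.Qis _ u ∧ N.Qis _ v := by
  obtain ⟨g, h⟩ := exists_H h
  refine ⟨GMod.sub _ _ (S_stab (f := f) (f' := f') (g := g) M),
    LinearMap.fst X.R _ _ ∘ₗ (S f f' g M).subtype, LinearMap.snd X.R _ _ ∘ₗ (S f f' g M).subtype,
    qis_of_bij (fun _ _ => rfl) fun z => ⟨?_, fun x => ?_⟩,
    qis_of_bij (fun _ _ => rfl) fun z => ⟨?_, fun y => ?_⟩⟩
  · rintro ⟨⟨x, y⟩, hp⟩ (rfl : x = 0)
    obtain ⟨t, ht, h⟩ := S_inj h hY M z y hp
    exact ⟨t, ht, Subtype.ext (Prod.ext (smul_zero t) h)⟩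
  · obtain ⟨t, y, ht, h⟩ := S_surj h hY M z x
    exact ⟨t, ⟨_, h⟩, ht, rfl⟩
  · rintro ⟨⟨x, y⟩, hp⟩ (rfl : y = 0)
    obtain ⟨t, ht, h⟩ := S_inj' h hY M z x hp
    exact ⟨t, ht, Subtype.ext (Prod.ext h (smul_zero t))⟩
  · obtain ⟨t, x, ht, h⟩ := S_surj' h hY M z y
    exact ⟨t, ⟨_, h⟩, ht, rfl⟩

theorem Mor.Homot.flat {f f' : Mor X Y} (h : f.Homot f') (hY : Y.Free) (hf : f.Flat) :
    f'.Flat := by
  obtain ⟨g, h⟩ := exists_H h
  intro A B u hu hi z y (hy : pm f' u y = 0)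
  obtain ⟨t, x, ht, h1⟩ := S_surj' h hY A z y
  have h2 := S_nat hu h1
  rw [map_smul, hy, smul_zero] at h2
  obtain ⟨s, hs, h3⟩ := S_inj' h hY B z _ h2
  obtain ⟨r, hr, h4⟩ := hf A B u hu hi z (s • x) ((map_smul (pm f u) s x).trans h3)
  have h5 : (r • s • x, r • s • t • y) ∈ S f f' g A :=
    Submodule.smul_mem _ r (Submodule.smul_mem _ s h1)
  rw [show r • s • x = 0 from h4] at h5
  obtain ⟨q, hq, h6⟩ := S_inj h hY A z _ h5
  rw [smul_smul, smul_smul, smul_smul] at h6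
  exact ⟨_, mul_ne (mul_ne (mul_ne hq hr) hs) ht, h6⟩

end Vale.Agent.P297Z
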