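import Vale.Agent.P297Z.K.AK4
import Vale.Agent.P297Z.K.Homot

/-!
# P297: bundles, exact functors, the ring K0, its action on G, pull-back and dual

The statements are proved in the files `AK0` to `AK4`; here is the invariance under homotopy.
-/

set_option linter.all false

noncomputable section

namespace Vale.Agent.P297Z

variable {W X : Spc}

theorem pullK_homot {φ φ' : Mor W X} (hX : X.Free) (h : φ.Homot φ') : pullK φ = pullK φ' :=
  K0_ringExt fun B => by
    obtain ⟨N, u, v, hu, hv⟩ := h.roof hX B.M
    rw [pullK_cls, pullK_cls, ← kc_qis hu, kc_qis hv]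

theorem pullG_homot {φ φ' : Mor W X} (hX : X.Free) (h : φ.Homot φ') (hφ : φ.Flat)
    (hφ' : φ'.Flat) : pullG φ = pullG φ' :=
  AK.G_ext fun M => by
    obtain ⟨N, u, v, hu, hv⟩ := h.roof hX M
    rw [pullG_cls hφ, pullG_cls hφ', ← AK.G_qis hu, AK.G_qis hv]

end Vale.Agent.P297Z
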