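import Vale.Agent.P297Z.K.PK3
import Vale.Agent.P297Z.K.BC
import Vale.Agent.P297Z.K.Tan
import Vale.Agent.P297Z.K.AK
import Vale.Agent.P297Z.K.AP

/-!
# P297: the push-forward on `K0` and the Euler characteristic
-/

set_option linter.all false

noncomputable section

namespace Vale.Agent.P297Z

open GMod PK

variable {W X Y Z : Spc}

theorem pushK_toPt (hY : Y.IsProj) (c : K0 Y) :
    pushK (Prj.toPt hY) c = (chiG Y (kact Y c (oG Y)) : ℤ) := by
  refine DFunLike.congr_fun (pushK_ext (Prj.toPt hY) (α := pushK (Prj.toPt hY))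
    (β := (Int.castAddHom _).comp ((chiG Y).comp ((kact Y).flip (oG Y)))) fun B => ?_) c
  obtain ⟨k1, h1⟩ := pushK_part (nice_pt (Prj.toPt hY)) (cn_pt Empty) B
  obtain ⟨k2, h2⟩ := chiG_shift hY B.M
  refine ⟨k1 ⊔ k2, fun δ hδ => ?_⟩
  obtain ⟨r, hr, e⟩ := h1 δ (le_sup_left.trans hδ)
  refine e.trans ?_
  show _ = ((chiG Y (kact Y (line Y δ * B.cls) (oG Y)) : ℤ) : K0 _)
  rw [kact_mul, ← kc_bun, kact_oG B.free, kact_line, h2 δ (le_sup_right.trans hδ), (kc_pt hr).1,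
    ← (kc_pt hr).2, Int.cast_natCast, BC.finrank_part]

theorem pK_snd (hX : X.Cn) (hY : Y.IsProj) (c : K0 Y) :
    pK X Y (pullK (Mor.snd X Y) c) = (chiG Y (kact Y c (oG Y)) : ℤ) := by
  rw [pK_eq hX (Prj.fst X hY), ← (cart_pt X Y).pushK (P := Prj.toPt hY) (AddEquiv.refl _)
    (fun δ => rfl) (fun k => ⟨k, fun _ h => h⟩) (nice_pt _) (Prj.nice_fst _) (cn_pt Empty) hX c,
    pushK_toPt, map_intCast]

end Vale.Agent.P297Z
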