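import Vale.Agent.P297Z.K.Proj
import Vale.Agent.P297Z.K.PartT
import Vale.Agent.P297Z.K.AK2

/-!
# P297: direct images of modules, isomorphisms up to the torus
-/

set_option linter.all false

open scoped TensorProduct

noncomputable section

namespace Vale.Agent.P297Z

variable {V W X Y Z : Spc}

/-- `N` is the direct image of `M`: `θ` is bijective in large degrees -/
def Img (f : Mor X Y) (M : GMod X) (N : GMod Y) : Prop :=
  ∃ θ : N.M →+ M.M, (∀ (r : Y.R) n, θ (r • n) = f.φ r • θ n) ∧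
    (∀ γ, ∀ n ∈ N.wt γ, θ n ∈ M.wt (f.ρ γ)) ∧
    ∃ γ₀, ∀ γ, γ₀ ≤ γ → (∀ n ∈ N.wt γ, θ n = 0 → n = 0) ∧
      ∀ m ∈ M.wt (f.ρ γ), ∃ n ∈ N.wt γ, θ n = m

theorem Img.shift {f : Mor X Y} {M : GMod X} {N : GMod Y} (h : Img f M N) (γ : Y.J → ℤ) :
    Img f (M.shift (f.ρ γ)) (N.shift γ) := by
  obtain ⟨θ, h1, h2, γ₀, h3⟩ := h
  refine ⟨θ, h1, fun δ n hn => GMod.mem_shift_wt.2 ?_, γ₀ - γ, fun δ hδ => ⟨fun n hn => ?_,
    fun m hm => ?_⟩⟩
  · rw [← map_add]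
    exact h2 _ n (GMod.mem_shift_wt.1 hn)
  · exact (h3 _ (sub_le_iff_le_add.1 hδ)).1 n (GMod.mem_shift_wt.1 hn)
  · obtain ⟨n, hn, e⟩ := (h3 _ (sub_le_iff_le_add.1 hδ)).2 m
      (by rw [map_add]; exact GMod.mem_shift_wt.1 hm)
    exact ⟨n, GMod.mem_shift_wt.2 hn, e⟩

theorem Img.comp {f : Mor X Y} {M : GMod X} {N : GMod Y} (h : Img f M N) :
    ∃ γ₀, ∀ (Z : Spc) (g : Mor Y Z) (l : Y.J → ℤ) (L : GMod Z), Img g (N.shift l) L →
      (∃ δ₀, ∀ δ, δ₀ ≤ δ → γ₀ ≤ g.ρ δ + l) → Img (g.comp f) (M.shift (f.ρ l)) L := by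
  obtain ⟨θ, h1, h2, γ₀, h3⟩ := h
  refine ⟨γ₀, ?_⟩
  rintro Z g l L ⟨η, k1, k2, δ₁, k3⟩ ⟨δ₀, hδ⟩
  refine ⟨θ.comp η, fun r n => (congrArg θ (k1 r n)).trans (h1 _ _),
    fun δ n hn => GMod.mem_shift_wt.2 ?_, δ₀ ⊔ δ₁, fun δ e => ⟨fun n hn h0 => ?_, fun m hm => ?_⟩⟩
  · have := h2 _ _ (GMod.mem_shift_wt.1 (k2 δ n hn))
    rwa [map_add] at this
  · exact (k3 δ (le_sup_right.trans e)).1 n hn ((h3 _ (hδ δ (le_sup_left.trans e))).1 _
      (GMod.mem_shift_wt.1 (k2 δ n hn)) h0)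
  · obtain ⟨n, hn, rfl⟩ := (h3 _ (hδ δ (le_sup_left.trans e))).2 m
      (by rw [map_add]; exact GMod.mem_shift_wt.1 hm)
    obtain ⟨x, hx, rfl⟩ := (k3 δ (le_sup_right.trans e)).2 n (GMod.mem_shift_wt.2 hn)
    exact ⟨x, hx, rfl⟩

theorem Img.cls_eq {f : Mor X Y} (hY : Y.IsProj) {M : GMod X} {N N' : GMod Y} (h : Img f M N)
    (h' : Img f M N') : cls N = cls N' := by
  obtain ⟨θ, h1, h2, γ₀, h3⟩ := h
  obtain ⟨η, k1, k2, γ₁, k3⟩ := h'
  let S : Submodule Y.R (N.M × N'.M) := Submodule.span Y.R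
    {p : N.M × N'.M | ∃ γ, p.1 ∈ N.wt γ ∧ p.2 ∈ N'.wt γ ∧ θ p.1 = η p.2}
  have hS : (N.prod N').Stab S := GMod.stab_span_wt (M := N.prod N') fun p ⟨γ, e1, e2, _⟩ =>
    ⟨γ, fun g => Prod.ext (e1 g) (e2 g)⟩
  have hv : ∀ p : N.M × N'.M, p ∈ S → θ p.1 = η p.2 := fun p hp =>
    Submodule.span_induction (p := fun (p : N.M × N'.M) _ => θ p.1 = η p.2)
      (fun p hp => hp.choose_spec.2.2) ((map_zero θ).trans (map_zero η).symm)
      (fun p q _ _ e1 e2 => (map_add θ _ _).trans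
        ((congrArg₂ (· + ·) e1 e2).trans (map_add η _ _).symm))
      (fun r p _ e => (h1 r _).trans ((congrArg (f.φ r • ·) e).trans (k1 r _).symm)) hp
  have i1 : N.IsHom (N.prod N') (LinearMap.inl Y.R N.M N'.M) := fun g a =>
    Prod.ext rfl (map_zero (N'.act g)).symm
  have i2 : N'.IsHom (N.prod N') (LinearMap.inr Y.R N.M N'.M) := fun g a =>
    Prod.ext (map_zero (N.act g)).symm rfl
  refine (roof S hS (fun z => ?_) (fun z => ?_) (fun z x => ?_) fun z y => ?_).2.2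
  · exact hY.at_of_large N' (i2.stab_comap hS) ⊥ (fun k hk b hb hw => (k3 k hk).1 b hw
      ((hv _ hb).symm.trans (map_zero θ))) z
  · exact hY.at_of_large N (i1.stab_comap hS) ⊥ (fun k hk b hb hw => (h3 k hk).1 b hw
      ((hv _ hb).trans (map_zero η))) z
  · obtain ⟨t, ht, p, hp, e⟩ := hY.at_of_large N N.stab_top (S.map (LinearMap.fst Y.R N.M N'.M))
      (fun k hk b _ hw => by
        obtain ⟨n, hn, e⟩ := (k3 k hk).2 _ (h2 k b hw)
        exact ⟨(b, n), Submodule.subset_span ⟨k, hw, hn, e.symm⟩, rfl⟩) z x trivial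
    exact ⟨t, p.2, ht, e ▸ hp⟩
  · obtain ⟨t, ht, p, hp, e⟩ := hY.at_of_large N' N'.stab_top (S.map (LinearMap.snd Y.R N.M N'.M))
      (fun k hk b _ hw => by
        obtain ⟨n, hn, e⟩ := (h3 k hk).2 _ (k2 k b hw)
        exact ⟨(n, b), Submodule.subset_span ⟨k, hn, hw, e⟩, rfl⟩) z y trivial
    exact ⟨t, p.1, ht, e ▸ hp⟩

theorem img_piece {f : Mor X Y} (P : Prj f) (M : GMod X) (δ : X.J → ℤ) :
    Img f (M.shift δ) (P.piece δ M) := by
  refine ⟨(P.val (k := P.π δ) (M := M)).toAddMonoidHom, fun _ _ => rfl,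
    fun γ n hn => GMod.mem_shift_wt.2 (P.mem_piece_wt.1 hn), 0,
    fun γ _ => ⟨fun n _ h => P.val_inj (h.trans (map_zero _).symm), fun m hm => ?_⟩⟩
  have h1 : m ∈ M.wt (f.ρ γ + δ) := GMod.mem_shift_wt.1 hm
  have h2 := P.mem_wtE h1
  rw [map_add, P.π_ρ, zero_add] at h2
  exact ⟨P.toPiece δ M (P.el m h2), P.toPiece_mem_wt.2 h1, rfl⟩

theorem img_part {f : Mor X Y} (P : Prj f) (M : GMod X) (k : P.E → ℤ) :
    Img f (M.shift (P.σ k)) (P.part k M) := by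
  refine ⟨(P.val (k := k) (M := M)).toAddMonoidHom, fun _ _ => rfl,
    fun γ n hn => GMod.mem_shift_wt.2 (P.mem_part_wt'.1 hn), 0,
    fun γ _ => ⟨fun n _ h => P.val_inj (h.trans (map_zero _).symm), fun m hm => ?_⟩⟩
  have h1 : m ∈ M.wt (f.ρ γ + P.σ k) := GMod.mem_shift_wt.1 hm
  have h2 := P.mem_wtE h1
  rw [P.π_add] at h2
  exact ⟨P.el m h2, P.mem_part_wt'.2 h1, rfl⟩

theorem nonneg_induction {J : Type} [Fintype J] [DecidableEq J] {P : (J → ℤ) → Prop} (h0 : P 0)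
    (h1 : ∀ β j, 0 ≤ β → P β → P (β + Pi.single j 1)) {β : J → ℤ} (hβ : 0 ≤ β) : P β := by
  have key : ∀ (j : J) (n : ℕ) (β : J → ℤ), 0 ≤ β ∧ P β →
      0 ≤ β + n • (Pi.single j 1 : J → ℤ) ∧ P (β + n • (Pi.single j 1 : J → ℤ)) := by
    intro j n β h
    induction n with
    | zero => rwa [zero_smul, add_zero]
    | succ n ih =>
      rw [succ_nsmul, ← add_assoc]
      exact ⟨add_nonneg ih.1 (Pi.single_nonneg.2 zero_le_one), h1 _ j ih.1 ih.2⟩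
  have : ∀ s : Finset J, 0 ≤ ∑ j ∈ s, (β j).toNat • (Pi.single j 1 : J → ℤ) ∧
      P (∑ j ∈ s, (β j).toNat • (Pi.single j 1 : J → ℤ)) := by
    intro s
    induction s using Finset.induction_on with
    | empty => exact ⟨le_rfl, h0⟩
    | insert a t ha ih => rw [Finset.sum_insert ha, add_comm]; exact key a _ _ ih
  exact sum_single_eq hβ ▸ (this Finset.univ).2

theorem gen_one (hX : X.IsProj) (hY : Y.IsProj) (f : Mor X Y) (M : GMod X) {β : Y.J → ℤ}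
    (hβ : 0 ≤ β) : ∃ k₀, ∀ k, k₀ ≤ k → ∀ m ∈ M.wt (f.ρ β + k),
      m ∈ AddSubgroup.closure {x | ∃ y ∈ Y.wt β, ∃ m' ∈ M.wt k, x = f.φ y • m'} := by
  obtain ⟨k₁, h⟩ := hX.zero_top M (Submodule.span X.R {x | ∃ y ∈ Y.wt β, ∃ m', x = f.φ y • m'})
    fun z b => by
      obtain ⟨y, hy, h0⟩ := hY.exists_ne (f.onPt z) hβ
      exact ⟨f.φ y, h0, Submodule.subset_span ⟨y, hy, b, rfl⟩⟩
  refine ⟨k₁ - f.ρ β, fun k hk m hm => ?_⟩
  have h1 := h _ (sub_le_iff_le_add'.1 hk) m hm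
  rw [← M.cmp_of_mem hm, ← one_smul X.R m]
  generalize (1 : X.R) = r
  clear hm
  induction h1 using Submodule.span_induction generalizing r with
  | mem x hx =>
    obtain ⟨y, hy, m', rfl⟩ := hx
    rw [smul_comm, M.cmp_smul (f.wt_map _ y hy)]
    exact AddSubgroup.subset_closure ⟨y, hy, _, M.cmp_mem _ _, rfl⟩
  | zero => rw [smul_zero, map_zero]; exact zero_mem _
  | add x y _ _ hx hy => rw [smul_add, map_add]; exact add_mem (hx r) (hy r)
  | smul s x _ hx => rw [smul_smul]; exact hx _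

/-- a module is generated in large degrees by the functions that come from the target -/
theorem gen_large (hX : X.IsProj) (hY : Y.IsProj) (f : Mor X Y) (M : GMod X) :
    ∃ k₀, ∀ k, k₀ ≤ k → ∀ β, 0 ≤ β → ∀ m ∈ M.wt (f.ρ β + k),
      m ∈ AddSubgroup.closure {x | ∃ y ∈ Y.wt β, ∃ m' ∈ M.wt k, x = f.φ y • m'} := by
  rcases subsingleton_or_nontrivial X.R with hs | hs
  · haveI := Module.subsingleton X.R M.M
    exact ⟨0, fun k _ β _ m _ => Subsingleton.elim 0 m ▸ zero_mem _⟩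
  haveI := X.nonempty_pt
  choose c hc using fun j : Y.J =>
    gen_one hX hY f M (β := Pi.single j 1) (Pi.single_nonneg.2 zero_le_one)
  obtain ⟨k₀, h0⟩ := (Set.finite_range c).bddAbove
  refine ⟨k₀, fun k hk β hβ => nonneg_induction (P := fun β => ∀ m ∈ M.wt (f.ρ β + k),
    m ∈ AddSubgroup.closure {x | ∃ y ∈ Y.wt β, ∃ m' ∈ M.wt k, x = f.φ y • m'}) ?_ ?_ hβ⟩
  · intro m hm
    rw [map_zero, zero_add] at hm
    exact AddSubgroup.subset_closure ⟨1, Y.one_mem, m, hm, by rw [map_one, one_smul]⟩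
  · intro β j hβ ih m hm
    rw [map_add, add_comm (f.ρ β), add_assoc] at hm
    refine (AddSubgroup.closure_le _).2 ?_ (hc j _
      (((h0 ⟨j, rfl⟩).trans hk).trans (le_add_of_nonneg_left (f.rho_nonneg hX hY hβ))) m hm)
    rintro _ ⟨y, hy, m', hm', rfl⟩
    refine AddSubgroup.closure_induction (p := fun x _ => f.φ y • x ∈ AddSubgroup.closure _)
      ?_ ?_ ?_ ?_ (ih m' hm')
    · rintro _ ⟨y', hy', x, hx, rfl⟩
      exact AddSubgroup.subset_closure ⟨y' * y, Spc.mul_mem hy' hy, x, hx, by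
        rw [map_mul, mul_comm, mul_smul]⟩
    · rw [smul_zero]; exact zero_mem _
    · intro a b _ _ ha hb
      rw [smul_add]; exact add_mem ha hb
    · intro a _ ha
      rw [smul_neg]; exact neg_mem ha

section inv

variable {e : Mor X Y} {e1 : Mor Y X}

theorem inv_φ (h1 : e1.comp e = Mor.id X) (a : X.R) : e.φ (e1.φ a) = a :=
  congrArg (fun f : Mor X X => f.φ a) h1

theorem inv_ρ (h1 : e1.comp e = Mor.id X) (k : X.J → ℤ) : e.ρ (e1.ρ k) = k :=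
  congrArg (fun f : Mor X X => f.ρ k) h1

/-- the map from the pull-back along the inverse -/
def invθ (h1 : e1.comp e = Mor.id X) (M : GMod X) : (e1.pull M).M →+ M.M :=
  e1.pullLift M
    { toFun := fun b => DistribSMul.toAddMonoidHom M.M (e.φ b)
      map_zero' := AddMonoidHom.ext fun m => by
        show e.φ 0 • m = 0
        rw [map_zero, zero_smul]
      map_add' := fun a b => AddMonoidHom.ext fun m => by
        show e.φ (a + b) • m = e.φ a • m + e.φ b • m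
        rw [map_add, add_smul] }
    fun r a m => by
      show e.φ (e1.φ r * a) • m = e.φ a • r • m
      rw [map_mul, inv_φ h1, mul_comm, mul_smul]

theorem invθ_tm (h1 : e1.comp e = Mor.id X) (M : GMod X) (b : Y.R) (m : M.M) :
    invθ h1 M (e1.tm M b m) = e.φ b • m := e1.pullLift_tm M _ _ b m

theorem invθ_smul (h1 : e1.comp e = Mor.id X) (M : GMod X) (r : Y.R) (n : (e1.pull M).M) :
    invθ h1 M (r • n) = e.φ r • invθ h1 M n := by
  induction n using e1.pull_induction M with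
  | h0 => rw [smul_zero, map_zero, smul_zero]
  | ht a m => rw [Mor.smul_tm, invθ_tm, invθ_tm, map_mul, mul_smul]
  | ha x y hx hy => rw [smul_add, map_add, map_add, hx, hy, smul_add]

theorem pull_cmp_induction (f : Mor X Y) (N : GMod Y) {δ : X.J → ℤ} {P : (f.pull N).M → Prop}
    (h0 : P 0) (ht : ∀ γ κ, ∀ a ∈ X.wt γ, ∀ n ∈ N.wt κ, γ + f.ρ κ = δ → P (f.tm N a n))
    (ha : ∀ x y, P x → P y → P (x + y)) {x : (f.pull N).M} (hx : x ∈ (f.pull N).wt δ) : P x := by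
  rw [← (f.pull N).cmp_of_mem hx]
  clear hx
  induction x using f.pull_induction_wt N with
  | h0 => rwa [map_zero]
  | ha x y hx hy => rw [map_add]; exact ha _ _ hx hy
  | ht γ κ a h1 n h2 =>
    by_cases e : γ + f.ρ κ = δ
    · rw [(f.pull N).cmp_of_mem (e ▸ f.tm_mem_wt N h1 h2)]
      exact ht γ κ a h1 n h2 e
    · rwa [(f.pull N).cmp_of_ne e (f.tm_mem_wt N h1 h2)]

theorem invθ_wt (h1 : e1.comp e = Mor.id X) (M : GMod X) {δ : Y.J → ℤ} {n : (e1.pull M).M}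
    (hn : n ∈ (e1.pull M).wt δ) : invθ h1 M n ∈ M.wt (e.ρ δ) := by
  refine pull_cmp_induction e1 M (P := fun n => invθ h1 M n ∈ M.wt (e.ρ δ)) ?_ ?_ ?_ hn
  · rw [map_zero]; exact zero_mem _
  · rintro γ κ a ha m hm rfl
    rw [invθ_tm, map_add, inv_ρ h1]
    exact GMod.smul_mem_wt (e.wt_map γ a ha) hm
  · intro x y hx hy
    rw [map_add]; exact add_mem hx hy

theorem inv_rel (hX : X.IsProj) (h1 : e1.comp e = Mor.id X) (h2 : (e.comp e1).Homot (Mor.id Y))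
    {β : Y.J → ℤ} {κ : X.J → ℤ} {b b' : Y.R} (hb : b ∈ Y.wt β) (hb' : b' ∈ Y.wt (β + e1.ρ κ)) :
    e1.φ (e.φ b') * b = b' * e1.φ (e.φ b) := by
  refine sub_eq_zero.1 (Y.sep _ fun y hy => ?_)
  obtain ⟨g, h⟩ := (h2 ⟨y, hy⟩).val
  have k1 : ∀ κ : X.J → ℤ, 0 ≤ κ → chr (e1.ρ κ) g = 1 := fun κ hκ => by
    obtain ⟨a, ha, h0⟩ := hX.exists_ne (e1.onPt ⟨y, hy⟩) hκ
    have e2 : y (e1.φ a) = chr (e1.ρ κ) g * y (e1.φ (e.φ (e1.φ a))) := h _ _ (e1.wt_map κ a ha)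
    rw [inv_φ h1] at e2
    exact (mul_eq_right₀ h0).1 e2.symm
  have k2 : chr (e1.ρ κ) g = 1 := by
    rw [← posPart_sub_negPart κ, map_sub, chr_sub, k1 _ (posPart_nonneg κ),
      k1 _ (negPart_nonneg κ), inv_one, mul_one]
  have e2 : y b = chr β g * y (e1.φ (e.φ b)) := h _ _ hb
  have e3 : y b' = chr (β + e1.ρ κ) g * y (e1.φ (e.φ b')) := h _ _ hb'
  rw [chr_add, k2, mul_one] at e3
  rw [map_sub, map_mul, map_mul, e2, e3]
  ring

theorem inv_key (hX : X.IsProj) (h1 : e1.comp e = Mor.id X) (h2 : (e.comp e1).Homot (Mor.id Y))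
    (M : GMod X) {δ : Y.J → ℤ} {b' : Y.R} (hb' : b' ∈ Y.wt δ) {n : (e1.pull M).M}
    (hn : n ∈ (e1.pull M).wt δ) : e1.φ (e.φ b') • n = b' • e1.tm M 1 (invθ h1 M n) := by
  refine pull_cmp_induction e1 M
    (P := fun n => e1.φ (e.φ b') • n = b' • e1.tm M 1 (invθ h1 M n)) ?_ ?_ ?_ hn
  · rw [smul_zero, map_zero, Mor.tm_zero, smul_zero]
  · rintro γ κ a ha m hm rfl
    rw [invθ_tm, Mor.tm_smul, Mor.smul_tm, Mor.smul_tm, mul_one, inv_rel hX h1 h2 ha hb']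
  · intro x y hx hy
    rw [smul_add, map_add, Mor.tm_add, smul_add, hx, hy]

theorem inv_kill (hX : X.IsProj) (hY : Y.IsProj) (h1 : e1.comp e = Mor.id X)
    (h2 : (e.comp e1).Homot (Mor.id Y)) (M : GMod X) {δ : Y.J → ℤ} {n : (e1.pull M).M}
    (hn : n ∈ (e1.pull M).wt δ) (w : Y.Pt) {a : X.R} (ha : w.1 (e1.φ a) ≠ 0)
    (h : a • invθ h1 M n = 0) : ∃ r, w.1 r ≠ 0 ∧ r • n = 0 := by
  obtain ⟨c, hc, c0⟩ := hY.exists_ne w (negPart_nonneg δ)
  obtain ⟨b, hb, b0⟩ := hY.exists_ne w (posPart_nonneg δ)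
  have e3 : δ⁺ = δ⁻ + δ := eq_add_of_sub_eq' (sub_eq_iff_eq_add'.2 (by
    rw [← sub_eq_iff_eq_add', posPart_sub_negPart]) : δ⁺ - δ⁻ = δ)
  refine ⟨e1.φ a * (e1.φ (e.φ b) * c), ev_mul ha (ev_mul (((h2 w).ne_iff hb).2 b0) c0), ?_⟩
  rw [mul_smul, mul_smul, inv_key hX h1 h2 M hb (e3 ▸ GMod.smul_mem_wt hc hn), smul_comm,
    Mor.smul_tm, ← Mor.tm_smul, invθ_smul, smul_comm a, h, smul_zero, Mor.tm_zero, smul_zero]

theorem flat_of_inv (hX : X.IsProj) (hY : Y.IsProj) (h1 : e1.comp e = Mor.id X)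
    (h2 : (e.comp e1).Homot (Mor.id Y)) : e1.Flat := by
  intro A B u hu hi w
  let v : (e1.pull A).M →ₗ[Y.R] (e1.pull B).M := u.baseChange e1.Src
  have hv : ∀ a m, v (e1.tm A a m) = e1.tm B a (u m) := fun _ _ => rfl
  show ∀ n, v n = 0 → ∃ r, w.1 r ≠ 0 ∧ r • n = 0
  refine (e1.pull A).induction_sub (N := LinearMap.ker v) (hu.pull e1).stab_ker
    ⟨1, ev_one, smul_zero _⟩ ?_ ?_
  · intro δ n h0 hn
    have e2 : ∀ n, invθ h1 B (v n) = u (invθ h1 A n) := fun n => by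
      induction n using e1.pull_induction A with
      | h0 => rw [map_zero, map_zero, map_zero, map_zero]
      | ht a m => rw [hv, invθ_tm, invθ_tm, map_smul]
      | ha x y hx hy => rw [map_add, map_add, map_add, map_add, hx, hy]
    obtain ⟨a, ha, h⟩ := hi (e1.onPt w) (invθ h1 A n)
      ((e2 n).symm.trans ((congrArg _ h0).trans (map_zero _)))
    exact inv_kill hX hY h1 h2 A hn w ha h
  · rintro x y ⟨r, hr, hx⟩ ⟨s, hs, hy⟩
    exact ⟨r * s, ev_mul hr hs, by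
      rw [smul_add, mul_smul r s y, hy, mul_comm, mul_smul, hx, smul_zero, smul_zero, add_zero]⟩

theorem img_of_inv (hX : X.IsProj) (hY : Y.IsProj) (h1 : e1.comp e = Mor.id X)
    (h2 : (e.comp e1).Homot (Mor.id Y)) (M : GMod X) : Img e M (e1.pull M) := by
  obtain ⟨γ₀, k1⟩ := hY.zero_sub (e1.pull M) (GMod.stab_span_wt (M := e1.pull M)
    (s := {n | (∃ γ, n ∈ (e1.pull M).wt γ) ∧ invθ h1 M n = 0}) fun n hn => hn.1) ⊥ fun w n hn => by
      induction hn using Submodule.span_induction with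
      | mem n hn =>
        obtain ⟨⟨γ, hγ⟩, h0⟩ := hn
        exact inv_kill hX hY h1 h2 M hγ w (a := 1) (by rw [map_one]; exact ev_one)
          (by rw [h0, smul_zero])
      | zero => exact ⟨1, ev_one, smul_zero _⟩
      | add x y _ _ hx hy =>
        obtain ⟨r, hr, hx⟩ := hx
        obtain ⟨s, hs, hy⟩ := hy
        refine ⟨r * s, ev_mul hr hs, ?_⟩
        rw [smul_add]
        exact add_mem (by rw [mul_comm, mul_smul]; exact Submodule.smul_mem _ s hx)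
          (by rw [mul_smul]; exact Submodule.smul_mem _ r hy)
      | smul s x _ hx =>
        obtain ⟨r, hr, hx⟩ := hx
        exact ⟨r, hr, by rw [smul_comm]; exact Submodule.smul_mem _ s hx⟩
  obtain ⟨k₀, k2⟩ := gen_large hX hY e M
  refine ⟨invθ h1 M, invθ_smul h1 M, fun γ n hn => invθ_wt h1 M hn, γ₀ ⊔ e1.ρ k₀, fun γ hγ =>
    ⟨fun n hn h0 => k1 γ (le_sup_left.trans hγ) n (Submodule.subset_span ⟨⟨γ, hn⟩, h0⟩) hn,
      fun m hm => ?_⟩⟩
  have k3 := k2 k₀ le_rfl (γ - e1.ρ k₀) (sub_nonneg.2 (le_sup_right.trans hγ)) m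
    (by rwa [map_sub, inv_ρ h1, sub_add_cancel])
  refine AddSubgroup.closure_induction
    (p := fun m _ => ∃ n ∈ (e1.pull M).wt γ, invθ h1 M n = m) ?_ ?_ ?_ ?_ k3
  · rintro _ ⟨y, hy, m', hm', rfl⟩
    exact ⟨_, sub_add_cancel γ (e1.ρ k₀) ▸ e1.tm_mem_wt M hy hm', invθ_tm h1 M y m'⟩
  · exact ⟨0, zero_mem _, map_zero _⟩
  · rintro _ _ _ _ ⟨a, ha, rfl⟩ ⟨b, hb, rfl⟩
    exact ⟨a + b, add_mem ha hb, map_add _ _ _⟩
  · rintro _ _ ⟨a, ha, rfl⟩
    exact ⟨-a, neg_mem ha, map_neg _ _⟩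

end inv

theorem flat_gr1 (hX : X.IsProj) (hY : Y.IsProj) (f : Mor X Y) : f.gr1.Flat :=
  flat_of_inv hX (f.gr_isProj hX hY) f.gr1_sec (f.sec_gr1 hY)

end Vale.Agent.P297Z
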