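import Vale.Agent.P297Z.K.KG

/-!
# P297: recurrent functions on a lattice and extrapolation
-/

set_option linter.all false

noncomputable section

namespace Vale.Agent.P297Z

variable {A A' Γ Γ' E : Type*} [AddCommGroup A] [AddCommGroup A'] [DecidableEq E]
  {u : Γ → A →+ A} {H H' h h' : (E → ℤ) → A} {a a' : A}

/-- commuting bijections -/
def Twi (u : Γ → A →+ A) : Prop :=
  (∀ γ, Function.Bijective (u γ)) ∧ ∀ γ δ a, u γ (u δ a) = u δ (u γ a)

namespace RecAux

/-- one difference operator -/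
def op (u : Γ → A →+ A) (e : E) (γ : Γ) : ((E → ℤ) → A) →+ ((E → ℤ) → A) where
  toFun := fun H k => H k - u γ (H (k - Pi.single e 1))
  map_zero' := funext fun k => by simp
  map_add' := fun H H' => funext fun k => by
    simp only [Pi.add_apply, map_add]
    abel

theorem op_apply (e : E) (γ : Γ) (H : (E → ℤ) → A) (k : E → ℤ) :
    op u e γ H k = H k - u γ (H (k - Pi.single e 1)) := rfl

/-- a product of difference operators -/
def L (u : Γ → A →+ A) (e : E) : List Γ → ((E → ℤ) → A) →+ ((E → ℤ) → A)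
  | [] => AddMonoidHom.id _
  | γ :: l => (op u e γ).comp (L u e l)

theorem L_nil (e : E) (H : (E → ℤ) → A) : L u e [] H = H := rfl

theorem L_cons (e : E) (γ : Γ) (l : List Γ) (H : (E → ℤ) → A) :
    L u e (γ :: l) H = op u e γ (L u e l H) := rfl

theorem L_eq (e : E) (l : List Γ) (H : (E → ℤ) → A) :
    l.foldr (fun γ H' k => H' k - u γ (H' (k - Pi.single e 1))) H = L u e l H := by
  induction l with
  | nil => rfl
  | cons γ l ih => rw [List.foldr_cons, ih]; rfl

theorem rec_iff : Rec u H ↔ ∀ e, ∃ l, L u e l H = 0 := by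
  simp only [Rec, L_eq]

theorem op_comm (hu : Twi u) (e e' : E) (γ δ : Γ) (H : (E → ℤ) → A) :
    op u e γ (op u e' δ H) = op u e' δ (op u e γ H) := funext fun k => by
  simp only [op_apply, map_sub, sub_right_comm k (Pi.single e 1), hu.2 γ δ]
  abel

theorem op_L (hu : Twi u) (e e' : E) (γ : Γ) (l : List Γ) (H : (E → ℤ) → A) :
    op u e γ (L u e' l H) = L u e' l (op u e γ H) := by
  induction l with
  | nil => rfl
  | cons δ l ih => rw [L_cons, L_cons, op_comm hu, ih]

theorem L_comm (hu : Twi u) (e e' : E) (l l' : List Γ) (H : (E → ℤ) → A) :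
    L u e l (L u e' l' H) = L u e' l' (L u e l H) := by
  induction l with
  | nil => rfl
  | cons δ l ih => rw [L_cons, L_cons, ih, op_L hu]

theorem L_append (e : E) (l l' : List Γ) (H : (E → ℤ) → A) :
    L u e (l ++ l') H = L u e l (L u e l' H) := by
  induction l with
  | nil => rfl
  | cons δ l ih => rw [List.cons_append, L_cons, L_cons, ih]

theorem L_ev (e : E) (l : List Γ) {k₀ : E → ℤ} (h0 : ∀ k, k₀ ≤ k → H k = 0) :
    ∃ k₁, ∀ k, k₁ ≤ k → L u e l H k = 0 := by
  induction l with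
  | nil => exact ⟨k₀, h0⟩
  | cons δ l ih =>
    obtain ⟨k₁, h1⟩ := ih
    refine ⟨k₁ + Pi.single e 1, fun k hk => ?_⟩
    have h2 : (0 : E → ℤ) ≤ Pi.single e 1 := Pi.single_nonneg.2 zero_le_one
    rw [L_cons, op_apply, h1 k ((le_add_of_nonneg_right h2).trans hk), h1 _ (le_sub_iff_add_le.2 hk),
      map_zero, sub_zero]

theorem line_sub (e : E) (b : E → ℤ) (n : ℤ) :
    b + Pi.single e n - Pi.single e 1 = b + Pi.single e (n - 1) := by
  rw [Pi.single_sub, add_sub_assoc]

theorem L_line (e : E) (l : List Γ) (b : E → ℤ) {c : ℤ}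
    (h0 : ∀ n, c ≤ n → H (b + Pi.single e n) = 0) :
    ∃ c', ∀ n, c' ≤ n → L u e l H (b + Pi.single e n) = 0 := by
  induction l with
  | nil => exact ⟨c, h0⟩
  | cons δ l ih =>
    obtain ⟨c', h1⟩ := ih
    refine ⟨c' + 1, fun n hn => ?_⟩
    rw [L_cons, op_apply, line_sub, h1 n (by omega), h1 _ (by omega), map_zero, sub_zero]

theorem uniq1 (hu : ∀ γ, Function.Injective (u γ)) (e : E) (γ : Γ) (b : E → ℤ) {c : ℤ}
    (h1 : ∀ n, op u e γ H (b + Pi.single e n) = 0) (h0 : H (b + Pi.single e c) = 0) (n : ℤ) :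
    H (b + Pi.single e n) = 0 := by
  have h2 : ∀ n, H (b + Pi.single e n) = u γ (H (b + Pi.single e (n - 1))) := fun n => by
    have := h1 n
    rwa [op_apply, line_sub, sub_eq_zero] at this
  induction n using Int.inductionOn' (b := c) with
  | zero => exact h0
  | succ n _ ih => rw [h2, add_sub_cancel_right, ih, map_zero]
  | pred n _ ih =>
    rw [h2] at ih
    exact hu γ (ih.trans (map_zero _).symm)

theorem line_zero (hu : ∀ γ, Function.Injective (u γ)) (e : E) (l : List Γ) (b : E → ℤ) {c : ℤ}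
    (h1 : ∀ n, L u e l H (b + Pi.single e n) = 0) (h0 : ∀ n, c ≤ n → H (b + Pi.single e n) = 0)
    (n : ℤ) : H (b + Pi.single e n) = 0 := by
  induction l with
  | nil => exact h1 n
  | cons δ l ih =>
    obtain ⟨c', h2⟩ := L_line (u := u) e l b h0
    exact ih (uniq1 hu e δ b h1 (h2 c' le_rfl))

theorem solve_int (v : A →+ A) (hv : Function.Surjective v) (g : ℤ → A) :
    ∃ d : ℤ → A, d 0 = 0 ∧ ∀ n, d n - v (d (n - 1)) = g n := by
  choose w hw using hv
  let p : ℕ → A := fun n => Nat.rec 0 (fun n x => g (n + 1) + v x) n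
  let q : ℕ → A := fun n => Nat.rec 0 (fun n x => w (x - g (-n))) n
  have hp : ∀ n : ℕ, p (n + 1) = g (n + 1) + v (p n) := fun _ => rfl
  have hq : ∀ n : ℕ, q (n + 1) = w (q n - g (-n)) := fun _ => rfl
  refine ⟨fun n => if 0 < n then p n.toNat else q (-n).toNat, rfl, fun n => ?_⟩
  by_cases h : 0 < n
  · obtain ⟨m, rfl⟩ : ∃ m : ℕ, n = m + 1 := ⟨(n - 1).toNat, by omega⟩
    have e1 : ((m : ℤ) + 1).toNat = m + 1 := by omega
    have e2 : (if 0 < (m : ℤ) then p (m : ℤ).toNat else q (-(m : ℤ)).toNat) = p m := by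
      rcases m with _ | m
      · rfl
      · rw [if_pos (by omega), Int.toNat_natCast]
    simp only [if_pos h, e1, add_sub_cancel_right, e2, hp]
  · obtain ⟨m, rfl⟩ : ∃ m : ℕ, n = -m := ⟨(-n).toNat, by omega⟩
    have e1 : (-(-(m : ℤ) - 1)).toNat = m + 1 := by omega
    have e2 : ¬ (0 : ℤ) < -m - 1 := by omega
    simp only [if_neg h, if_neg e2, e1, neg_neg, Int.toNat_natCast, hq, hw, sub_sub_cancel]

theorem base_add (e : E) (k : E → ℤ) (c : ℤ) :
    Function.update k e c + Pi.single e (k e - c) = k := by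
  ext j
  by_cases hj : j = e
  · subst hj
    simp
  · simp [hj]

theorem solve1 (hu : Twi u) (e : E) (γ : Γ) (g : (E → ℤ) → A) (c : ℤ) :
    ∃ D, op u e γ D = g ∧ ∀ k, k e = c → D k = 0 := by
  choose d h0 h1 using fun b : E → ℤ => solve_int (u γ) (hu.1 γ).2 fun n => g (b + Pi.single e n)
  refine ⟨fun k => d (Function.update k e c) (k e - c), funext fun k => ?_, fun k hk => ?_⟩
  · have e1 : Function.update (k - Pi.single e 1) e c = Function.update k e c := by
      ext j
      by_cases hj : j = e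
      · subst hj
        simp
      · simp [hj]
    have e2 : (k - Pi.single e 1 : E → ℤ) e - c = k e - c - 1 := by
      simp only [Pi.sub_apply, Pi.single_eq_same]
      ring
    rw [op_apply, e1, e2, h1, base_add]
  · simp only [hk, sub_self, h0]

theorem L_plane {e e' : E} (hne : e' ≠ e) (l : List Γ) {c : ℤ} (h0 : ∀ k, k e = c → H k = 0) :
    ∀ k, k e = c → L u e' l H k = 0 := by
  induction l with
  | nil => exact h0
  | cons δ l ih =>
    intro k hk
    rw [L_cons, op_apply, ih k hk, ih _ (by simp [hk, hne.symm]), map_zero, sub_zero]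

theorem solve (hu : Twi u) (ls : E → List Γ) (s : Finset E) {e : E} (he : e ∉ s) (k₀ : E → ℤ)
    (l : List Γ) : ∀ g : (E → ℤ) → A, (∀ k, k₀ ≤ k → g k = 0) → (∀ e' ∈ s, L u e' (ls e') g = 0) →
      ∃ D, (∀ k, k₀ ≤ k → D k = 0) ∧ L u e l D = g ∧ ∀ e' ∈ s, L u e' (ls e') D = 0 := by
  induction l with
  | nil => exact fun g h1 h2 => ⟨g, h1, rfl, h2⟩
  | cons γ l ih =>
    intro g h1 h2
    obtain ⟨D, hD, hc⟩ := solve1 hu e γ g (k₀ e)
    obtain ⟨D', h3, h4, h5⟩ := ih D (fun k hk => by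
      have key : ∀ n : ℕ, D (Function.update k e (k₀ e) + Pi.single e (n : ℤ)) = 0 := by
        intro n
        induction n with
        | zero => exact hc _ (by simp)
        | succ n ih =>
          have h6 := congrFun hD (Function.update k e (k₀ e) + Pi.single e ((n + 1 : ℕ) : ℤ))
          rw [op_apply, line_sub, h1, Nat.cast_succ, add_sub_cancel_right, ih, map_zero,
            sub_zero] at h6
          · exact h6
          · intro j
            by_cases hj : j = e
            · subst hj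
              simp only [Pi.add_apply, Function.update_self, Pi.single_eq_same]
              omega
            · simpa [hj] using hk j
      have := key (k e - k₀ e).toNat
      rwa [Int.toNat_of_nonneg (sub_nonneg.2 (hk e)), base_add] at this) (fun e' he' => by
      funext k
      rw [← base_add e k (k₀ e)]
      refine uniq1 (fun γ => (hu.1 γ).1) e γ _ (c := 0) (fun n => ?_) ?_ _
      · rw [op_L hu, hD, h2 e' he']
        rfl
      · exact L_plane (fun h : e' = e => he (h ▸ he')) _ hc _ (by simp))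
    exact ⟨D', h3, by rw [L_cons, h4, hD], h5⟩

end RecAux

open RecAux

theorem Rec.add (hu : Twi u) (h1 : Rec u H) (h2 : Rec u H') : Rec u (H + H') :=
  rec_iff.2 fun e => by
    obtain ⟨l, hl⟩ := rec_iff.1 h1 e
    obtain ⟨l', hl'⟩ := rec_iff.1 h2 e
    exact ⟨l ++ l', by
      rw [map_add, L_append, L_append, hl', L_comm hu, hl, map_zero, map_zero, add_zero]⟩

theorem Rec.neg (h1 : Rec u H) : Rec u (-H) :=
  rec_iff.2 fun e => by
    obtain ⟨l, hl⟩ := rec_iff.1 h1 e
    exact ⟨l, by rw [map_neg, hl, neg_zero]⟩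

theorem Rec.sub (hu : Twi u) (h1 : Rec u H) (h2 : Rec u H') : Rec u (H - H') := by
  rw [sub_eq_add_neg]
  exact h1.add hu h2.neg

theorem Rec.shift (h1 : Rec u H) (c : E → ℤ) : Rec u fun k => H (k + c) :=
  rec_iff.2 fun e => by
    obtain ⟨l, hl⟩ := rec_iff.1 h1 e
    have : ∀ l : List Γ, L u e l (fun k => H (k + c)) = fun k => L u e l H (k + c) := by
      intro l
      induction l with
      | nil => rfl
      | cons γ l ih =>
        funext k
        rw [L_cons, L_cons, ih, op_apply, op_apply, sub_add_eq_add_sub]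
    exact ⟨l, by rw [this, hl]; rfl⟩

theorem Rec.map {u' : Γ' → A' →+ A'} (φ : A →+ A') (τ : Γ → Γ')
    (hφ : ∀ γ a, φ (u γ a) = u' (τ γ) (φ a)) (h1 : Rec u H) : Rec u' fun k => φ (H k) :=
  rec_iff.2 fun e => by
    obtain ⟨l, hl⟩ := rec_iff.1 h1 e
    have : ∀ l : List Γ, L u' e (l.map τ) (fun k => φ (H k)) = fun k => φ (L u e l H k) := by
      intro l
      induction l with
      | nil => rfl
      | cons γ l ih =>
        funext k
        rw [List.map_cons, L_cons, L_cons, ih, op_apply, op_apply, map_sub, hφ]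
    exact ⟨l.map τ, by rw [this, hl]; exact funext fun k => map_zero φ⟩

theorem Extr.congr (h1 : Extr u h a) {k₀ : E → ℤ} (e : ∀ k, k₀ ≤ k → h k = h' k) :
    Extr u h' a := by
  obtain ⟨H, hH, ⟨k₁, hk⟩, rfl⟩ := h1
  exact ⟨H, hH, ⟨k₀ ⊔ k₁, fun k hk' =>
    (hk k (le_sup_right.trans hk')).trans (e k (le_sup_left.trans hk'))⟩, rfl⟩

theorem Extr.add (hu : Twi u) (h1 : Extr u h a) (h2 : Extr u h' a') :
    Extr u (fun k => h k + h' k) (a + a') := by
  obtain ⟨H, hH, ⟨k₁, hk⟩, rfl⟩ := h1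
  obtain ⟨H', hH', ⟨k₂, hk'⟩, rfl⟩ := h2
  exact ⟨H + H', hH.add hu hH', ⟨k₁ ⊔ k₂, fun k e => by
    rw [Pi.add_apply, hk k (le_sup_left.trans e), hk' k (le_sup_right.trans e)]⟩, rfl⟩

theorem Extr.sub (hu : Twi u) (h1 : Extr u h a) (h2 : Extr u h' a') :
    Extr u (fun k => h k - h' k) (a - a') := by
  obtain ⟨H, hH, ⟨k₁, hk⟩, rfl⟩ := h1
  obtain ⟨H', hH', ⟨k₂, hk'⟩, rfl⟩ := h2
  exact ⟨H - H', hH.sub hu hH', ⟨k₁ ⊔ k₂, fun k e => by
    rw [Pi.sub_apply, hk k (le_sup_left.trans e), hk' k (le_sup_right.trans e)]⟩, rfl⟩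

theorem Extr.map {u' : Γ' → A' →+ A'} (φ : A →+ A') (τ : Γ → Γ')
    (hφ : ∀ γ a, φ (u γ a) = u' (τ γ) (φ a)) (h1 : Extr u h a) :
    Extr u' (fun k => φ (h k)) (φ a) := by
  obtain ⟨H, hH, ⟨k₁, hk⟩, rfl⟩ := h1
  exact ⟨_, hH.map φ τ hφ, ⟨k₁, fun k e => by rw [hk k e]⟩, rfl⟩

theorem Extr.shift (h1 : Extr u h a) :
    ∃ k₀, ∀ c, k₀ ≤ c → Extr u (fun k => h (k + c)) (h c) := by
  obtain ⟨H, hH, ⟨k₁, hk⟩, rfl⟩ := h1
  exact ⟨k₁, fun c hc => ⟨_, hH.shift c, ⟨0, fun k e => hk _ (hc.trans (le_add_of_nonneg_left e))⟩,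
    by rw [zero_add, hk c hc]⟩⟩

variable [Finite E]

theorem Rec.eq_zero (hu : ∀ γ, Function.Injective (u γ)) (hH : Rec u H) {k₀ : E → ℤ}
    (h0 : ∀ k, k₀ ≤ k → H k = 0) : H = 0 := by
  have := Fintype.ofFinite E
  have key : ∀ s : Finset E, ∀ k, (∀ e ∉ s, k₀ e ≤ k e) → H k = 0 := by
    intro s
    induction s using Finset.induction_on with
    | empty => exact fun k hk => h0 k fun e => hk e (Finset.notMem_empty e)
    | insert e s he ih =>
      intro k hk
      obtain ⟨l, hl⟩ := rec_iff.1 hH e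
      have := line_zero hu e l k (c := k₀ e - k e) (fun n => congrFun hl _) (fun n hn =>
        ih _ fun j hj => by
          by_cases hje : j = e
          · subst hje
            simp only [Pi.add_apply, Pi.single_eq_same]
            omega
          · simpa [hje] using hk j (by simp [hje, hj])) 0
      simpa using this
  exact funext fun k => key Finset.univ k fun e he => (he (Finset.mem_univ e)).elim

theorem Extr.unique (hu : Twi u) (h1 : Extr u h a) (h2 : Extr u h a') : a = a' := by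
  obtain ⟨H, hH, ⟨k₁, hk⟩, e⟩ := h1.sub hu h2
  rw [hH.eq_zero (fun γ => (hu.1 γ).1) fun k hk' => (hk k hk').trans (sub_self _)] at e
  exact sub_eq_zero.1 e

theorem exists_extr (hu : Twi u) (hr : ∀ e : E, ∃ (l : List Γ) (k₀ : E → ℤ), ∀ k, k₀ ≤ k →
    l.foldr (fun γ H' k => H' k - u γ (H' (k - Pi.single e 1))) h k = 0) : ∃ a, Extr u h a := by
  have := Fintype.ofFinite E
  simp only [L_eq] at hr
  choose ls ks hl using hr
  have key : ∀ s : Finset E, ∃ H k₁, (∀ k, k₁ ≤ k → H k = h k) ∧ ∀ e ∈ s, L u e (ls e) H = 0 := by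
    intro s
    induction s using Finset.induction_on with
    | empty => exact ⟨h, 0, fun _ _ => rfl, fun e he => (Finset.notMem_empty e he).elim⟩
    | insert e s he ih =>
      obtain ⟨H, k₁, h1, h2⟩ := ih
      obtain ⟨k₂, h3⟩ := L_ev (u := u) (H := H - h) e (ls e) (k₀ := k₁) fun k hk => by
        rw [Pi.sub_apply, h1 k hk, sub_self]
      obtain ⟨D, h4, h5, h6⟩ := solve hu ls s he (k₂ ⊔ ks e) (ls e) (L u e (ls e) H) (fun k hk => by
        have h7 := h3 k (le_sup_left.trans hk)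
        rwa [map_sub, Pi.sub_apply, hl e k (le_sup_right.trans hk), sub_zero] at h7)
        fun e' he' => by rw [L_comm hu, h2 e' he', map_zero]
      refine ⟨H - D, k₁ ⊔ (k₂ ⊔ ks e), fun k hk => ?_, fun e' he' => ?_⟩
      · rw [Pi.sub_apply, h1 k (le_sup_left.trans hk), h4 k (le_sup_right.trans hk), sub_zero]
      · rcases Finset.mem_insert.1 he' with rfl | he'
        · rw [map_sub, h5, sub_self]
        · rw [map_sub, h2 e' he', h6 e' he', sub_self]
  obtain ⟨H, k₁, h1, h2⟩ := key Finset.univ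
  exact ⟨H 0, H, rec_iff.2 fun e => ⟨ls e, h2 e (Finset.mem_univ e)⟩, ⟨k₁, h1⟩, rfl⟩

/-- abstract extension principle (use it for `K0` and for `G`) -/
theorem ext_abs {R M L : Type*} [CommRing R] [AddCommGroup M] [Module R M] [AddCommGroup L]
    [AddCommGroup Γ] (ℓ : L → R) (ℓ0 : ℓ 0 = 1) (ℓadd : ∀ a b, ℓ (a + b) = ℓ a * ℓ b) (ρ : Γ →+ L)
    (σ : (E → ℤ) →+ L) (x : M)
    (hd : ∀ e, ∃ l : List Γ, (l.map fun γ => 1 - ℓ (-(ρ γ + σ (Pi.single e 1)))).prod • x = 0)
    (α : M →+ A) {k₀ : E → ℤ} (h : ∀ k, k₀ ≤ k → ∀ γ, α (ℓ (ρ γ + σ k) • x) = 0) : α x = 0 := by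
  let v : Γ → (Γ → A) →+ (Γ → A) := fun γ =>
    { toFun := fun F δ => F (δ - γ), map_zero' := rfl, map_add' := fun _ _ => rfl }
  have hv : ∀ γ, Function.Injective (v γ) := fun γ F F' e => funext fun δ => by
    have := congrFun e (δ + γ)
    simpa [v] using this
  have hR : Rec v fun (k : E → ℤ) (δ : Γ) => α (ℓ (ρ δ + σ k) • x) := rec_iff.2 fun e => by
    obtain ⟨l, hl⟩ := hd e
    have : ∀ l : List Γ, RecAux.L v e l (fun (k : E → ℤ) (δ : Γ) => α (ℓ (ρ δ + σ k) • x)) =
        fun k δ => α (ℓ (ρ δ + σ k) •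
          (l.map fun γ => 1 - ℓ (-(ρ γ + σ (Pi.single e 1)))).prod • x) := by
      intro l
      induction l with
      | nil => simp [L_nil]
      | cons γ l ih =>
        funext k δ
        have e1 : ρ (δ - γ) + σ (k - Pi.single e 1) =
            ρ δ + σ k + -(ρ γ + σ (Pi.single e 1)) := by
          rw [map_sub, map_sub]
          abel
        rw [L_cons, ih, op_apply, List.map_cons, List.prod_cons, mul_smul, sub_smul, one_smul,
          smul_sub, map_sub α, ← mul_smul (ℓ _) (ℓ _), ← ℓadd, ← e1]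
        rfl
    exact ⟨l, by rw [this, hl]; exact funext fun k => funext fun δ => by simp⟩
  have := congrFun (congrFun (hR.eq_zero hv fun k hk => funext (h k hk)) 0) 0
  simpa [ℓ0] using this

end Vale.Agent.P297Z
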