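import Vale.Agent.P297Z.K.AK3
import Vale.Agent.P297Z.K.AG
import Vale.Agent.P297Z.K.PartT
import Vale.Agent.P297Z.K.Prj
import Vale.Agent.P297Z.K.Rec

/-!
# P297: the push-forward on `G`
-/

set_option linter.all false

noncomputable section

namespace Vale.Agent.P297Z

variable {X Y Z : Spc} {f : Mor X Y}

theorem kact_line_line (γ δ : X.J → ℤ) (x : G X) :
    kact X (line X γ) (kact X (line X δ) x) = kact X (line X (γ + δ)) x := by
  rw [line_add, kact_mul]

theorem kact_line_zero (x : G X) : kact X (line X 0) x = x := by rw [line_zero, kact_one]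

theorem tw_line (Y : Spc) : Twi fun γ => kact Y (line Y γ) :=
  ⟨fun γ => Function.bijective_iff_has_inverse.2 ⟨kact Y (line Y (-γ)),
    fun x => by rw [kact_line_line, neg_add_cancel, kact_line_zero],
    fun x => by rw [kact_line_line, add_neg_cancel, kact_line_zero]⟩,
    fun _ _ _ => kact_comm _ _ _⟩

/-- multiplication by a homogeneous element -/
def GMod.mulMap (N : GMod X) (d : X.J → ℤ) (y : X.R) : (N.shift (-d)).M →ₗ[X.R] N.M :=
  LinearMap.lsmul X.R N.M y ∘ₗ (N.toShift (-d)).symm.toLinearMap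

theorem GMod.mulMap_apply (N : GMod X) (d : X.J → ℤ) (y : X.R) (m : (N.shift (-d)).M) :
    N.mulMap d y m = y • (N.toShift (-d)).symm m := rfl

theorem GMod.mulMap_isHom (N : GMod X) {d : X.J → ℤ} {y : X.R} (hy : y ∈ X.wt d) :
    (N.shift (-d)).IsHom N (N.mulMap d y) := GMod.isHom_of_wt fun γ m hm => by
  have h := GMod.smul_mem_wt hy (GMod.mem_shift_wt'.1 hm)
  rwa [add_comm γ, add_neg_cancel_left] at h

/-- the classes of the modules killed by a set -/
def Kill (X : Spc) (s : Set X.R) : AddSubgroup (G X) :=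
  AddSubgroup.closure {x | ∃ N : GMod X, (∀ r ∈ s, ∀ n : N.M, r • n = 0) ∧ x = cls N}

theorem Kill.mono {s t : Set X.R} (h : s ⊆ t) : Kill X t ≤ Kill X s :=
  AddSubgroup.closure_mono fun _ ⟨N, h1, h2⟩ => ⟨N, fun r hr => h1 r (h hr), h2⟩

theorem cls_mem_kill {s : Set X.R} {N : GMod X} (h : ∀ r ∈ s, ∀ n : N.M, r • n = 0) :
    cls N ∈ Kill X s := AddSubgroup.subset_closure ⟨N, h, rfl⟩

theorem mem_kill_empty (x : G X) : x ∈ Kill X ∅ := G_mem (fun _ => cls_mem_kill fun _ h => h.elim) x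

theorem Kill.eq_zero {s : Set X.R} (h : ∀ z : X.Pt, ∃ r ∈ s, z.1 r ≠ 0) {x : G X}
    (hx : x ∈ Kill X s) : x = 0 := by
  refine (AddSubgroup.closure_le (⊥ : AddSubgroup (G X))).2 ?_ hx
  rintro _ ⟨N, h1, rfl⟩
  exact cls_zero fun z n => (h z).imp fun r hr => ⟨hr.2, h1 r hr.1 n⟩

theorem one_sub_line_cls (N : GMod X) {d : X.J → ℤ} {y : X.R} (hy : y ∈ X.wt d) :
    kact X (1 - line X (-d)) (cls N) =
      cls (N.mulMap_isHom hy).cokerM - cls (N.mulMap_isHom hy).kerM := by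
  rw [map_sub, AddMonoidHom.sub_apply, kact_one, kact_line, ← neg_sub,
    cls_sub_cls (N.mulMap_isHom hy), neg_sub]

theorem Kill.step {s : Set X.R} {d : X.J → ℤ} {y : X.R} (hy : y ∈ X.wt d) {x : G X}
    (hx : x ∈ Kill X s) : kact X (1 - line X (-d)) x ∈ Kill X (insert y s) := by
  refine (AddSubgroup.closure_le ((Kill X (insert y s)).comap (kact X (1 - line X (-d))))).2 ?_ hx
  rintro _ ⟨N, h1, rfl⟩
  show kact X (1 - line X (-d)) (cls N) ∈ Kill X (insert y s)
  rw [one_sub_line_cls N hy]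
  refine sub_mem (cls_mem_kill fun r hr n => ?_) (cls_mem_kill fun r hr n => Subtype.ext ?_)
  · obtain ⟨n, rfl⟩ := Submodule.Quotient.mk_surjective _ n
    rcases hr with rfl | hr
    · exact (Submodule.Quotient.mk_eq_zero _).2 ⟨N.toShift (-d) n, rfl⟩
    · exact congrArg (Submodule.Quotient.mk (p := LinearMap.range (N.mulMap d y))) (h1 r hr n)
  · refine (N.toShift (-d)).symm.injective ?_
    show (N.toShift (-d)).symm (r • n.1) = (N.toShift (-d)).symm 0
    rw [map_smul, map_zero]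
    rcases hr with rfl | hr
    · exact n.2
    · exact h1 r hr _

theorem Kill.dev {s : Set X.R} (l : List ((X.J → ℤ) × X.R)) (hl : ∀ p ∈ l, p.2 ∈ X.wt p.1)
    {x : G X} (hx : x ∈ Kill X s) :
    kact X (l.map fun p => 1 - line X (-p.1)).prod x ∈ Kill X (s ∪ {r | ∃ p ∈ l, p.2 = r}) := by
  induction l with
  | nil =>
    rw [List.map_nil, List.prod_nil, kact_one]
    exact Kill.mono (fun r hr => hr.elim id fun ⟨_, h, _⟩ => (List.not_mem_nil h).elim) hx
  | cons p l ih =>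
    rw [List.map_cons, List.prod_cons, kact_mul]
    refine Kill.mono ?_ (Kill.step (hl p List.mem_cons_self)
      (ih fun q hq => hl q (List.mem_cons_of_mem _ hq)))
    rintro r (hr | ⟨q, hq, rfl⟩)
    · exact Or.inr (Or.inl hr)
    · rcases List.mem_cons.1 hq with rfl | hq
      · exact Or.inl rfl
      · exact Or.inr (Or.inr ⟨q, hq, rfl⟩)

theorem dev (l : List ((X.J → ℤ) × X.R)) (hl : ∀ p ∈ l, p.2 ∈ X.wt p.1) (M : GMod X) :
    kact X (l.map fun p => 1 - line X (-p.1)).prod (cls M) ∈ AddSubgroup.closure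
      {x | ∃ N : GMod X, (∀ p ∈ l, ∀ n : N.M, p.2 • n = 0) ∧
        (∀ r : X.R, (∀ m : M.M, r • m = 0) → ∀ n : N.M, r • n = 0) ∧ x = cls N} := by
  refine AddSubgroup.closure_mono ?_
    (Kill.dev (s := {r | ∀ m : M.M, r • m = 0}) l hl (cls_mem_kill fun _ h => h))
  rintro _ ⟨N, h1, h2⟩
  exact ⟨N, fun p hp => h1 _ (Or.inr ⟨p, hp, rfl⟩), fun r hr => h1 r (Or.inl hr), h2⟩

theorem dev_zero (l : List ((X.J → ℤ) × X.R)) (hl : ∀ p ∈ l, p.2 ∈ X.wt p.1)
    (h : ∀ z : X.Pt, ∃ p ∈ l, z.1 p.2 ≠ 0) (x : G X) :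
    kact X (l.map fun p => 1 - line X (-p.1)).prod x = 0 :=
  Kill.eq_zero (fun z => (h z).elim fun p hp => ⟨p.2, Or.inr ⟨p, hp.1, rfl⟩, hp.2⟩)
    (Kill.dev l hl (mem_kill_empty x))

theorem exists_dev {Γ : Type*} (τ : Γ → X.J → ℤ) (y : Finset X.R)
    (hy : ∀ a ∈ y, ∃ γ, a ∈ X.wt (τ γ)) (hz : ∀ z : X.Pt, ∃ a ∈ y, z.1 a ≠ 0) :
    ∃ l : List Γ, ∀ x, kact X (l.map fun γ => 1 - line X (-τ γ)).prod x = 0 := by
  choose γ hγ using fun a : y => hy a.1 a.2
  refine ⟨y.attach.toList.map γ, fun x => ?_⟩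
  have h := dev_zero (y.attach.toList.map fun a => (τ (γ a), a.1)) (fun p hp => ?_) (fun z => ?_) x
  · rwa [List.map_map] at h ⊢
  · obtain ⟨a, -, rfl⟩ := List.mem_map.1 hp
    exact hγ a
  · obtain ⟨a, h1, h2⟩ := hz z
    exact ⟨_, List.mem_map.2 ⟨⟨a, h1⟩, Finset.mem_toList.2 (Finset.mem_attach _ _), rfl⟩, h2⟩

theorem ext_gen {A Γ E : Type*} [AddCommGroup A] [AddCommGroup Γ] [DecidableEq E] [Finite E]
    (ρ : Γ →+ (X.J → ℤ)) (σ : (E → ℤ) →+ (X.J → ℤ)) (y : E → Finset X.R)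
    (hy : ∀ e, ∀ a ∈ y e, ∃ γ, a ∈ X.wt (ρ γ + σ (Pi.single e 1)))
    (hz : ∀ (z : X.Pt) e, ∃ a ∈ y e, z.1 a ≠ 0) (α : G X →+ A) (x : G X) {k₀ : E → ℤ}
    (h : ∀ k, k₀ ≤ k → ∀ γ, α (kact X (line X (ρ γ + σ k)) x) = 0) : α x = 0 :=
  ext_abs (line X) line_zero line_add ρ σ x
    (fun e => (exists_dev _ (y e) (hy e) fun z => hz z e).imp fun _ hl => hl x) α h

theorem Prj.pt_y (P : Prj f) (z : X.Pt) (e : P.E) : ∃ a ∈ P.y e, z.1 a ≠ 0 :=
  ((P.pts z.1).1 z.2).2 e

theorem push_ext {A : Type*} [AddCommGroup A] (P : Prj f) {α β : G X →+ A}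
    (h : ∀ M : GMod X, ∃ k₀, ∀ k, k₀ ≤ k → ∀ γ,
      α (cls (M.shift (f.ρ γ + P.σ k))) = β (cls (M.shift (f.ρ γ + P.σ k)))) : α = β :=
  G_ext fun M => by
    obtain ⟨k₀, hk⟩ := h M
    exact sub_eq_zero.1 (ext_gen f.ρ P.σ P.y P.y_wt P.pt_y (α - β) (cls M) fun k e γ => by
      rw [kact_line, AddMonoidHom.sub_apply, hk k e γ, sub_self])

/-- the general existence theorem (use it for `chiG`) -/
theorem exists_extr_G {A Γ : Type*} [AddCommGroup A] (P : Prj f) {u : Γ → A →+ A} (hu : Twi u)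
    (τ : (Y.J → ℤ) → Γ) (h : GMod X → (P.E → ℤ) → A)
    (hadd : ∀ (A B C : GMod X) (u : A.M →ₗ[X.R] B.M) (v : B.M →ₗ[X.R] C.M), GMod.SES A B C u v →
      ∃ k₀, ∀ k, k₀ ≤ k → h B k = h A k + h C k)
    (hsh : ∀ M γ c k, h (M.shift (f.ρ γ + P.σ c)) k = u (τ γ) (h M (k + c))) :
    ∃ ψ : G X →+ A, ∀ M, Extr u (h M) (ψ (cls M)) := by
  let N : AddSubgroup ((P.E → ℤ) → A) :=
    { carrier := {H | ∃ k₀, ∀ k, k₀ ≤ k → H k = 0}
      add_mem' := fun ⟨a, ha⟩ ⟨b, hb⟩ => ⟨a ⊔ b, fun k hk => by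
        rw [Pi.add_apply, ha k (le_sup_left.trans hk), hb k (le_sup_right.trans hk), add_zero]⟩
      zero_mem' := ⟨0, fun _ _ => rfl⟩
      neg_mem' := fun ⟨a, ha⟩ => ⟨a, fun k hk => by rw [Pi.neg_apply, ha k hk, neg_zero]⟩ }
  obtain ⟨Φ, hΦ⟩ := G_lift (fun M => QuotientAddGroup.mk' N (h M)) fun A B C u v hs => by
    obtain ⟨k₀, hk⟩ := hadd A B C u v hs
    rw [← map_add, ← sub_eq_zero, ← map_sub]
    exact (QuotientAddGroup.eq_zero_iff _).2 ⟨k₀, fun k e => sub_eq_zero.2 (hk k e)⟩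
  have h1 : ∀ γ c x H, Φ x = QuotientAddGroup.mk' N H → Φ (kact X (line X (f.ρ γ + P.σ c)) x) =
      QuotientAddGroup.mk' N fun k => u (τ γ) (H (k + c)) := by
    intro γ c x H hx
    let S : ((P.E → ℤ) → A) →+ (P.E → ℤ) → A :=
      { toFun := fun H k => u (τ γ) (H (k + c))
        map_zero' := funext fun k => map_zero _
        map_add' := fun _ _ => funext fun k => map_add _ _ _ }
    have hS : N ≤ N.comap S := fun H ⟨a, ha⟩ => ⟨a - c, fun k hk => by
      show u (τ γ) (H (k + c)) = 0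
      rw [ha _ (sub_le_iff_le_add.1 hk), map_zero]⟩
    have e : Φ.comp (kact X (line X (f.ρ γ + P.σ c))) = (QuotientAddGroup.map N N S hS).comp Φ :=
      G_ext fun M => by
        rw [AddMonoidHom.comp_apply, AddMonoidHom.comp_apply, kact_line, hΦ, hΦ]
        exact congrArg _ (funext (hsh M γ c))
    have e' := DFunLike.congr_fun e x
    rw [AddMonoidHom.comp_apply, AddMonoidHom.comp_apply, hx] at e'
    exact e'
  have h2 : ∀ M, ∃ a, Extr u (h M) a := fun M => exists_extr hu fun e => by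
    obtain ⟨l, hl⟩ := exists_dev _ (P.y e) (P.y_wt e) fun z => P.pt_y z e
    have h3 : ∀ l : List (Y.J → ℤ),
        Φ (kact X (l.map fun γ => 1 - line X (-(f.ρ γ + P.σ (Pi.single e 1)))).prod (cls M)) =
        QuotientAddGroup.mk' N ((l.map fun γ => τ (-γ)).foldr
          (fun γ H' k => H' k - u γ (H' (k - Pi.single e 1))) (h M)) := by
      intro l
      induction l with
      | nil => rw [List.map_nil, List.prod_nil, kact_one, hΦ]; rfl
      | cons γ l ih =>
        rw [List.map_cons, List.prod_cons, kact_mul, map_sub, AddMonoidHom.sub_apply, kact_one,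
          map_sub, neg_add, ← map_neg, ← map_neg, h1 _ _ _ _ ih, ih, ← map_sub]
        exact congrArg _ (funext fun k => by simp only [sub_eq_add_neg]; rfl)
    have h4 := h3 l
    rw [hl, map_zero] at h4
    exact ⟨_, (QuotientAddGroup.eq_zero_iff _).1 h4.symm⟩
  choose a ha using h2
  obtain ⟨ψ, hψ⟩ := G_lift a fun A B C u v hs => by
    obtain ⟨k₀, hk⟩ := hadd A B C u v hs
    exact ((ha B).congr hk).unique hu ((ha A).add hu (ha C))
  exact ⟨ψ, fun M => hψ M ▸ ha M⟩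

theorem cls_part_shift (P : Prj f) (M : GMod X) (k c : P.E → ℤ) (γ : Y.J → ℤ) :
    cls (P.part k (M.shift (f.ρ γ + P.σ c))) = kact Y (line Y γ) (cls (P.part (k + c) M)) := by
  obtain ⟨e, he⟩ := P.part_shift k c γ M
  rw [kact_line, cls_equiv e he]

theorem push_spec (P : Prj f) (M : GMod X) :
    Extr (fun γ => kact Y (line Y γ)) (fun k => cls (P.part k M)) (push P (cls M)) := by
  have h := exists_extr_G P (tw_line Y) id (fun M k => cls (P.part k M))
    (fun A B C u v hs => (P.part_ses hs).imp fun _ hk k e => cls_ses (hk k e))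
    fun M γ c k => cls_part_shift P M k c γ
  rw [push, dif_pos h]
  exact h.choose_spec M

theorem push_char (P : Prj f) (M : GMod X) : ∃ k₀, ∀ k, k₀ ≤ k → ∀ γ,
    push P (cls (M.shift (f.ρ γ + P.σ k))) = kact Y (line Y γ) (cls (P.part k M)) := by
  refine (push_spec P M).shift.imp fun k₀ h k hk γ => (push_spec P _).unique (tw_line Y) ?_
  simp only [cls_part_shift]
  exact (h k hk).map (kact Y (line Y γ)) id fun _ _ => kact_comm _ _ _

theorem push_piece (P : Prj f) (M : GMod X) : ∃ k₀, ∀ δ, k₀ ≤ P.π δ →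
    push P (cls (M.shift δ)) = cls (P.piece δ M) := by
  refine (push_char P M).imp fun k₀ h δ hk => ?_
  have := h _ hk (P.ret δ)
  rwa [P.tot, kact_line] at this

theorem push_line (P : Prj f) (γ : Y.J → ℤ) (x : G X) :
    push P (kact X (line X (f.ρ γ)) x) = kact Y (line Y γ) (push P x) := by
  refine DFunLike.congr_fun (G_ext (ψ := (push P).comp (kact X (line X (f.ρ γ))))
    (ψ' := (kact Y (line Y γ)).comp (push P)) fun M => ?_) x
  have h := push_spec P (M.shift (f.ρ γ + P.σ 0))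
  simp only [cls_part_shift] at h
  rw [map_zero, add_zero, ← kact_line] at h
  simp only [add_zero] at h
  exact h.unique (tw_line Y)
    ((push_spec P M).map (kact Y (line Y γ)) id fun _ _ => kact_comm _ _ _)

theorem push_empty (P : Prj f) [IsEmpty P.E] (M : GMod X) :
    push P (cls M) = cls (P.part 0 M) := by
  obtain ⟨H, -, ⟨k₀, h⟩, e⟩ := push_spec P M
  exact e.trans (h 0 fun e => isEmptyElim e)

theorem mono_of_single {E E' : Type} [Fintype E] [DecidableEq E] (θ : (E → ℤ) →+ E' → ℤ)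
    (h : ∀ e, 0 ≤ θ (Pi.single e 1)) : Monotone θ := by
  refine (monotone_iff_map_nonneg θ).2 fun k hk => ?_
  rw [← Finset.univ_sum_single k, map_sum]
  refine Finset.sum_nonneg fun e _ => ?_
  rw [show Pi.single e (k e) = k e • (Pi.single e 1 : E → ℤ) by
    rw [← Pi.single_smul', smul_eq_mul, mul_one], map_zsmul]
  exact smul_nonneg (hk e) (h e)

theorem G_empty [h : IsEmpty X.Pt] (x : G X) : x = 0 :=
  G_mem (H := ⊥) (fun _ => cls_zero fun z => h.elim z) x

theorem Prj.π_σ_π (P P' : Prj f) (δ : X.J → ℤ) : P'.π (P.σ (P.π δ)) = P'.π δ := by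
  conv_rhs => rw [← P.tot δ, map_add, P'.π_ρ, zero_add]

theorem push_indep (P P' : Prj f) : push P = push P' := by
  rcases isEmpty_or_nonempty X.Pt with h | ⟨⟨z⟩⟩
  · exact AddMonoidHom.ext fun x => by rw [G_empty x, map_zero, map_zero]
  have hm : Monotone (P'.π.comp P.σ) := mono_of_single _ fun e => by
    obtain ⟨a, h1, h2⟩ := P.pt_y z e
    obtain ⟨γ, h3⟩ := P.y_wt e a h1
    have := P'.π_nonneg h3 fun h => h2 (by rw [h, map_zero])
    rwa [map_add, P'.π_ρ, zero_add] at this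
  refine push_ext P fun M => ?_
  obtain ⟨k₁, h1⟩ := push_piece P M
  obtain ⟨k₂, h2⟩ := push_piece P' M
  refine ⟨k₁ ⊔ P.π (P'.σ k₂), fun k hk γ => ?_⟩
  obtain ⟨e, he⟩ := P.piece_iso P' (f.ρ γ + P.σ k) M
  rw [h1 _ (by rw [P.π_add]; exact le_sup_left.trans hk), h2, cls_equiv e he]
  have h3 := hm (le_sup_right.trans hk)
  rw [AddMonoidHom.comp_apply, P.π_σ_π, P'.π_σ] at h3
  rwa [map_add, P'.π_ρ, zero_add]

theorem push_proj (P : Prj f) (a : K0 Y) (x : G X) :
    push P (kact X (pullK f a) x) = kact Y a (push P x) := by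
  have h : ∀ B : Bun Y, push P (kact X (pullK f B.cls) x) = kact Y B.cls (push P x) := fun B => by
    refine DFunLike.congr_fun (G_ext (ψ := (push P).comp (kact X (pullK f B.cls)))
      (ψ' := (kact Y B.cls).comp (push P)) fun M => ?_) x
    rw [AddMonoidHom.comp_apply, AddMonoidHom.comp_apply, pullK_cls, kact_kc (B.free.pull f)]
    refine (push_spec P _).unique (tw_line Y) (((push_spec P M).map (kact Y B.cls)
      (id : (Y.J → ℤ) → _) fun _ _ => kact_comm _ _ _).congr (k₀ := 0) fun k _ => ?_)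
    obtain ⟨e, he⟩ := P.part_ten k B.M M
    rw [kact_cls, cls_equiv e he]
  obtain ⟨A, B, rfl⟩ := K0_induction a
  simp only [map_sub, AddMonoidHom.sub_apply, h]

end Vale.Agent.P297Z
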