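import Vale.Agent.P297Z.K.Flt0
import Vale.Agent.P297Z.K.Push
import Vale.Agent.P297Z.K.Img
import Vale.Agent.P297Z.Hb.DegPrj
import Vale.Agent.P297Z.Top.Var

/-!
# P297: the dimension filtration under action, pull-back and push-forward
-/

set_option linter.all false

open scoped TensorProduct

noncomputable section

namespace Vale.Agent.P297Z.Flt

open GMod MvPolynomial
open Vale.Agent.P009.S.H532 (td)

section alg

variable {k A B : Type} [Field k] [CommRing A] [Algebra k A] [CommRing B] [Algebra k B]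
  [Algebra.FiniteType k A] [Algebra.FiniteType k B] (φ : A →ₐ[k] B) (p : Ideal B) [p.IsPrime]
  {ι : Type} [Fintype ι] (y : ι → B)

theorem td_add_le (h : ∀ P : MvPolynomial ι A, aevalTower φ y P ∈ p → ∀ α, φ (P.coeff α) ∈ p) :
    td k (A ⧸ p.comap φ) + Fintype.card ι ≤ td k (B ⧸ p) := by
  rw [← Dim.td_mvPolynomial]
  refine Dim.td_le_of_injective (aevalTower (Ideal.quotientMapₐ p φ le_rfl)
    fun i => Ideal.Quotient.mk p (y i)) ((injective_iff_map_eq_zero _).2 fun P hP => ?_)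
  obtain ⟨P, rfl⟩ := map_surjective _ (Ideal.Quotient.mk_surjective (I := p.comap φ)) P
  have e : ∀ P : MvPolynomial ι A, aevalTower (Ideal.quotientMapₐ p φ le_rfl)
      (fun i => Ideal.Quotient.mk p (y i)) (map (Ideal.Quotient.mk _) P) =
        Ideal.Quotient.mk p (aevalTower φ y P) := fun P => by
    induction P using MvPolynomial.induction_on with
    | C a => rw [map_C, aevalTower_C, aevalTower_C]; rfl
    | add P Q h1 h2 => simp only [map_add, h1, h2]
    | mul_X P i h1 => simp only [map_mul, h1, map_X, aevalTower_X]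
  ext α
  rw [coeff_map]
  exact Ideal.Quotient.eq_zero_iff_mem.2 (h P (Ideal.Quotient.eq_zero_iff_mem.1 (e P ▸ hP)) α)

theorem td_le_add (h : ∀ S : Subalgebra k (B ⧸ p), (∀ a, Ideal.Quotient.mk p (φ a) ∈ S) →
    (∀ i, Ideal.Quotient.mk p (y i) ∈ S) → ∀ b, IsAlgebraic S (Ideal.Quotient.mk p b)) :
    td k (B ⧸ p) ≤ td k (A ⧸ p.comap φ) + Fintype.card ι := by
  let ψ := aevalTower (Ideal.quotientMapₐ p φ le_rfl) fun i => Ideal.Quotient.mk p (y i)
  have h1 : Algebra.IsAlgebraic ψ.range (B ⧸ p) := ⟨fun b => by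
    obtain ⟨b, rfl⟩ := Ideal.Quotient.mk_surjective b
    exact h ψ.range (fun a => ⟨C (Ideal.Quotient.mk _ a), aevalTower_C _ _ _⟩)
      (fun i => ⟨X i, aevalTower_X _ _ i⟩) b⟩
  have : Algebra.FiniteType k (MvPolynomial ι (A ⧸ p.comap φ)) :=
    Algebra.FiniteType.trans (S := A ⧸ p.comap φ) inferInstance inferInstance
  have : Algebra.FiniteType k ψ.range := .of_surjective _ ψ.rangeRestrict_surjective
  rw [← Dim.td_mvPolynomial, ← Dim.td_eq_iff.2 h1]
  exact Dim.td_le_of_surjective _ ψ.rangeRestrict_surjective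

end alg

variable {V W X Y : Spc} {d e : ℕ}

theorem Fl_ind {H : AddSubgroup (G X)} (h : ∀ M : GMod X, (∀ p : Ideal X.R, p.IsPrime →
    Module.annihilator X.R M.M ≤ p → td ℂ (X.R ⧸ p) < d) → cls M ∈ H) : Fl X d ≤ H := by
  refine (AddSubgroup.closure_le _).2 ?_
  rintro _ ⟨M, hM, rfl⟩
  exact h M ((Dim.dim_quot_lt_iff' (k := ℂ) _ d).1 hM)

theorem cls_mem {M : GMod X} (h : ∀ (p : Ideal X.R) (z : X.Pt), p.IsPrime → (one X).Stab p →
    (∀ r ∈ p, z.1 r = 0) → Module.annihilator X.R M.M ≤ p → td ℂ (X.R ⧸ p) < d) :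
    cls M ∈ Fl X d :=
  cls_mem_of_prime M fun p hp γ h1 h2 ⟨z, hz⟩ => Rk.cls_mem fun q _ h3 =>
    (Dim.td_anti (k := ℂ) ((Ideal.annihilator_quotient (I := p)).ge.trans h3)).trans_lt
      (h p z h1 hp hz h2)

theorem Fl_mono (h : d ≤ e) : Fl X d ≤ Fl X e := Rk.Fl_mono h

theorem Fd_mono (h : d ≤ e) : Fd X d ≤ Fd X e := Rk.Fl_mono (Nat.add_le_add_right h _)

theorem Fd_zero (h : W.Free) : Fd W 0 = ⊥ := eq_bot_iff.2 (Rk.Fd_zero h)

theorem kact_Fl (a : K0 X) {g : G X} (hg : g ∈ Fl X d) : kact X a g ∈ Fl X d := by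
  have h : ∀ B : Bun X, kact X B.cls g ∈ Fl X d := fun B =>
    Fl_ind (H := (Fl X d).comap (kact X B.cls)) (fun M hM => by
      rw [AddSubgroup.mem_comap, kact_cls]
      refine Rk.cls_mem fun p hp h => hM p hp fun r hr => h (Module.mem_annihilator.2 fun x => ?_)
      induction x using B.M.ten_induction M with
      | h0 => exact smul_zero r
      | ht a n => rw [smul_tm, ← tm_smul, Module.mem_annihilator.1 hr, tm_zero]
      | ha x y hx hy => rw [smul_add, hx, hy, add_zero]) hg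
  obtain ⟨A, B, rfl⟩ := K0_induction a
  rw [map_sub, AddMonoidHom.sub_apply]
  exact sub_mem (h A) (h B)

theorem Fd_top {n : ℕ} (hX : X.IsVar n) (g : G X) : g ∈ Fd X (n + 1) :=
  G_mem (fun M => Rk.cls_mem fun p _ _ => by
    have h := (Dim.td_le_dim (k := ℂ) p).trans_eq hX.dim
    have h1 : td ℂ (X.R ⧸ p) ≤ n + Fintype.card X.J := by exact_mod_cast h
    omega) g

theorem rank {n : ℕ} (hX : X.IsVar n) (M : GMod X) (r : ℕ) (z : X.Pt) (h : FreeAt z.1 M.M r) :
    cls M - r • oG X ∈ Fd X n := by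
  have := hX.dom
  obtain ⟨u, s, v, h1, h2, h3⟩ := h
  have h4 : s ≠ 0 := fun o => h1 (by rw [o, map_zero])
  have h5 := (LinearMap.range u).finrank_quotient_add_finrank
  rw [LinearMap.finrank_range_of_inj ((injective_iff_map_eq_zero u).2 fun a ha =>
      (smul_eq_zero.1 (by rw [← h2, ha, map_zero])).resolve_left h4),
    Module.finrank_fin_fun, Module.finrank_eq_zero_iff_isTorsion.2, zero_add] at h5
  · exact h5 ▸ Hb.Dg.cls_rank hX.dim (fun j => (hX.proj.exists_single z j).imp fun s h =>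
      ⟨h.1, fun o => h.2 (by rw [o, map_zero])⟩) M
  · intro b
    obtain ⟨b, rfl⟩ := Submodule.Quotient.mk_surjective _ b
    exact ⟨⟨s, mem_nonZeroDivisors_of_ne_zero h4⟩, (Submodule.Quotient.mk_eq_zero _).2 ⟨_, h3 b⟩⟩

theorem pullG_Fl {φ : Mor W X} (hφ : φ.Flat) (h : ∀ (q : Ideal W.R) (z : W.Pt), q.IsPrime →
    (∀ r ∈ q, z.1 r = 0) → td ℂ (W.R ⧸ q) ≤ td ℂ (X.R ⧸ q.comap φ.φ) + e) {g : G X}
    (hg : g ∈ Fl X d) : pullG φ g ∈ Fl W (d + e) :=
  Fl_ind (H := (Fl W (d + e)).comap (pullG φ)) (fun M hM => by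
    rw [AddSubgroup.mem_comap, pullG_cls hφ]
    refine cls_mem fun q z hq _ hz h1 => (h q z hq hz).trans_lt (Nat.add_lt_add_right
      (hM _ (hq.comap _) fun r hr => h1 (Module.mem_annihilator.2 fun x => ?_)) e)
    induction x using φ.pull_induction M with
    | h0 => exact smul_zero _
    | ht a n => rw [φ.smul_tm, ← φ.tm_smul, Module.mem_annihilator.1 hr, φ.tm_zero]
    | ha x y hx hy => rw [smul_add, hx, hy, add_zero]) hg

theorem pullG_fst_Fl [IsDomain W.R] {g : G X} (hg : g ∈ Fl X d) :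
    pullG (Mor.fst X W) g ∈ Fl (X.prod W) (d + td ℂ W.R) := by
  refine pullG_Fl (flat_fst X W) (fun q _ _ _ => ?_) hg
  have := Dim.isDomain_tensor (k := ℂ) (A := X.R ⧸ q.comap (Mor.fst X W).φ) (B := W.R)
  have : Algebra.FiniteType ℂ ((X.R ⧸ q.comap (Mor.fst X W).φ) ⊗[ℂ] W.R) :=
    Algebra.FiniteType.trans (S := X.R ⧸ q.comap (Mor.fst X W).φ) inferInstance inferInstance
  rw [← Dim.td_tensor]
  refine Dim.td_le_of_surjective (Algebra.TensorProduct.productMap (Ideal.quotientMapₐ q _ le_rfl)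
    ((Ideal.Quotient.mkₐ ℂ q).comp (Mor.snd X W).φ)) fun b => ?_
  obtain ⟨b, rfl⟩ := Ideal.Quotient.mk_surjective b
  induction b using TensorProduct.induction_on with
  | zero => exact ⟨0, map_zero _⟩
  | tmul a b => exact ⟨Ideal.Quotient.mk _ a ⊗ₜ b, congrArg _ (Mor.fst_mul_snd a b)⟩
  | add a b ha hb => exact add_mem (s := AlgHom.range _) ha hb

theorem pullG_snd_Fl [IsDomain W.R] {g : G X} (hg : g ∈ Fl X d) :
    pullG (Mor.snd W X) g ∈ Fl (W.prod X) (d + td ℂ W.R) := by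
  refine pullG_Fl (flat_snd W X) (fun q _ _ _ => ?_) hg
  have := Dim.isDomain_tensor (k := ℂ) (A := X.R ⧸ q.comap (Mor.snd W X).φ) (B := W.R)
  have : Algebra.FiniteType ℂ ((X.R ⧸ q.comap (Mor.snd W X).φ) ⊗[ℂ] W.R) :=
    Algebra.FiniteType.trans (S := X.R ⧸ q.comap (Mor.snd W X).φ) inferInstance inferInstance
  rw [← Dim.td_tensor]
  refine Dim.td_le_of_surjective (Algebra.TensorProduct.productMap (Ideal.quotientMapₐ q _ le_rfl)
    ((Ideal.Quotient.mkₐ ℂ q).comp (Mor.fst W X).φ)) fun b => ?_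
  obtain ⟨b, rfl⟩ := Ideal.Quotient.mk_surjective b
  induction b using TensorProduct.induction_on with
  | zero => exact ⟨0, map_zero _⟩
  | tmul a b => exact ⟨Ideal.Quotient.mk _ b ⊗ₜ a,
      congrArg _ ((mul_comm _ _).trans (Mor.fst_mul_snd a b))⟩
  | add a b ha hb => exact add_mem (s := AlgHom.range _) ha hb

theorem pullG_snd_Fd (hW : W.IsVar e) {g : G X} (hg : g ∈ Fd X d) :
    pullG (Mor.snd W X) g ∈ Fd (W.prod X) (d + e) := by
  have := hW.dom
  have h := pullG_snd_Fl (W := W) hg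
  rwa [hW.td_eq, add_add_add_comm, add_comm (Fintype.card X.J), ← Fintype.card_sum] at h

theorem pullG_adjPr {ι : Type} [Fintype ι] [Nonempty ι] (c : ι → X.J → ℤ) {g : G X}
    (hg : g ∈ Fl X d) : pullG (Mor.adjPr X ι c) g ∈ Fl (X.adj ι c) (d + Fintype.card ι) :=
  pullG_Fl (flat_adjPr X ι c) (fun q _ hq _ => @Dim.td_quot_poly_le ℂ X.R _ _ _ _ ι _ q hq) hg

theorem pullG_fst_Fd (hW : W.IsVar e) {g : G X} (hg : g ∈ Fd X d) :
    pullG (Mor.fst X W) g ∈ Fd (X.prod W) (d + e) := by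
  have := hW.dom
  have h := pullG_fst_Fl (W := W) hg
  rwa [hW.td_eq, add_add_add_comm, ← Fintype.card_sum] at h

theorem td_prj {f : Mor X Y} (Q : Prj f) {p : Ideal X.R} (hp : (one X).Stab p) [h1 : p.IsPrime]
    {z : X.Pt} (hz : ∀ r ∈ p, z.1 r = 0) :
    td ℂ (Y.R ⧸ p.comap f.φ) + Fintype.card Q.E ≤ td ℂ (X.R ⧸ p) := by
  choose y h2 h3 using Q.pt_y z
  refine td_add_le f.φ p y fun P hP α => ?_
  have h4 : ∀ β : Q.E →₀ ℕ, aevalTower f.φ y (monomial β (P.coeff β)) =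
      f.φ (P.coeff β) * ∏ j, y j ^ β j := fun β => by
    rw [monomial_eq, map_mul, aevalTower_C, Finsupp.prod_fintype _ _ fun _ => pow_zero _, map_prod]
    simp only [map_pow, aevalTower_X]
  let a : (Q.E → ℂˣ) → X.R →ₗ[ℂ] X.R := fun h => (X.act (tor Q.π h)).toLinearMap
  have h5 : ∀ β : Q.E →₀ ℕ, f.φ (P.coeff β) * ∏ j, y j ^ β j ∈ wt a fun j => β j := fun β => by
    choose γ hγ using fun j => Q.y_wt j _ (h2 j)
    have h := Q.mem_wtE (M := one X) (Spc.prod_mem Finset.univ fun j _ => Spc.pow_mem (hγ j) (β j))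
    simp only [map_sum, map_nsmul, Q.π_add] at h
    refine Q.smul_mem_wtE (M := one X) _ (cast (congrArg (_ ∈ wt _ ·) (funext fun j => ?_)) h)
    simp [Finset.sum_apply, Pi.single_apply]
  by_cases h6 : α ∈ P.support
  · have hs : ⨆ k, wt a k = ⊤ := Q.spanE (one X)
    have h7 := cmp_mem_stab hs (p.restrictScalars ℂ) (fun g => hp _) hP fun j => α j
    rw [P.as_sum, map_sum, map_sum, Finset.sum_eq_single_of_mem α h6, h4,
      P297Z.cmp_of_mem _ (h5 α)] at h7
    · refine (h1.mem_or_mem h7).resolve_right fun o => ?_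
      have h8 := hz _ o
      rw [map_prod] at h8
      exact Finset.prod_ne_zero_iff.2 (fun j _ => by rw [map_pow]; exact pow_ne_zero _ (h3 j)) h8
    · intro β _ h8
      rw [h4]
      exact P297Z.cmp_of_ne _ (fun o => h8 (Finsupp.ext fun j => by
        exact_mod_cast congrFun o j)) (h5 β)
  · rw [notMem_support_iff.1 h6, map_zero]
    exact p.zero_mem

theorem push_Fl {f : Mor X Y} (Q : Prj f) {x : G X} (hx : x ∈ Fl X (d + Fintype.card Q.E)) :
    push Q x ∈ Fl Y d := by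
  refine Rk.Fl_le (H := (Fl Y d).comap (push Q)) (fun p hp δ z h1 h2 hz => ?_) hx
  obtain ⟨k₀, h⟩ := push_char Q (((one X).quo p hp).shift δ)
  refine (QuotientAddGroup.eq_zero_iff (push Q _)).1 (ext_gen f.ρ Q.σ Q.y Q.y_wt Q.pt_y
    ((QuotientAddGroup.mk' (Fl Y d)).comp (push Q)) _ (k₀ := k₀) fun k hk γ => ?_)
  rw [kact_line, AddMonoidHom.comp_apply, h k hk]
  refine (QuotientAddGroup.eq_zero_iff _).2 (kact_Fl _ (Rk.cls_mem fun q _ h3 => ?_))
  have h4 := td_prj Q hp hz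
  have h5 := Dim.td_anti (k := ℂ) (q := p.comap f.φ) (p := q) fun r hr =>
    h3 (Module.mem_annihilator.2 fun m => Q.val_inj (by
      rw [Q.val_smul, map_zero]
      exact Module.mem_annihilator.1 ((Ideal.annihilator_quotient (I := p)).ge hr) _))
  omega

theorem push_Fd {f : Mor X Y} (Q : Prj f) {x : G X} (hx : x ∈ Fd X d) : push Q x ∈ Fd Y d :=
  push_Fl Q (by rwa [add_assoc, ← Hb.Dg.card_J Q])

theorem pullG_gr1 (hX : X.IsProj) (hY : Y.IsProj) (f : Mor X Y) {g : G X} (hg : g ∈ Fd X d) :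
    pullG f.gr1 g ∈ Fd f.gr d := by
  have h := pullG_Fl (e := Fintype.card Y.J) (flat_gr1 hX hY f) (fun q z hq hz => ?_) hg
  · rwa [add_assoc, ← Fintype.card_sum] at h
  choose y h1 h2 using hY.exists_single ((f.comp f.gr1).onPt z)
  refine td_le_add f.gr1.φ q (fun j => f.gr2.φ (y j)) fun S h3 h4 b => ?_
  obtain ⟨b, rfl⟩ := Ideal.Quotient.mk_surjective b
  induction b using Spc.ten_induction X Y with
  | h0 => exact isAlgebraic_zero
  | ha a b ha hb => exact ha.add hb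
  | hw γ δ a ha r hr =>
    by_cases h5 : r = 0
    · rw [h5, TensorProduct.tmul_zero]
      exact isAlgebraic_zero
    have h6 := (f.gr_homot hY).rel hr (Spc.mon_mem h1 (hY.wt_nonneg hr h5))
    have h7 : Ideal.Quotient.mk q (f.gr1.φ (f.φ (∏ j, y j ^ (δ j).toNat))) ≠ 0 := fun o =>
      Finset.prod_ne_zero_iff.2 (fun j _ => pow_ne_zero (δ j).toNat (h2 j)) (by
        have h8 := hz _ (Ideal.Quotient.eq_zero_iff_mem.1 o)
        simp only [map_prod, map_pow] at h8
        exact h8)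
    have h8 : Ideal.Quotient.mk q (f.gr2.φ (∏ j, y j ^ (δ j).toNat)) ∈ S := by
      simp only [map_prod, map_pow]
      exact prod_mem fun j _ => pow_mem (h4 j) _
    have h9 : IsAlgebraic S (Ideal.Quotient.mk q (f.gr2.φ r)) := by
      refine IsAlgebraic.of_smul (y := (⟨_, h3 _⟩ : S))
        (mem_nonZeroDivisors_of_ne_zero fun o => h7 (congrArg Subtype.val o)) ?_
      have h9 := isAlgebraic_algebraMap (A := f.gr.R ⧸ q) (⟨_, mul_mem (h3 (f.φ r)) h8⟩ : S)
      exact cast (congrArg _ ((map_mul _ _ _).symm.trans ((congrArg _ h6).trans (map_mul _ _ _)))) h9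
    exact cast (congrArg _ ((map_mul _ _ _).symm.trans (congrArg _ ((map_mul (Ideal.Quotient.mk _)
      _ _).symm.trans (congrArg _ (Mor.fst_mul_snd a r))))))
      ((isAlgebraic_algebraMap (A := f.gr.R ⧸ q) (⟨_, h3 a⟩ : S)).mul h9)

theorem fstar_Fd (hX : X.IsProj) (hY : Y.IsProj) (f : Mor X Y) {g : G X} (hg : g ∈ Fd X d) :
    fstar f g ∈ Fd Y d := by
  unfold fstar
  split_ifs with h
  · exact push_Fd _ (pullG_gr1 hX hY f hg)
  · exact zero_mem _

end Vale.Agent.P297Z.Flt
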