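import Vale.Agent.P297Z.K.AF3
import Vale.Agent.P297Z.K.Flt

/-!
# P297: the dimension filtration (all statements are in the namespaces `AF` and `Flt`)
-/

set_option linter.all false

noncomputable section

namespace Vale.Agent.P297Z.AF

open GMod Dim

variable {W X Y : Spc} {d n : ℕ}

export Flt (push_Fl push_Fd pullG_fst_Fd pullG_snd_Fd pullG_adjPr pullG_gr1 fstar_Fd)

theorem var_free (h : X.IsVar n) : X.Free := h.proj.free

theorem var_top (h : X.IsVar n) : Fd X (n + 1) = ⊤ := Fd_top h.dim.le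

theorem var_rkG (h : X.IsVar n) (x : G X) : x - rkG X x • oG X ∈ Fd X n :=
  have := h.dom
  have := h.ne
  sub_rkG_Fl h.proj.free h.dim.le x

theorem var_rkG_Fd (h : X.IsVar n) {x : G X} : x ∈ Fd X n ↔ rkG X x = 0 :=
  have := h.dom
  have := h.ne
  ⟨rkG_Fl h.dim.ge, fun h0 => by simpa [h0] using var_rkG h x⟩

theorem var_smul_oG (h : X.IsVar n) {c : ℤ} (hc : c • oG X ∈ Fd X n) : c = 0 := by
  have := h.dom
  have := h.ne
  simpa [rkG_oG] using (var_rkG_Fd h).1 hc

theorem var_FF_zero (h : X.IsVar n) {a : K0 X} (ha : a ∈ FF X (n + 1)) (x : G X) :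
    kact X a x = 0 := FF_kact_zero h.proj.free h.dim.le ha x

theorem var_FF_oG (h : X.IsVar n) {j : ℕ} {a : K0 X} (ha : a ∈ FF X j) :
    kact X a (oG X) ∈ Fd X (n + 1 - j) := FF_Fd' h.proj.free ha ((var_top h).ge trivial)

/-- a closed irreducible stable set is a variety -/
theorem sub_var (hX : X.IsProj) {Z : Set X.Pt} (hZ : X.Stab Z) (h1 : Z.Nonempty)
    (h2 : (X.van Z).IsPrime) (h3 : X.cdim Z = (d + Fintype.card X.J : ℕ)) :
    (X.sub Z hZ).IsVar d where
  proj := hX.sub Z hZ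
  dom := (Ideal.Quotient.isDomain_iff_prime _).2 h2
  ne := h1.elim fun z hz => ⟨⟨Ideal.Quotient.liftₐ (X.van Z) z.1 fun a ha => ha z hz,
    (Spc.sub_pt X Z hZ _).2 z.2⟩⟩
  dim := h3

/-- the classes of dimension `d` are generated by the subvarieties -/
theorem Fd_succ_le_var (hX : X.IsProj) (H : AddSubgroup (G X)) (h0 : Fd X d ≤ H)
    (h : ∀ (Z : Set X.Pt) (hZ : X.Stab Z), X.Clo Z → (X.sub Z hZ).IsVar d →
      fstar (Mor.incl X Z hZ) (oG _) ∈ H) : Fd X (d + 1) ≤ H :=
  Fd_succ_le hX.free H h0 fun Z hZ h1 h2 h3 h4 =>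
    fstar_incl_oG hX Z hZ ▸ h Z hZ h1 (sub_var hX hZ h2 h3 h4)

/-- on classes of dimension zero, the push-forward to a variety of dimension zero is the degree -/
theorem chiG_kact (hX : X.IsProj) (a : K0 X) {x : G X} (hx : x ∈ Fd X 1) :
    chiG X (kact X a x) = rk X a * chiG X x := by
  rw [kact_Fd_one hX.free a hx, map_zsmul, smul_eq_mul]

end Vale.Agent.P297Z.AF
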