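import Vale.Agent.P297Z.K.Fstar
import Vale.Agent.P297Z.K.BC

/-!
# P297: the push-forward along maps of projective spaces, all files
-/
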