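import Vale.Agent.P297Z.K.AG
import Vale.Agent.P297Z.Dim.Fib

/-!
# P297: generators of the dimension filtration
-/

set_option linter.all false

noncomputable section

namespace Vale.Agent.P297Z

open Finset GMod

variable {W : Spc}

namespace Rk

open Vale.Agent.P009.S.H532 (td)

theorem cls_mem {M : GMod W} {d : ℕ} (h : ∀ p : Ideal W.R, p.IsPrime →
    Module.annihilator W.R M.M ≤ p → td ℂ (W.R ⧸ p) < d) : cls M ∈ Fl W d :=
  AddSubgroup.subset_closure ⟨M, (Dim.dim_quot_lt_iff' (k := ℂ) _ d).2 h, rfl⟩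

theorem Fl_le {H : AddSubgroup (G W)} {d : ℕ}
    (h : ∀ (p : Ideal W.R) (hp : (one W).Stab p) (γ : W.J → ℤ) (z : W.Pt), p.IsPrime →
      td ℂ (W.R ⧸ p) < d → (∀ r ∈ p, z.1 r = 0) → cls (((one W).quo p hp).shift γ) ∈ H) :
    Fl W d ≤ H := by
  refine (AddSubgroup.closure_le _).2 ?_
  rintro _ ⟨M, hM, rfl⟩
  exact cls_mem_of_prime M fun p hp γ h1 h2 ⟨z, hz⟩ =>
    h p hp γ z h1 ((Dim.dim_quot_lt_iff' (k := ℂ) _ d).1 hM p h1 h2) hz

theorem Fl_mono {d e : ℕ} (h : d ≤ e) : Fl W d ≤ Fl W e :=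
  AddSubgroup.closure_mono fun _ ⟨M, h1, h2⟩ => ⟨M, h1.trans_le (by exact_mod_cast h), h2⟩

theorem exists_deg (hW : W.Free) (z : W.Pt) : ∃ (b : W.J → ℤ) (r : W.J → W.R),
    ∀ j, r j ∈ W.wt (2 • b + Pi.single j 1) ∧ z.1 (r j) ≠ 0 := by
  let S : AddSubmonoid (W.J → ℤ) :=
    { carrier := {γ | ∃ r ∈ W.wt γ, z.1 r ≠ 0}
      zero_mem' := ⟨1, W.one_mem, by simp⟩
      add_mem' := fun ⟨r, h1, h2⟩ ⟨s, h3, h4⟩ =>
        ⟨r * s, Spc.mul_mem h1 h3, by rw [map_mul]; exact mul_ne_zero h2 h4⟩ }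
  have h1 : ∀ γ : W.J → ℤ, ∃ b ∈ S, b + γ ∈ S := by
    intro γ
    have h2 : γ ∈ AddSubgroup.closure (S : Set (W.J → ℤ)) := (hW z).ge trivial
    induction h2 using AddSubgroup.closure_induction with
    | mem x hx => exact ⟨0, zero_mem _, by rwa [zero_add]⟩
    | zero => exact ⟨0, zero_mem _, by rw [add_zero]; exact zero_mem _⟩
    | add x y _ _ hx hy =>
      obtain ⟨b, h1, h2⟩ := hx
      obtain ⟨c, h3, h4⟩ := hy
      exact ⟨b + c, add_mem h1 h3, by rw [add_add_add_comm]; exact add_mem h2 h4⟩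
    | neg x _ hx =>
      obtain ⟨b, h1, h2⟩ := hx
      exact ⟨b + x, h2, by rwa [add_neg_cancel_right]⟩
  choose b hb hb' using h1
  have h2 : ∀ j, 2 • ∑ i, b (Pi.single i 1) + Pi.single j 1 ∈ S := fun j => by
    rw [two_smul, add_assoc]
    refine add_mem (sum_mem fun i _ => hb _) ?_
    rw [← Finset.sum_erase_add _ _ (Finset.mem_univ j), add_assoc]
    exact add_mem (sum_mem fun i _ => hb _) (hb' _)
  choose r hr using h2
  exact ⟨_, r, hr⟩

theorem deg_inj {J : Type} [Fintype J] [DecidableEq J] (b : J → ℤ) {α β : J →₀ ℕ}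
    (h : ∑ j, α j • (2 • b + Pi.single j 1) = ∑ j, β j • (2 • b + Pi.single j 1)) : α = β := by
  have h1 : ∀ (α : J →₀ ℕ) (i : J), (∑ j, α j • (2 • b + Pi.single j 1 : J → ℤ)) i =
      (∑ j, (α j : ℤ)) * (2 * b i) + α i := fun α i => by
    simp [Finset.sum_apply, mul_add, Finset.sum_add_distrib, Finset.sum_mul, Pi.single_apply]
  have h2 : ∀ i, (∑ j, (α j : ℤ)) * (2 * b i) + α i = (∑ j, (β j : ℤ)) * (2 * b i) + β i :=
    fun i => by rw [← h1, ← h1, h]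
  have h3 := Finset.sum_congr (s₁ := Finset.univ) rfl fun i _ => h2 i
  rw [Finset.sum_add_distrib, Finset.sum_add_distrib, ← Finset.mul_sum, ← Finset.mul_sum,
    ← mul_add_one, ← Finset.mul_sum, ← mul_add_one, ← Finset.mul_sum] at h3
  have h4 := mul_right_cancel₀ (show 2 * ∑ i, b i + 1 ≠ 0 by omega) h3
  ext i
  have := h2 i
  rw [h4] at this
  exact_mod_cast add_left_cancel this

theorem card_le (hW : W.Free) {p : Ideal W.R} (hp : (one W).Stab p) (h1 : p.IsPrime) {z : W.Pt}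
    (hz : ∀ r ∈ p, z.1 r = 0) : Fintype.card W.J ≤ td ℂ (W.R ⧸ p) := by
  obtain ⟨b, r, hr⟩ := exists_deg hW z
  refine le_add_self.trans (Dim.td_add_card_le (k := ℂ) (R := ℂ)
    (x := fun j => Ideal.Quotient.mkₐ ℂ p (r j)) (algebraicIndependent_iff.2 fun P hP => ?_))
  rw [← MvPolynomial.comp_aeval_apply, Ideal.Quotient.mkₐ_eq_mk,
    Ideal.Quotient.eq_zero_iff_mem] at hP
  have h2 : ∀ α : W.J →₀ ℕ, MvPolynomial.aeval r (MvPolynomial.monomial α (P.coeff α)) =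
      P.coeff α • ∏ j, r j ^ α j := fun α => by
    rw [MvPolynomial.aeval_monomial, Finsupp.prod_fintype _ _ fun _ => pow_zero _, Algebra.smul_def]
  have h3 : ∀ α : W.J →₀ ℕ, P.coeff α • ∏ j, r j ^ α j ∈
      wt (fun g => (W.act g).toLinearMap) (∑ j, α j • (2 • b + Pi.single j 1)) := fun α =>
    Submodule.smul_mem _ _ (Spc.prod_mem _ fun j _ => Spc.pow_mem (hr j).1 _)
  ext α
  by_contra h4
  have h5 : cmp W.span (∑ j, α j • (2 • b + Pi.single j 1)) (MvPolynomial.aeval r P) ∈ p :=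
    (one W).cmp_mem_stab hp hP _
  rw [P.as_sum, map_sum, map_sum, Finset.sum_eq_single α, h2,
    P297Z.cmp_of_mem _ (h3 α)] at h5
  · have h6 := hz _ h5
    rw [map_smul, map_prod] at h6
    exact mul_ne_zero h4 (Finset.prod_ne_zero_iff.2 fun j _ => by
      rw [map_pow]
      exact pow_ne_zero _ (hr j).2) h6
  · intro β _ h6
    rw [h2]
    exact P297Z.cmp_of_ne _ (fun h7 => h6 (deg_inj b h7)) (h3 β)
  · exact fun h6 => absurd (MvPolynomial.mem_support_iff.2 h4) h6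

theorem Fd_zero (hW : W.Free) : Fd W 0 ≤ ⊥ := Fl_le fun p hp _ _ h1 h2 hz =>
  absurd h2 (by rw [zero_add]; exact (card_le hW hp h1 hz).not_gt)

end Rk

end Vale.Agent.P297Z
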