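import Vale.Agent.P297Z.K.GMod

/-!
# P297: local algebra at a point
-/

set_option linter.all false

open scoped TensorProduct

noncomputable section

namespace Vale.Agent.P297Z.AK

variable {R : Type} [CommRing R] [Algebra ℂ R] {z : R →ₐ[ℂ] ℂ} {A B C D E : Type}
  [AddCommGroup A] [Module R A] [AddCommGroup B] [Module R B] [AddCommGroup C] [Module R C]
  [AddCommGroup D] [Module R D] [AddCommGroup E] [Module R E]
  {f : A →ₗ[R] B} {g : B →ₗ[R] C}

theorem mul_ne {r s : R} (hr : z r ≠ 0) (hs : z s ≠ 0) : z (r * s) ≠ 0 := by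
  rw [map_mul]
  exact mul_ne_zero hr hs

theorem one_ne : z 1 ≠ 0 := by
  rw [map_one]
  exact one_ne_zero

theorem nontriv (z : R →ₐ[ℂ] ℂ) : Nontrivial R := z.toRingHom.domain_nontrivial

/-- a common multiplier for a finite family -/
theorem unif {ι : Type*} [Finite ι] {P : ι → R → Prop} (hP : ∀ i r s, P i r → P i (s * r))
    (h : ∀ i, ∃ r, z r ≠ 0 ∧ P i r) : ∃ r, z r ≠ 0 ∧ ∀ i, P i r := by
  classical
  have := Fintype.ofFinite ι
  choose r h1 h2 using h
  refine ⟨∏ i, r i, ?_, fun i => ?_⟩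
  · rw [map_prod]
    exact Finset.prod_ne_zero_iff.2 fun i _ => h1 i
  · rw [← Finset.prod_erase_mul _ _ (Finset.mem_univ i)]
    exact hP i _ _ (h2 i)

theorem unif_map {ι : Type*} [Finite ι] {b : ι → B} (h : ∀ i, ∃ r a, z r ≠ 0 ∧ f a = r • b i) :
    ∃ r, ∃ a : ι → A, z r ≠ 0 ∧ ∀ i, f (a i) = r • b i := by
  obtain ⟨r, h1, h2⟩ := unif (z := z) (P := fun i r => ∃ a, f a = r • b i)
    (fun i r s ⟨a, ha⟩ => ⟨s • a, by rw [map_smul, ha, mul_smul]⟩)
    fun i => (h i).imp fun r ⟨a, h1, h2⟩ => ⟨h1, a, h2⟩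
  choose a ha using h2
  exact ⟨r, a, h1, ha⟩

/-- a common multiplier for a finitely generated submodule -/
theorem unif_fg {S T : Submodule R A} (hS : S.FG) (h : ∀ a ∈ S, ∃ r, z r ≠ 0 ∧ r • a ∈ T) :
    ∃ r, z r ≠ 0 ∧ ∀ a ∈ S, r • a ∈ T := by
  obtain ⟨s, rfl⟩ := hS
  obtain ⟨r, h1, h2⟩ := unif (z := z) (P := fun (i : s) r => r • (i : A) ∈ T)
    (fun i r t h => by rw [mul_smul]; exact T.smul_mem _ h)
    fun i => h i (Submodule.subset_span i.2)
  refine ⟨r, h1, fun a ha => ?_⟩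
  have : Submodule.span R (s : Set A) ≤ T.comap (r • LinearMap.id : A →ₗ[R] A) :=
    Submodule.span_le.2 fun a ha => h2 ⟨a, ha⟩
  exact this ha

/-! ### invertible maps -/

theorem iso_equiv (e : A ≃ₗ[R] B) : IsoAt z e.toLinearMap :=
  ⟨1, e.symm, one_ne, fun a => by simp, fun b => by simp⟩

theorem iso_id : IsoAt z (LinearMap.id : A →ₗ[R] A) := iso_equiv (LinearEquiv.refl R A)

theorem iso_comp (h : IsoAt z f) (h' : IsoAt z g) : IsoAt z (g ∘ₗ f) := by
  obtain ⟨r, f', hr, h1, h2⟩ := h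
  obtain ⟨s, g', hs, h3, h4⟩ := h'
  refine ⟨r * s, f' ∘ₗ g', mul_ne hr hs, fun a => ?_, fun c => ?_⟩
  · simp only [LinearMap.comp_apply, h3, map_smul, h1, smul_smul, mul_comm]
  · simp only [LinearMap.comp_apply, h2, map_smul, h4, smul_smul]

theorem iso_inj (h : IsoAt z f) : InjAt z f := by
  obtain ⟨r, f', hr, h1, -⟩ := h
  exact fun a ha => ⟨r, hr, by rw [← h1, ha, map_zero]⟩

theorem iso_surj (h : IsoAt z f) : SurjAt z f := by
  obtain ⟨r, f', hr, -, h2⟩ := h
  exact fun b => ⟨r, f' b, hr, h2 b⟩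

theorem iso_of_bij [IsNoetherian R A] [Module.Finite R B] (h : InjAt z f) (h' : SurjAt z f) :
    IsoAt z f := by
  obtain ⟨r, hr, h1⟩ := unif_fg (z := z) (S := LinearMap.ker f) (T := ⊥)
    (IsNoetherian.noetherian _) h
  obtain ⟨s, hs, h2⟩ := unif_fg (z := z) (S := (⊤ : Submodule R B)) (T := LinearMap.range f)
    Module.Finite.fg_top fun b _ => (h' b).imp fun r ⟨a, h1, h2⟩ => ⟨h1, a, h2⟩
  let q : (A ⧸ LinearMap.ker f) →ₗ[R] A := (LinearMap.ker f).liftQ (r • LinearMap.id)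
    fun a ha => LinearMap.mem_ker.2 ((Submodule.mem_bot R).1 (h1 a ha))
  let t : B →ₗ[R] LinearMap.range f :=
    LinearMap.codRestrict _ (s • LinearMap.id) fun b => h2 b trivial
  have key : ∀ b a, f a = s • b → (q ∘ₗ f.quotKerEquivRange.symm.toLinearMap ∘ₗ t) b = r • a := by
    intro b a h
    have : t b = ⟨f a, LinearMap.mem_range_self f a⟩ := Subtype.ext h.symm
    rw [LinearMap.comp_apply, LinearMap.comp_apply, this, LinearEquiv.coe_coe,
      LinearMap.quotKerEquivRange_symm_apply_image]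
    rfl
  refine ⟨r * s, q ∘ₗ f.quotKerEquivRange.symm.toLinearMap ∘ₗ t, mul_ne hr hs, fun a => ?_,
    fun b => ?_⟩
  · rw [key _ (s • a) (map_smul f s a), mul_smul]
  · obtain ⟨a, ha⟩ := h2 b trivial
    rw [key b a ha, map_smul, ha, mul_smul]

theorem iso_inv (h : IsoAt z f) : ∃ f' : B →ₗ[R] A, IsoAt z f' := by
  obtain ⟨r, f', hr, h1, h2⟩ := h
  exact ⟨f', r, f, hr, h2, h1⟩

/-- two out of three -/
theorem iso_of_comm {u : C →ₗ[R] A} {v : D →ₗ[R] B} {h : C →ₗ[R] D} (hu : IsoAt z u)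
    (hv : IsoAt z v) (hh : IsoAt z h) (e : ∀ x, f (u x) = v (h x)) : IsoAt z f := by
  obtain ⟨r, u', hr, h1, h2⟩ := hu
  obtain ⟨s, w, hs, h3, h4⟩ := iso_comp hh hv
  simp only [LinearMap.comp_apply, ← e] at h3 h4
  refine ⟨r * s, r • (u ∘ₗ w), mul_ne hr hs, fun a => ?_, fun b => ?_⟩
  · rw [LinearMap.smul_apply, LinearMap.comp_apply, ← map_smul, ← map_smul, ← map_smul, ← h2, h3,
      map_smul, h2, smul_smul, mul_comm]
  · rw [LinearMap.smul_apply, LinearMap.comp_apply, map_smul, h4, mul_smul]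

theorem iso_map {u : C →ₗ[R] D} (h : IsoAt z f) (h' : IsoAt z u) :
    IsoAt z (TensorProduct.map f u) := by
  obtain ⟨r, f', hr, h1, h2⟩ := h
  obtain ⟨s, u', hs, h3, h4⟩ := h'
  refine ⟨r * s, TensorProduct.map f' u', mul_ne hr hs, fun x => ?_, fun x => ?_⟩
  · induction x with
    | zero => simp
    | tmul a c => simp only [TensorProduct.map_tmul, h1, h3, TensorProduct.smul_tmul_smul]
    | add x y hx hy => simp only [map_add, hx, hy, smul_add]
  · induction x with
    | zero => simp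
    | tmul a c => simp only [TensorProduct.map_tmul, h2, h4, TensorProduct.smul_tmul_smul]
    | add x y hx hy => simp only [map_add, hx, hy, smul_add]

theorem iso_lcomp (h : IsoAt z f) : IsoAt z (LinearMap.lcomp R C f) := by
  obtain ⟨r, f', hr, h1, h2⟩ := h
  refine ⟨r, LinearMap.lcomp R C f', hr, fun x => ?_, fun x => ?_⟩
  · ext b
    simp [h2]
  · ext b
    simp [h1]

theorem iso_llcomp (h : IsoAt z f) :
    IsoAt z (LinearMap.llcomp R C A B f : (C →ₗ[R] A) →ₗ[R] C →ₗ[R] B) := by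
  obtain ⟨r, f', hr, h1, h2⟩ := h
  refine ⟨r, LinearMap.llcomp R C B A f', hr, fun x => ?_, fun x => ?_⟩
  · ext b
    simp [h1]
  · ext b
    simp [h2]

theorem iso_prodMap {u : C →ₗ[R] D} (h : IsoAt z f) (h' : IsoAt z u) : IsoAt z (f.prodMap u) := by
  obtain ⟨r, f', hr, h1, h2⟩ := h
  obtain ⟨s, u', hs, h3, h4⟩ := h'
  refine ⟨r * s, (s • f').prodMap (r • u'), mul_ne hr hs, fun x => ?_, fun x => ?_⟩
  · ext <;> simp [h1, h3, smul_smul, mul_comm]
  · ext <;> simp [h2, h4, smul_smul, mul_comm]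

theorem ext_smul (n : ℕ) (r : R) (x : ⋀[R]^n A) :
    exteriorPower.map n (r • LinearMap.id : A →ₗ[R] A) x = r ^ n • x := by
  have : exteriorPower.map n (r • LinearMap.id : A →ₗ[R] A) = r ^ n • LinearMap.id := by
    refine exteriorPower.linearMap_ext (AlternatingMap.ext fun v => ?_)
    have h := (exteriorPower.ιMulti R n (M := A)).toMultilinearMap.map_smul_univ (fun _ => r) v
    simp only [Finset.prod_const, Finset.card_univ, Fintype.card_fin] at h
    simp only [LinearMap.compAlternatingMap_apply, exteriorPower.map_apply_ιMulti,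
      LinearMap.smul_apply, LinearMap.id_apply]
    exact h
  rw [this]
  rfl

theorem iso_ext (h : IsoAt z f) (n : ℕ) : IsoAt z (exteriorPower.map n f) := by
  obtain ⟨r, f', hr, h1, h2⟩ := h
  have h3 : f' ∘ₗ f = r • LinearMap.id := LinearMap.ext h1
  have h4 : f ∘ₗ f' = r • LinearMap.id := LinearMap.ext h2
  refine ⟨r ^ n, exteriorPower.map n f', by rw [map_pow]; exact pow_ne_zero _ hr, fun x => ?_,
    fun x => ?_⟩
  · rw [← LinearMap.comp_apply, ← exteriorPower.map_comp, h3, ext_smul]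
  · rw [← LinearMap.comp_apply, ← exteriorPower.map_comp, h4, ext_smul]

section bc

variable {S : Type} [CommRing S] [Algebra ℂ S] [Algebra R S] {w : S →ₐ[ℂ] ℂ}

theorem bc_smul {u : A →ₗ[R] A} {r : R} (h : ∀ a, u a = r • a) (x : S ⊗[R] A) :
    u.baseChange S x = algebraMap R S r • x := by
  induction x with
  | zero => simp
  | tmul s a => rw [LinearMap.baseChange_tmul, h, TensorProduct.tmul_smul, algebraMap_smul]
  | add x y hx hy => simp only [map_add, hx, hy, smul_add]

theorem iso_bc (hw : ∀ r, w (algebraMap R S r) = z r) (h : IsoAt z f) :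
    IsoAt w (f.baseChange S) := by
  obtain ⟨r, f', hr, h1, h2⟩ := h
  refine ⟨algebraMap R S r, f'.baseChange S, by rwa [hw], fun x => ?_, fun x => ?_⟩
  · rw [← LinearMap.comp_apply, ← LinearMap.baseChange_comp]
    exact bc_smul h1 x
  · rw [← LinearMap.comp_apply, ← LinearMap.baseChange_comp]
    exact bc_smul h2 x

end bc

/-! ### free modules -/

theorem free_iso {n : ℕ} (h : FreeAt z A n) (h' : IsoAt z f) : FreeAt z B n := by
  obtain ⟨e, he⟩ := h
  exact ⟨f ∘ₗ e, iso_comp he h'⟩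

theorem free_iso' {n : ℕ} (h : FreeAt z B n) (h' : IsoAt z f) : FreeAt z A n := by
  obtain ⟨f', hf⟩ := iso_inv h'
  exact free_iso h hf

theorem free_of_free [Module.Free R A] [Module.Finite R A] {n : ℕ} (h : Module.finrank R A = n) :
    FreeAt z A n := by
  have := nontriv z
  exact ⟨(Module.finBasisOfFinrankEq R A h).equivFun.symm.toLinearMap, iso_equiv _⟩

theorem free_zero [Module.Finite R A] (h : ZeroAt z A) : FreeAt z A 0 := by
  obtain ⟨r, hr, h1⟩ := unif_fg (z := z) (S := (⊤ : Submodule R A)) (T := ⊥) Module.Finite.fg_top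
    fun a _ => h a
  exact ⟨0, r, 0, hr, fun _ => Subsingleton.elim _ _, fun b => (h1 b trivial).symm⟩

theorem free_prod {a b : ℕ} (h : FreeAt z A a) (h' : FreeAt z B b) : FreeAt z (A × B) (a + b) := by
  have := nontriv z
  obtain ⟨e, he⟩ := h
  obtain ⟨e', he'⟩ := h'
  exact free_iso (free_of_free (by simp)) (iso_prodMap he he')

theorem free_ten {a b : ℕ} (h : FreeAt z A a) (h' : FreeAt z B b) :
    FreeAt z (A ⊗[R] B) (a * b) := by
  have := nontriv z
  obtain ⟨e, he⟩ := h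
  obtain ⟨e', he'⟩ := h'
  exact free_iso (free_of_free (by simp)) (iso_map he he')

theorem free_hom {a b : ℕ} (h : FreeAt z A a) (h' : FreeAt z B b) :
    FreeAt z (A →ₗ[R] B) (a * b) := by
  have := nontriv z
  obtain ⟨e, he⟩ := h
  obtain ⟨e', he'⟩ := h'
  refine free_iso' (free_iso (A := (Fin a → R) →ₗ[R] (Fin b → R)) (free_of_free ?_)
    (iso_llcomp he')) (iso_lcomp he)
  rw [Module.finrank_linearMap]
  simp

theorem free_ext {a : ℕ} (h : FreeAt z A a) (n : ℕ) : FreeAt z (⋀[R]^n A) (a.choose n) := by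
  have := nontriv z
  obtain ⟨e, he⟩ := h
  refine free_iso (free_of_free ?_) (iso_ext he n)
  rw [exteriorPower.finrank_eq]
  simp

theorem free_bc {S : Type} [CommRing S] [Algebra ℂ S] [Algebra R S] {w : S →ₐ[ℂ] ℂ}
    (hw : ∀ r, w (algebraMap R S r) = z r) {a : ℕ} (h : FreeAt z A a) :
    FreeAt w (S ⊗[R] A) a := by
  have := nontriv z
  have := nontriv w
  obtain ⟨e, he⟩ := h
  exact free_iso (free_of_free (by simp)) (iso_bc hw he)

/-- a basis and the dual basis at the point -/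
theorem free_basis {n : ℕ} (h : FreeAt z A n) : ∃ (r : R) (v : Fin n → A) (l : Fin n → A →ₗ[R] R),
    z r ≠ 0 ∧ (∀ x, ∑ i, l i x • v i = r • x) ∧ ∀ i j, l i (v j) = if i = j then r else 0 := by
  obtain ⟨e, r, e', hr, h1, h2⟩ := h
  refine ⟨r, fun i => e (Pi.single i 1), fun i => LinearMap.proj i ∘ₗ e', hr, fun x => ?_,
    fun i j => ?_⟩
  · rw [← h2]
    conv_rhs => rw [pi_eq_sum_univ' (e' x), map_sum]
    simp only [map_smul, LinearMap.comp_apply, LinearMap.proj_apply]
  · simp [h1, Pi.single_apply]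

theorem free_le {a b : ℕ} (hA : FreeAt z A a) (hB : FreeAt z B b) (h : SurjAt z f) : b ≤ a := by
  obtain ⟨r, v, l, hr, h1, -⟩ := free_basis hA
  obtain ⟨s, w, m, hs, -, h2⟩ := free_basis hB
  obtain ⟨t, x, ht, h3⟩ := unif_map fun j => h (w j)
  let P : Matrix (Fin b) (Fin a) ℂ := Matrix.of fun j i => z (m j (f (v i)))
  let Q : Matrix (Fin a) (Fin b) ℂ := Matrix.of fun i k => (z (r * t * s))⁻¹ * z (l i (x k))
  have h0 : z (r * t * s) ≠ 0 := mul_ne (mul_ne hr ht) hs
  have h4 : P * Q = 1 := by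
    ext j k
    have h5 := congrArg (fun y => z (m j (f y))) (h1 (x k))
    simp only [map_sum, map_smul, smul_eq_mul, h3, h2, map_mul] at h5
    simp only [P, Q, Matrix.mul_apply, Matrix.of_apply, mul_left_comm _ (z (r * t * s))⁻¹, ← Finset.mul_sum,
      mul_comm (z (m j _)), h5, Matrix.one_apply]
    rw [inv_mul_eq_iff_eq_mul₀ h0]
    split_ifs <;> simp [mul_assoc]
  have h5 := Matrix.rank_mul_le_left P Q
  rw [h4, Matrix.rank_one, Fintype.card_fin] at h5
  exact h5.trans (Matrix.rank_le_width P)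

/-! ### split sequences -/

variable (z f g) in
/-- split at the point -/
def Split : Prop := (∀ a, g (f a) = 0) ∧ ∃ (r : R) (p : B →ₗ[R] A) (s : C →ₗ[R] B), z r ≠ 0 ∧
  (∀ a, p (f a) = r • a) ∧ (∀ c, g (s c) = r • c) ∧ ∀ b, f (p b) + s (g b) = r • b

theorem Split.ses (h : Split z f g) : InjAt z f ∧ ExAt z f g ∧ SurjAt z g := by
  obtain ⟨-, r, p, s, hr, h1, h2, h3⟩ := h
  refine ⟨fun a ha => ⟨r, hr, by rw [← h1, ha, map_zero]⟩, fun b hb => ⟨r, p b, hr, ?_⟩,
    fun c => ⟨r, s c, hr, h2 c⟩⟩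
  rw [← h3, hb, map_zero, add_zero]

theorem split_of [IsNoetherian R A] [IsNoetherian R B] (h0 : ∀ a, g (f a) = 0) (h1 : InjAt z f)
    (h2 : ExAt z f g) (h3 : SurjAt z g) {n : ℕ} (hC : FreeAt z C n) : Split z f g := by
  obtain ⟨r, v, l, hr, h4, -⟩ := free_basis hC
  obtain ⟨t, b, ht, h5⟩ := unif_map fun i => h3 (v i)
  let s : C →ₗ[R] B := ∑ i, (l i).smulRight (b i)
  have hs : ∀ c, g (s c) = (t * r) • c := fun c => by
    simp only [s, LinearMap.sum_apply, LinearMap.smulRight_apply, map_sum, map_smul, h5,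
      smul_comm _ t, ← Finset.smul_sum, h4, mul_smul]
  obtain ⟨u, q, hu, h6, h7⟩ : IsoAt z (f.codRestrict (LinearMap.ker g) h0) :=
    iso_of_bij (fun a ha => h1 a (congrArg Subtype.val ha))
      fun k => (h2 k k.2).imp fun r ⟨a, h1, h2⟩ => ⟨a, h1, Subtype.ext h2⟩
  let k : B →ₗ[R] LinearMap.ker g :=
    LinearMap.codRestrict _ ((t * r) • LinearMap.id - s ∘ₗ g) fun b => by
      rw [LinearMap.mem_ker, LinearMap.sub_apply, map_sub, LinearMap.comp_apply, hs,
        LinearMap.smul_apply, map_smul, LinearMap.id_apply, sub_self]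
  refine ⟨h0, u * (t * r), q ∘ₗ k, u • s, mul_ne hu (mul_ne ht hr), fun a => ?_, fun c => ?_,
    fun b => ?_⟩
  · have : k (f a) = (t * r) • f.codRestrict (LinearMap.ker g) h0 a :=
      Subtype.ext (by
        show (t * r) • f a - s (g (f a)) = (t * r) • f a
        rw [h0, map_zero, sub_zero])
    rw [LinearMap.comp_apply, this, map_smul, h6, smul_smul, mul_comm]
  · rw [LinearMap.smul_apply, map_smul, hs, smul_smul]
  · have h8 : f (q (k b)) = u • ((t * r) • b - s (g b)) := congrArg Subtype.val (h7 (k b))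
    rw [LinearMap.comp_apply, h8, LinearMap.smul_apply, ← smul_add, sub_add_cancel, smul_smul]

theorem Split.iso (h : Split z f g) : ∃ s : C →ₗ[R] B, IsoAt z (f.coprod s) := by
  obtain ⟨h0, r, p, s, hr, h1, h2, h3⟩ := h
  have h4 : ∀ c, r • p (s c) = 0 := fun c => by
    have h5 := h3 (s c)
    rw [h2, map_smul, add_eq_right] at h5
    rw [← h1, h5, map_zero]
  refine ⟨s, r * r, r • p.prod g, mul_ne hr hr, fun x => ?_, fun b => ?_⟩
  · ext
    · simp [h1, h4, smul_smul]
    · simp [h0, h2, smul_smul]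
  · show f (r • p b) + s (r • g b) = _
    rw [map_smul, map_smul, ← smul_add, h3, smul_smul]

theorem Split.rTensor (h : Split z f g) : Split z (f.rTensor D) (g.rTensor D) := by
  obtain ⟨h0, r, p, s, hr, h1, h2, h3⟩ := h
  refine ⟨fun x => ?_, r, p.rTensor D, s.rTensor D, hr, fun x => ?_, fun x => ?_, fun x => ?_⟩
  · rw [← LinearMap.rTensor_comp_apply, show g ∘ₗ f = 0 from LinearMap.ext h0,
      LinearMap.rTensor_zero, LinearMap.zero_apply]
  all_goals
    induction x with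
    | zero => simp
    | tmul a c => simp [h1, h2, ← TensorProduct.add_tmul, h3, TensorProduct.smul_tmul']
    | add x y hx hy => simp only [map_add, smul_add, ← hx, ← hy]; try abel

theorem Split.lcomp (h : Split z f g) :
    Split z (LinearMap.lcomp R D g) (LinearMap.lcomp R D f) := by
  obtain ⟨h0, r, p, s, hr, h1, h2, h3⟩ := h
  refine ⟨fun x => ?_, r, LinearMap.lcomp R D s, LinearMap.lcomp R D p, hr, fun x => ?_,
    fun x => ?_, fun x => ?_⟩ <;> ext b
  · simp [h0]
  · simp [h2]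
  · simp [h1]
  · simp [← map_add, add_comm, h3]

theorem Split.bc {S : Type} [CommRing S] [Algebra ℂ S] [Algebra R S] {w : S →ₐ[ℂ] ℂ}
    (hw : ∀ r, w (algebraMap R S r) = z r) (h : Split z f g) :
    Split w (f.baseChange S) (g.baseChange S) := by
  obtain ⟨h0, r, p, s, hr, h1, h2, h3⟩ := h
  refine ⟨fun x => ?_, algebraMap R S r, p.baseChange S, s.baseChange S, by rwa [hw], fun x => ?_,
    fun x => ?_, fun x => ?_⟩
  · rw [← LinearMap.comp_apply, ← LinearMap.baseChange_comp, show g ∘ₗ f = 0 from LinearMap.ext h0,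
      LinearMap.baseChange_zero, LinearMap.zero_apply]
  · rw [← LinearMap.comp_apply, ← LinearMap.baseChange_comp]
    exact bc_smul h1 x
  · rw [← LinearMap.comp_apply, ← LinearMap.baseChange_comp]
    exact bc_smul h2 x
  · rw [← LinearMap.comp_apply, ← LinearMap.baseChange_comp, ← LinearMap.comp_apply,
      ← LinearMap.baseChange_comp, ← LinearMap.add_apply, ← LinearMap.baseChange_add]
    exact bc_smul h3 x

/-! ### functors given by a free module -/

theorem ex_lTensor {n : ℕ} (hD : FreeAt z D n) (h : ExAt z f g) :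
    ExAt z (f.lTensor D) (g.lTensor D) := by
  obtain ⟨r, v, l, hr, h1, -⟩ := free_basis hD
  intro x hx
  have h2 : ∀ i y, g (TensorProduct.lid R B ((l i).rTensor B y)) =
      TensorProduct.lid R C ((l i).rTensor C (g.lTensor D y)) := fun i y => by
    induction y with
    | zero => simp
    | tmul a c => simp
    | add x y hx hy => simp only [map_add, hx, hy]
  obtain ⟨t, a, ht, h3⟩ := unif_map fun i => h _ (by rw [h2 i x, hx, map_zero, map_zero])
  have h4 : ∀ y : D ⊗[R] B,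
      ∑ i, v i ⊗ₜ[R] TensorProduct.lid R B ((l i).rTensor B y) = r • y := fun y => by
    induction y with
    | zero => simp
    | tmul d b =>
      simp only [LinearMap.rTensor_tmul, TensorProduct.lid_tmul, TensorProduct.tmul_smul,
        TensorProduct.smul_tmul', ← TensorProduct.sum_tmul, h1]
    | add x y hx hy => simp only [map_add, TensorProduct.tmul_add, Finset.sum_add_distrib, hx, hy,
        smul_add]
  refine ⟨t * r, ∑ i, v i ⊗ₜ a i, mul_ne ht hr, ?_⟩
  simp only [map_sum, LinearMap.lTensor_tmul, h3, TensorProduct.tmul_smul, ← Finset.smul_sum, h4,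
    mul_smul]

theorem ex_llcomp {n : ℕ} (hD : FreeAt z D n) (h : ExAt z f g) :
    ExAt z (LinearMap.llcomp R D A B f : (D →ₗ[R] A) →ₗ[R] D →ₗ[R] B)
      (LinearMap.llcomp R D B C g : (D →ₗ[R] B) →ₗ[R] D →ₗ[R] C) := by
  obtain ⟨r, v, l, hr, h1, -⟩ := free_basis hD
  intro x hx
  obtain ⟨t, a, ht, h3⟩ := unif_map fun i => h (x (v i)) (LinearMap.congr_fun hx (v i))
  refine ⟨t * r, ∑ i, (l i).smulRight (a i), mul_ne ht hr, LinearMap.ext fun d => ?_⟩
  simp only [LinearMap.llcomp_apply, LinearMap.sum_apply, LinearMap.smulRight_apply, map_sum,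
    map_smul, h3, smul_comm _ t, ← Finset.smul_sum, LinearMap.smul_apply, mul_smul]
  simp only [← map_smul, ← map_sum, h1]

theorem inj_iff : InjAt z f ↔ ExAt z (0 : A →ₗ[R] A) f :=
  ⟨fun h a ha => (h a ha).imp fun _ h => ⟨0, h.1, h.2.symm⟩,
    fun h a ha => (h a ha).imp fun _ ⟨_, h⟩ => ⟨h.1, h.2.symm⟩⟩

theorem surj_iff : SurjAt z f ↔ ExAt z f (0 : B →ₗ[R] B) :=
  ⟨fun h b _ => h b, fun h b => h b rfl⟩

end Vale.Agent.P297Z.AK
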