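import Vale.Agent.P297Z.K.AK4
import Vale.Agent.P297Z.K.AG
import Vale.Agent.P297Z.K.Part

/-!
# P297: sections of line bundles without common zero give a relation in `K0`
-/

set_option linter.all false

open scoped TensorProduct

noncomputable section

namespace Vale.Agent.P297Z

open GMod

variable {W X Y Z : Spc}

namespace PK

theorem res_shift {n : ℕ} {M : GMod X} {x : K0 X} (h : Res n M x) (γ : X.J → ℤ) :
    Res n (M.shift γ) (line X γ * x) := by
  induction n generalizing M x with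
  | zero =>
    obtain ⟨r, h, rfl⟩ := h
    exact ⟨r, h.shift γ, (kc_shift h γ).symm⟩
  | succ n ih =>
    obtain ⟨N, P, p, y, f, g, h1, h2, h3, rfl⟩ := h
    exact ⟨_, _, p, _, _, _, h1.shift γ, h2.shift γ, ih h3, by rw [mul_sub, kc_shift h2]⟩

theorem res_zero (n : ℕ) {M : GMod X} (h : ∀ z : X.Pt, ZeroAt z.1 M.M) : Res n M 0 := by
  induction n with
  | zero => exact ⟨0, isBun_zero h, (kc_zero h).symm⟩
  | succ n ih => exact ih.succ

/-- the quotient by a regular element -/
theorem res_step {n : ℕ} {x : K0 X} {I I' : Ideal X.R} (hI : (one X).Stab I)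
    (hI' : (one X).Stab I') {t : X.R} {d : X.J → ℤ} (ht : t ∈ X.wt d)
    (h1 : ∀ p, t * p ∈ I → p ∈ I) (h2 : I' = Ideal.span {t} ⊔ I)
    (h : Res n ((one X).quo I hI) x) :
    Res (n + 1) ((one X).quo I' hI') ((1 - line X (-d)) * x) := by
  have hle : I ≤ Submodule.comap (LinearMap.id : X.R →ₗ[X.R] X.R) I' := h2 ▸ le_sup_right
  let u : (((one X).quo I hI).shift (-d)).M →ₗ[X.R] ((one X).quo I hI).M :=
    t • (((one X).quo I hI).toShift (-d)).symm.toLinearMap
  have hu : IsHom _ _ u := isHom_of_wt fun γ m hm => by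
    have := smul_mem_wt ht (mem_shift_wt'.1 hm)
    rwa [add_comm, neg_add_cancel_right] at this
  have e : SES _ _ _ u _ := ses_of_exact hu ((IsHom.id (one X)).mapQ hI hI' hle)
    ((injective_iff_map_eq_zero _).2 fun a ha => by
      obtain ⟨a, rfl⟩ := Submodule.Quotient.mk_surjective I a
      exact (Submodule.Quotient.mk_eq_zero I).2 (h1 a ((Submodule.Quotient.mk_eq_zero I).1 ha)))
    (fun a => by
      obtain ⟨a, rfl⟩ := Submodule.Quotient.mk_surjective I a
      refine (Submodule.Quotient.mk_eq_zero I').trans ⟨fun ha => ?_, ?_⟩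
      · rw [h2] at ha
        obtain ⟨b, hb, c, hc, e⟩ := Submodule.mem_sup.1 ha
        obtain ⟨b, rfl⟩ := Ideal.mem_span_singleton'.1 hb
        refine ⟨Submodule.Quotient.mk (p := I) b, (Submodule.Quotient.eq I).2 ?_⟩
        have e' : b * t + c = a := e
        show t * b - a ∈ I
        rw [← e', mul_comm, sub_add_cancel_left]
        exact I.neg_mem hc
      · rintro ⟨b, hb⟩
        obtain ⟨b, rfl⟩ := Submodule.Quotient.mk_surjective I b
        have e' : t * b - (show X.R from a) ∈ I := (Submodule.Quotient.eq I).1 hb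
        have e'' : t * b - (t * b - (show X.R from a)) ∈ I' := h2 ▸ Submodule.sub_mem _
          (Submodule.mem_sup_left (Ideal.mul_mem_right b _ (Ideal.mem_span_singleton_self t)))
          (Submodule.mem_sup_right e')
        rwa [sub_sub_cancel] at e'')
    fun a => by
      obtain ⟨a, rfl⟩ := Submodule.Quotient.mk_surjective I' a
      exact ⟨Submodule.Quotient.mk (p := I) a, rfl⟩
  rw [sub_mul, one_mul]
  exact Res.right e (res_shift h _) h.succ

theorem X_reg {ι R : Type} [CommRing R] {s : Set ι} {i : ι} (hi : i ∉ s) (p : MvPolynomial ι R)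
    (h : MvPolynomial.X i * p ∈ Ideal.span (MvPolynomial.X '' s : Set (MvPolynomial ι R))) :
    p ∈ Ideal.span (MvPolynomial.X '' s : Set (MvPolynomial ι R)) := by
  rw [MvPolynomial.mem_ideal_span_X_image] at h ⊢
  intro m hm
  obtain ⟨j, hj, h0⟩ := h (Finsupp.single i 1 + m) (by
    rw [MvPolynomial.mem_support_iff, MvPolynomial.coeff_X_mul]
    exact MvPolynomial.mem_support_iff.1 hm)
  refine ⟨j, hj, ?_⟩
  rwa [Finsupp.add_apply, Finsupp.single_eq_of_ne (fun e : j = i => hi (e ▸ hj)), zero_add] at h0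

theorem prod_adj (X : Spc) (ι : Type) [Fintype ι] [Nonempty ι] (d : ι → X.J → ℤ) :
    ∏ i, (1 - line (X.adj ι d) (-fun j => j.elim 1 (d i))) = 0 := by
  classical
  have st : ∀ s : Finset ι, (one (X.adj ι d)).Stab
      (Ideal.span (MvPolynomial.X '' (s : Set ι) : Set (MvPolynomial ι X.R))) := fun s =>
    stab_span_wt (M := one (X.adj ι d)) (by
      rintro _ ⟨i, -, rfl⟩
      exact ⟨_, Spc.X_mem X ι d i⟩)
  have key : ∀ s : Finset ι, Res s.card ((one (X.adj ι d)).quo _ (st s))
      (∏ i ∈ s, (1 - line (X.adj ι d) (-fun j => j.elim 1 (d i)))) := by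
    intro s
    induction s using Finset.induction_on with
    | empty =>
      refine (Res.qis (qis_of_bij (isHom_mkQ _ _ (st ∅)) fun z =>
        ⟨InjAt.of_inj ?_, SurjAt.of_surj (Submodule.mkQ_surjective _)⟩)).1
        ⟨1, isBun_one _, kc_one.symm⟩
      refine LinearMap.ker_eq_bot.1 ((Submodule.ker_mkQ _).trans (Ideal.span_eq_bot.2 ?_))
      rintro _ ⟨i, hi, -⟩
      exact (Finset.notMem_empty i hi).elim
    | insert i s hi ih =>
      rw [Finset.card_insert_of_notMem hi, Finset.prod_insert hi]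
      exact res_step (X := X.adj ι d) (st s) _ (Spc.X_mem X ι d i) (X_reg hi)
        (by rw [Finset.coe_insert, Set.image_insert_eq]; exact Ideal.span_insert _ _) ih
  refine (key Finset.univ).unique (res_zero _ fun z => zeroAt_quo ?_) ?_
  · obtain ⟨i, hi⟩ := ((Spc.adj_pt X ι d z.1).1 z.2).2
    exact ⟨_, Ideal.subset_span ⟨i, Finset.mem_coe.2 (Finset.mem_univ i), rfl⟩, hi⟩
  · rw [map_prod, map_zero]
    exact Finset.prod_eq_zero (Finset.mem_univ (Classical.arbitrary ι))
      (by rw [map_sub, map_one, rk_line, sub_self])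

theorem prod_line {ι : Type} (s : Finset ι) (hs : s.Nonempty) (y : ι → X.R) (d : ι → X.J → ℤ)
    (hy : ∀ i ∈ s, y i ∈ X.wt (d i)) (h0 : ∀ z : X.Pt, ∃ i ∈ s, z.1 (y i) ≠ 0) :
    ∏ i ∈ s, (1 - line X (-d i)) = 0 := by
  haveI : Nonempty s := hs.to_subtype
  let φ := (Mor.id X).toAdj s (fun i => d i) 0 (fun i => y i)
    (fun i => by rw [add_zero]; exact hy i i.2) fun w => by
      obtain ⟨i, hi, h⟩ := h0 w
      exact ⟨⟨i, hi⟩, h⟩
  have h := congrArg (pullK φ) (prod_adj X s fun i => d i)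
  rw [map_prod, map_zero] at h
  rw [← Finset.prod_coe_sort, ← h]
  refine Finset.prod_congr rfl fun i _ => ?_
  rw [map_sub, map_one, pullK_line, map_neg]
  congr 3
  exact ((congrArg _ (smul_zero _)).trans (add_zero _)).symm

theorem line_empty [IsEmpty X.Pt] (γ : X.J → ℤ) : line X γ = 1 :=
  (kc_qis (f := 0) ⟨IsHom.zero _ _, fun z => isEmptyElim z⟩ 1).trans kc_one

end PK

open PK

/-- the relation in `K0` in each new direction -/
theorem Prj.dev_K {f : Mor X Y} (P : Prj f) (e : P.E) : ∃ l : List (Y.J → ℤ),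
    (l.map fun γ => 1 - line X (-(f.ρ γ + P.σ (Pi.single e 1)))).prod = 0 := by
  by_cases hX : Nonempty X.Pt
  · choose γ hγ using fun a : P.y e => P.y_wt e a.1 a.2
    have h0 : ∀ z : X.Pt, ∃ i ∈ (Finset.univ : Finset (P.y e)), z.1 i ≠ 0 := fun z => by
      obtain ⟨a, ha, h⟩ := ((P.pts z.1).1 z.2).2 e
      exact ⟨⟨a, ha⟩, Finset.mem_univ _, h⟩
    obtain ⟨i, hi, -⟩ := h0 hX.some
    refine ⟨Finset.univ.toList.map γ, ?_⟩
    rw [List.map_map, Finset.prod_map_toList]
    exact prod_line _ ⟨i, hi⟩ (fun a : P.y e => a.1) _ (fun a _ => hγ a) h0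
  · haveI := not_nonempty_iff.1 hX
    exact ⟨[0], by rw [List.map_singleton, List.prod_singleton, line_empty, sub_self]⟩

end Vale.Agent.P297Z
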