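import Vale.Agent.P297Z.K.AK
import Vale.Agent.P297Z.Dim.Orb

/-!
# P297: the dimension filtration, generators and supports
-/

set_option linter.all false

noncomputable section

namespace Vale.Agent.P297Z

open GMod Dim

variable {W X Y : Spc}

/-- the orbit of a point -/
def Spc.orb (X : Spc) (z : X.Pt) : Set X.Pt := {z' | X.Orb z z'}

theorem Spc.orb_stab (X : Spc) (z : X.Pt) : X.Stab (X.orb z) := fun _ h _ h' => Spc.Orb.trans h h'

theorem Spc.mem_orb (X : Spc) (z : X.Pt) : z ∈ X.orb z := Spc.Orb.refl z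

/-- the structure module of the closure of a stable set -/
def GMod.str (X : Spc) (Z : Set X.Pt) (hZ : X.Stab Z) : GMod X :=
  (GMod.one X).quo (X.van Z) (Spc.van_act hZ)

/-- the class of the closure of a stable set -/
def clZ (X : Spc) (Z : Set X.Pt) (hZ : X.Stab Z) : G X := cls (GMod.str X Z hZ)

/-- the class of a point -/
def ptC (X : Spc) (z : X.Pt) : G X := clZ X (X.orb z) (X.orb_stab z)

namespace AF

variable {M A B : GMod X} {d d' : ℕ}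

theorem cls_mem_Fl (h : ringKrullDim (X.R ⧸ Module.annihilator X.R M.M) < d) : cls M ∈ Fl X d :=
  AddSubgroup.subset_closure ⟨M, h, rfl⟩

theorem cls_mem_Fl_of_kill (I : Ideal X.R) (hI : ∀ r ∈ I, ∀ m : M.M, r • m = 0)
    (h : ringKrullDim (X.R ⧸ I) < d) : cls M ∈ Fl X d :=
  cls_mem_Fl ((dim_quot_lt_iff' (k := ℂ) _ d).2 fun p hp h1 =>
    (dim_quot_lt_iff' (k := ℂ) _ d).1 h p hp
      (le_trans (fun r hr => Module.mem_annihilator.2 (hI r hr)) h1))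

theorem Fl_mono (h : d ≤ d') : Fl X d ≤ Fl X d' :=
  AddSubgroup.closure_mono fun _ ⟨M, h1, h2⟩ => ⟨M, h1.trans_le (by exact_mod_cast h), h2⟩

theorem Fd_mono (h : d ≤ d') : Fd X d ≤ Fd X d' := Fl_mono (Nat.add_le_add_right h _)

theorem Fl_top (h : ringKrullDim X.R < d) : Fl X d = ⊤ :=
  eq_top_iff.2 fun x _ => G_mem (fun _ => cls_mem_Fl ((ringKrullDim_quotient_le _).trans_lt h)) x

theorem Fd_top {n : ℕ} (h : ringKrullDim X.R ≤ (n + Fintype.card X.J : ℕ)) : Fd X (n + 1) = ⊤ :=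
  Fl_top (by rw [Nat.add_right_comm]; exact le_iff_lt_succ.1 h)

theorem exists_Fd_top (X : Spc) : ∃ n, Fd X n = ⊤ := by
  rcases subsingleton_or_nontrivial X.R with h | h
  · exact ⟨0, Fl_top (by rw [ringKrullDim_eq_bot_of_subsingleton]; exact WithBot.bot_lt_coe _)⟩
  · obtain ⟨p, -, h1⟩ := exists_dim (k := ℂ) (R := X.R)
    exact ⟨_, Fd_top (h1.le.trans (by exact_mod_cast Nat.le_add_right _ _))⟩

theorem quo_kill {p : Ideal X.R} (hp : (one X).Stab p) (γ : X.J → ℤ) :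
    ∀ r ∈ p, ∀ m : (((one X).quo p hp).shift γ).M, r • m = 0 := fun r hr m => by
  obtain ⟨a, rfl⟩ := p.mkQ_surjective m
  exact (Submodule.Quotient.mk_eq_zero p).2 (p.mul_mem_right a hr)

theorem quo_mem_Fl {p : Ideal X.R} (hp : (one X).Stab p) (γ : X.J → ℤ)
    (h : ringKrullDim (X.R ⧸ p) < d) : cls (((one X).quo p hp).shift γ) ∈ Fl X d :=
  cls_mem_Fl_of_kill p (quo_kill hp γ) h

theorem str_mem_Fl {Z : Set X.Pt} (hZ : X.Stab Z) (γ : X.J → ℤ) (h : X.cdim Z < d) :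
    cls ((str X Z hZ).shift γ) ∈ Fl X d := quo_mem_Fl _ γ h

theorem clZ_mem_Fl {Z : Set X.Pt} (hZ : X.Stab Z) (h : X.cdim Z < d) : clZ X Z hZ ∈ Fl X d :=
  cls_mem_Fl_of_kill (M := str X Z hZ) _ (quo_kill (Spc.van_act hZ) 0) h

theorem quo_congr {p q : Ideal X.R} (h : p = q) (hp : (one X).Stab p) (hq : (one X).Stab q) :
    (one X).quo p hp = (one X).quo q hq := by subst h; rfl

theorem clZ_congr {Z Z' : Set X.Pt} (hZ : X.Stab Z) (hZ' : X.Stab Z') (h : X.van Z = X.van Z') :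
    clZ X Z hZ = clZ X Z' hZ' := congrArg cls (quo_congr h _ _)

theorem clZ_of_van {Z : Set X.Pt} (hZ : X.Stab Z) (h : X.van Z = ⊥) : clZ X Z hZ = oG X :=
  (cls_bij (isHom_mkQ (one X) _ _) ⟨LinearMap.ker_eq_bot.1 ((Submodule.ker_mkQ _).trans h),
    Submodule.mkQ_surjective _⟩).symm

theorem clZ_univ (X : Spc) : clZ X Set.univ (fun _ _ _ _ => trivial) = oG X :=
  clZ_of_van _ van_univ

/-- generators: stable primes that have a point -/
theorem Fl_le (H : AddSubgroup (G X))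
    (h : ∀ (p : Ideal X.R) (hp : (GMod.one X).Stab p) (γ : X.J → ℤ), p.IsPrime →
      (∃ z : X.Pt, ∀ r ∈ p, z.1 r = 0) → ringKrullDim (X.R ⧸ p) < d →
      cls (((GMod.one X).quo p hp).shift γ) ∈ H) : Fl X d ≤ H := by
  refine (AddSubgroup.closure_le _).2 ?_
  rintro _ ⟨M, hM, rfl⟩
  exact cls_mem_of_prime M fun p hp γ h1 h2 h3 => h p hp γ h1 h3
    ((ringKrullDim_le_of_surjective _ (Ideal.Quotient.factor_surjective h2)).trans_lt hM)

theorem Fl_zero (X : Spc) : Fl X 0 = ⊥ :=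
  eq_bot_iff.2 (Fl_le _ fun p _ _ h1 _ h3 => by
    rw [dim_eq_td (k := ℂ)] at h3
    exact absurd (by exact_mod_cast h3) (Nat.not_lt_zero _))

theorem quo_eq_str {p : Ideal X.R} (hp : (one X).Stab p) [p.IsPrime] {z : X.Pt}
    (hz : ∀ r ∈ p, z.1 r = 0) : (one X).quo p hp = str X (zer X p) (stab_zer hp) :=
  quo_congr (van_zer_prime (not_b_le hz)).symm _ _

/-- generators: closed irreducible stable sets -/
theorem Fl_le' (H : AddSubgroup (G X))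
    (h : ∀ (Z : Set X.Pt) (hZ : X.Stab Z) (γ : X.J → ℤ), X.Clo Z → Z.Nonempty → (X.van Z).IsPrime →
      X.cdim Z < d → cls ((GMod.str X Z hZ).shift γ) ∈ H) : Fl X d ≤ H :=
  Fl_le H fun p hp γ h1 ⟨z, hz⟩ h3 => by
    have e := van_zer_prime (p := p) (not_b_le hz)
    rw [quo_eq_str hp hz]
    exact h _ _ γ clo_zer ⟨z, hz⟩ (e.symm ▸ h1) (by rwa [Spc.cdim, e])

theorem zer_subset {Z : Set X.Pt} (hM : ∀ z : X.Pt, z ∉ Z → ZeroAt z.1 M.M) {p : Ideal X.R}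
    (h : Module.annihilator X.R M.M ≤ p) : zer X p ⊆ Z := fun z hz => by
  by_contra o
  obtain ⟨r, h1, h2⟩ := zeroAt_iff_ann.1 (hM z o)
  exact h2 (hz r (h h1))

/-- the class of a module is generated by the subvarieties of its support -/
theorem supp_le (H : AddSubgroup (G X)) (Z : Set X.Pt)
    (hM : ∀ z : X.Pt, z ∉ Z → ZeroAt z.1 M.M)
    (h : ∀ (V : Set X.Pt) (hV : X.Stab V) (γ : X.J → ℤ), V ⊆ Z → X.Clo V → V.Nonempty →
      (X.van V).IsPrime → Module.annihilator X.R M.M ≤ X.van V →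
      cls ((GMod.str X V hV).shift γ) ∈ H) : cls M ∈ H :=
  cls_mem_of_prime M fun p hp γ h1 h2 ⟨z, hz⟩ => by
    have e := van_zer_prime (p := p) (not_b_le hz)
    rw [quo_eq_str hp hz]
    exact h _ _ γ (zer_subset hM h2) clo_zer ⟨z, hz⟩ (e.symm ▸ h1) (e.symm ▸ h2)

/-- the support lemma -/
theorem supp_Fl (Z : Set X.Pt) (hM : ∀ z : X.Pt, z ∉ Z → ZeroAt z.1 M.M) (hd : X.cdim Z < d) :
    cls M ∈ Fl X d :=
  supp_le _ Z hM fun _ hV γ h _ _ _ _ => str_mem_Fl hV γ ((cdim_mono h).trans_lt hd)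

theorem supp_Fl_irr (Z : Set X.Pt) (hZ : (X.van Z).IsPrime)
    (hM : ∀ z : X.Pt, z ∉ Z → ZeroAt z.1 M.M) {z₀ : X.Pt} (h₀ : z₀ ∈ Z) (h0 : ZeroAt z₀.1 M.M)
    (hd : X.cdim Z ≤ d) : cls M ∈ Fl X d := by
  obtain ⟨r, h1, h2⟩ := zeroAt_iff_ann.1 h0
  exact supp_le _ Z hM fun V hV γ h _ _ _ h3 => str_mem_Fl hV γ
    (cdim_drop (van_anti h) (fun o => h2 (o z₀ h₀)) (h3 h1) hd)

/-- zero at one point of each component of top dimension -/
theorem supp_Fl_comp (Z : Set X.Pt) (hM : ∀ z : X.Pt, z ∉ Z → ZeroAt z.1 M.M)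
    (h0 : ∀ p ∈ (X.van Z).minimalPrimes, d ≤ td ℂ (X.R ⧸ p) →
      ∃ z : X.Pt, (∀ r ∈ p, z.1 r = 0) ∧ ZeroAt z.1 M.M)
    (hd : X.cdim Z ≤ d) : cls M ∈ Fl X d :=
  supp_le _ Z hM fun V hV γ h _ _ h2 h3 => str_mem_Fl hV γ (by
    obtain ⟨p, k1, k2⟩ := Ideal.exists_minimalPrimes_le (van_anti h)
    have := k1.1.1
    rw [cdim_prime, Nat.cast_lt]
    refine lt_of_not_ge fun o => ?_
    have k3 := cdim_le_iff.1 hd p k1
    obtain ⟨z, k4, k5⟩ := h0 p k1 (o.trans (td_anti k2))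
    obtain ⟨r, k6, k7⟩ := zeroAt_iff_ann.1 k5
    exact k7 (k4 r ((eq_of_td_le (k := ℂ) k2 (k3.trans o)).ge (h3 k6))))

theorem birat_Fl {f : A.M →ₗ[X.R] B.M} (hf : A.IsHom B f) (Z : Set X.Pt)
    (h : ∀ z : X.Pt, z ∉ Z → InjAt z.1 f ∧ SurjAt z.1 f) (hd : X.cdim Z < d) :
    cls A - cls B ∈ Fl X d := by
  rw [cls_sub_cls hf]
  exact sub_mem (supp_Fl Z (fun z hz => injAt_iff_ker.1 (h z hz).1) hd)
    (supp_Fl Z (fun z hz => surjAt_iff_coker.1 (h z hz).2) hd)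

theorem birat_Fl_irr {f : A.M →ₗ[X.R] B.M} (hf : A.IsHom B f) (Z : Set X.Pt)
    (hZ : (X.van Z).IsPrime) (h : ∀ z : X.Pt, z ∉ Z → InjAt z.1 f ∧ SurjAt z.1 f) {z₀ : X.Pt}
    (h₀ : z₀ ∈ Z) (h0 : InjAt z₀.1 f ∧ SurjAt z₀.1 f) (hd : X.cdim Z ≤ d) :
    cls A - cls B ∈ Fl X d := by
  rw [cls_sub_cls hf]
  exact sub_mem
    (supp_Fl_irr Z hZ (fun z hz => injAt_iff_ker.1 (h z hz).1) h₀ (injAt_iff_ker.1 h0.1) hd)
    (supp_Fl_irr Z hZ (fun z hz => surjAt_iff_coker.1 (h z hz).2) h₀ (surjAt_iff_coker.1 h0.2) hd)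

theorem birat_Fl_kill {f : A.M →ₗ[X.R] B.M} (hf : A.IsHom B f) (I : Ideal X.R)
    (h1 : ∀ r ∈ I, ∀ a, f a = 0 → r • a = 0) (h2 : ∀ r ∈ I, ∀ b, ∃ a, f a = r • b)
    (hd : ringKrullDim (X.R ⧸ I) < d) : cls A - cls B ∈ Fl X d := by
  rw [cls_sub_cls hf]
  refine sub_mem (cls_mem_Fl_of_kill I (fun r hr a => Subtype.ext (h1 r hr a.1 a.2)) hd)
    (cls_mem_Fl_of_kill I (fun r hr b => ?_) hd)
  obtain ⟨b, rfl⟩ := Submodule.Quotient.mk_surjective _ b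
  exact (Submodule.Quotient.mk_eq_zero _).2 (h2 r hr b)

/-- two modules supported on an irreducible set and isomorphic at one of its points -/
theorem birat_supp {f : A.M →ₗ[X.R] B.M} (hf : A.IsHom B f) (Z : Set X.Pt)
    (hZ : (X.van Z).IsPrime) (hA : ∀ z : X.Pt, z ∉ Z → ZeroAt z.1 A.M)
    (hB : ∀ z : X.Pt, z ∉ Z → ZeroAt z.1 B.M) {z₀ : X.Pt}
    (h₀ : z₀ ∈ Z) (h0 : InjAt z₀.1 f ∧ SurjAt z₀.1 f) (hd : X.cdim Z ≤ d) :
    cls A - cls B ∈ Fl X d :=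
  birat_Fl_irr hf Z hZ (fun z hz => ⟨fun a _ => hA z hz a, fun b =>
    (hB z hz b).imp fun _ k => ⟨0, k.1, (map_zero f).trans k.2.symm⟩⟩) h₀ h0 hd

/-- a stable ideal whose zero set is irreducible and which is radical at one point -/
theorem quo_sub_clZ {I : Ideal X.R} (hI : (one X).Stab I) (hZ : (X.van (zer X I)).IsPrime)
    {z₀ : X.Pt} (h₀ : ∀ r ∈ I, z₀.1 r = 0)
    (h0 : ∀ a ∈ X.van (zer X I), ∃ r, z₀.1 r ≠ 0 ∧ r * a ∈ I) (hd : X.cdim (zer X I) ≤ d) :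
    cls ((one X).quo I hI) - clZ X (zer X I) (stab_zer hI) ∈ Fl X d := by
  have hf := (IsHom.id (one X)).mapQ hI (Spc.van_act (stab_zer hI)) (le_van_zer (I := I))
  refine birat_supp hf _ hZ (fun z hz => zeroAt_quo (by simpa [mem_zer] using hz))
    (fun z hz => zeroAt_quo ?_) h₀ ⟨fun a ha => ?_, .of_surj fun b => ?_⟩ hd
  · by_contra o
    push Not at o
    exact hz (clo_zer z o)
  · obtain ⟨a, rfl⟩ := Submodule.Quotient.mk_surjective _ a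
    obtain ⟨r, h1, h2⟩ := h0 a ((Submodule.Quotient.mk_eq_zero _).1 ha)
    exact ⟨r, h1, (Submodule.Quotient.mk_eq_zero _).2 h2⟩
  · obtain ⟨b, rfl⟩ := Submodule.Quotient.mk_surjective _ b
    exact ⟨Submodule.Quotient.mk b, rfl⟩

end AF

end Vale.Agent.P297Z
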