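import Vale.Agent.P297Z.K.AF1

/-!
# P297: twists, ranks, the filtration of `K0`
-/

set_option linter.all false

open scoped TensorProduct

noncomputable section

namespace Vale.Agent.P297Z

open GMod Dim

variable {W X Y : Spc}

open Classical in
/-- the generic rank -/
def rkG (X : Spc) : G X →+ ℤ :=
  if h : ∃ ψ : G X →+ ℤ, ∀ M : GMod X, ψ (cls M) = Module.finrank X.R M.M then h.choose else 0

namespace AF

variable {M : GMod X} {d i j : ℕ} {a b : K0 X} {x : G X}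

theorem ten_kill_aux {R A B : Type} [CommRing R] [AddCommGroup A] [Module R A] [AddCommGroup B]
    [Module R B] {r : R} (h : ∀ m : B, r • m = 0) (t : A ⊗[R] B) : r • t = 0 := by
  induction t using TensorProduct.induction_on with
  | zero => exact smul_zero r
  | add x y hx hy => rw [smul_add, hx, hy, add_zero]
  | tmul x y => rw [← TensorProduct.tmul_smul, h, TensorProduct.tmul_zero]

theorem rT_aux {R A B : Type} (N : Type) [CommRing R] [AddCommGroup A] [Module R A]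
    [AddCommGroup B] [Module R B] [AddCommGroup N] [Module R N] {f : A →ₗ[R] B} {g : B →ₗ[R] A}
    {s : R} (h : ∀ a, g (f a) = s • a) (t : A ⊗[R] N) :
    g.rTensor N (f.rTensor N t) = s • t := by
  rw [← LinearMap.rTensor_comp_apply, show g ∘ₗ f = s • LinearMap.id from LinearMap.ext h,
    LinearMap.rTensor_smul, LinearMap.rTensor_id]
  rfl

theorem ten_kill (B : GMod X) {r : X.R} (h : ∀ m : M.M, r • m = 0) (t : (B.ten M).M) :
    r • t = 0 := ten_kill_aux h t

theorem isHom_rT {A B : GMod X} {f : A.M →ₗ[X.R] B.M} (hf : A.IsHom B f) (N : GMod X) :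
    (A.ten N).IsHom (B.ten N) (f.rTensor N.M) := fun t (y : A.M ⊗[X.R] N.M) => by
  change f.rTensor N.M (TensorProduct.map (A.semi t) (N.semi t) y) =
    TensorProduct.map (B.semi t) (N.semi t) (f.rTensor N.M y)
  induction y using TensorProduct.induction_on with
  | zero => simp only [map_zero]
  | add x y hx hy => simp only [map_add, hx, hy]
  | tmul x y => exact congrArg (fun u => u ⊗ₜ[X.R] N.act t y) (hf t x)

theorem kact_Fl (a : K0 X) (hx : x ∈ Fl X d) : kact X a x ∈ Fl X d := by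
  obtain ⟨B₀, B₁, rfl⟩ := K0_induction a
  have key : ∀ B : Bun X, kact X B.cls x ∈ Fl X d := fun B => by
    refine (AddSubgroup.closure_le ((Fl X d).comap (kact X B.cls))).2 ?_ hx
    rintro _ ⟨M, hM, rfl⟩
    change kact X B.cls (cls M) ∈ Fl X d
    rw [kact_cls]
    exact cls_mem_Fl_of_kill _ (fun r hr => ten_kill _ (Module.mem_annihilator.1 hr)) hM
  rw [map_sub, AddMonoidHom.sub_apply]
  exact sub_mem (key _) (key _)

theorem kact_Fd (a : K0 X) (hx : x ∈ Fd X d) : kact X a x ∈ Fd X d := kact_Fl a hx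

theorem dim_sup_lt {p : Ideal X.R} [p.IsPrime] {r : X.R} (hr : r ∉ p)
    (h : ringKrullDim (X.R ⧸ p) < (d + 1 : ℕ)) :
    ringKrullDim (X.R ⧸ (p ⊔ Ideal.span {r})) < d := by
  rw [dim_eq_td (k := ℂ), Nat.cast_lt] at h
  exact (dim_quot_lt_iff' (k := ℂ) _ d).2 fun q hq h1 =>
    (td_lt (k := ℂ) (lt_of_le_of_ne (le_sup_left.trans h1) fun e : p = q => hr (e ▸ h1
      (Ideal.mem_sup_right (Ideal.mem_span_singleton_self r))))).trans_le (Nat.lt_succ_iff.1 h)

/-- a map of modules killed by a prime, invertible up to an element outside of the prime -/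
theorem birat_prime {A B : GMod X} {f : A.M →ₗ[X.R] B.M} (hf : A.IsHom B f) {p : Ideal X.R}
    [p.IsPrime] (hA : ∀ r ∈ p, ∀ a : A.M, r • a = 0) (hB : ∀ r ∈ p, ∀ b : B.M, r • b = 0)
    {s : X.R} (hs : s ∉ p) (h1 : ∀ a, f a = 0 → s • a = 0) (h2 : ∀ b, ∃ a, f a = s • b)
    (h : ringKrullDim (X.R ⧸ p) < (d + 1 : ℕ)) : cls A - cls B ∈ Fl X d := by
  refine birat_Fl_kill hf _ (fun r hr a ha => ?_) (fun r hr b => ?_) (dim_sup_lt hs h) <;>
    obtain ⟨u, hu, v, hv, rfl⟩ := Submodule.mem_sup.1 hr <;>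
    obtain ⟨c, rfl⟩ := Ideal.mem_span_singleton'.1 hv
  · rw [add_smul, hA u hu, mul_smul, h1 a ha, smul_zero, add_zero]
  · obtain ⟨a, ha⟩ := h2 b
    exact ⟨c • a, by rw [map_smul, ha, add_smul, hB u hu, mul_smul, zero_add]⟩

theorem shift_quo (hX : X.Free) {p : Ideal X.R} (hp : (one X).Stab p) [h1 : p.IsPrime] {z : X.Pt}
    (hz : ∀ r ∈ p, z.1 r = 0) (h2 : ringKrullDim (X.R ⧸ p) < (d + 1 : ℕ)) (γ δ : X.J → ℤ) :
    cls (((one X).quo p hp).shift δ) - cls (((one X).quo p hp).shift (δ + γ)) ∈ Fl X d := by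
  let S : AddSubgroup (X.J → ℤ) :=
    { carrier := {γ | ∀ δ, cls (((one X).quo p hp).shift δ) -
        cls (((one X).quo p hp).shift (δ + γ)) ∈ Fl X d}
      zero_mem' := fun δ => by rw [add_zero, sub_self]; exact zero_mem _
      add_mem' := fun {a b} ha hb δ => by
        have := add_mem (ha δ) (hb (δ + a))
        rwa [sub_add_sub_cancel, add_assoc] at this
      neg_mem' := fun {a} ha δ => by
        have := neg_mem (ha (δ + -a))
        rwa [neg_sub, neg_add_cancel_right] at this }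
  have h3 : AddSubgroup.closure {γ : X.J → ℤ | ∃ r ∈ X.wt γ, z.1 r ≠ 0} ≤ S := by
    refine (AddSubgroup.closure_le _).2 ?_
    rintro γ ⟨r, hr, h0⟩ δ
    have hrp : r ∉ p := fun h => h0 (hz r h)
    have hf : (((one X).quo p hp).shift δ).IsHom (((one X).quo p hp).shift (δ + γ))
        (LinearMap.lsmul X.R (X.R ⧸ p) r) := isHom_of_wt fun ε m hm => by
      have := smul_mem_wt hr (mem_shift_wt.1 hm)
      rw [add_comm, add_assoc] at this
      exact mem_shift_wt.2 this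
    exact birat_prime hf (quo_kill hp _) (quo_kill hp _) hrp (fun a ha => ha)
      (fun b => ⟨b, rfl⟩) h2
  exact h3 ((hX z).ge (AddSubgroup.mem_top γ)) δ

/-- RK1 -/
theorem line_Fl (hX : X.Free) (γ : X.J → ℤ) (hx : x ∈ Fl X (d + 1)) :
    kact X (line X γ) x - x ∈ Fl X d := by
  refine Fl_le ((Fl X d).comap (kact X (line X γ) - AddMonoidHom.id _))
    (fun p hp δ h1 ⟨z, hz⟩ h2 => ?_) hx
  have h4 := neg_mem (shift_quo hX hp hz h2 γ δ)
  rwa [neg_sub, ← cls_shift_shift, ← kact_line γ] at h4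

theorem shift_Fl (hX : X.Free) (γ : X.J → ℤ) (h : cls M ∈ Fl X (d + 1)) :
    cls (M.shift γ) - cls M ∈ Fl X d := kact_line γ M ▸ line_Fl hX γ h

/-- homogeneous generators at a point that form a basis of the fibre -/
theorem exists_frame (M : GMod X) (z : X.Pt) : ∃ (γ : Fin (fdim z.1 M.M) → X.J → ℤ)
    (p : (pi fun i => (one X).shift (γ i)).M →ₗ[X.R] M.M),
    (pi fun i => (one X).shift (γ i)).IsHom M p ∧ SurjAt z.1 p := by
  let u : (Σ γ, M.wt γ) → Fib z.1 M.M := fun x => Submodule.Quotient.mk x.2.1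
  have h1 : Submodule.span ℂ (Set.range u) = ⊤ := eq_top_iff.2 fun y _ => by
    obtain ⟨m, rfl⟩ := fib_surj y
    induction m using M.induction with
    | h0 => exact zero_mem _
    | hw γ m hm => exact Submodule.subset_span ⟨⟨γ, m, hm⟩, rfl⟩
    | ha x y hx hy => exact add_mem (hx trivial) (hy trivial)
  obtain ⟨κ, c, -, h2, h3⟩ := exists_linearIndependent' ℂ u
  let e := (Module.finBasis ℂ (Fib z.1 M.M)).indexEquiv (Module.Basis.mk h3 (h2.trans h1).ge)
  let v : Fin (fdim z.1 M.M) → M.M := fun i => (c (e i)).2.1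
  let p : (Fin (fdim z.1 M.M) → X.R) →ₗ[X.R] M.M := Fintype.linearCombination X.R v
  refine ⟨fun i => -(c (e i)).1, p, fun t (x : Fin _ → X.R) => ?_,
    surjAt_of_span (m := v) (Eq.trans ?_ (h2.trans h1))⟩
  · show ∑ i, (chr (- -(c (e i)).1) t • X.act t (x i)) • v i = M.act t (∑ i, x i • v i)
    rw [map_sum]
    refine Finset.sum_congr rfl fun i _ => ?_
    rw [M.act_smul, M.mem_wt.1 (c (e i)).2.2, neg_neg, smul_assoc, smul_comm]
  · exact congrArg _ (e.surjective.range_comp (u ∘ c))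

/-- a homogeneous frame at a point where the module is free -/
theorem exists_frame_free {z : X.Pt} {r : ℕ} (h : FreeAt z.1 M.M r) : ∃ (γ : Fin r → X.J → ℤ)
    (p : (pi fun i => (one X).shift (γ i)).M →ₗ[X.R] M.M),
    (pi fun i => (one X).shift (γ i)).IsHom M p ∧ IsoAt z.1 p := by
  obtain rfl := h.fdim
  obtain ⟨γ, p, h1, h2⟩ := exists_frame M z
  exact ⟨γ, p, h1, isoAt_of_surjAt (freeAt_pi _) h h2⟩

theorem cls_pi_ten {r : ℕ} (γ : Fin r → X.J → ℤ) (N : GMod X) :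
    cls ((pi fun i => (one X).shift (γ i)).ten N) = ∑ i, kact X (line X (γ i)) (cls N) := by
  rw [← kact_kc (isBun_pi fun i => (isBun_one X).shift (γ i)),
    kc_pi fun i => (isBun_one X).shift (γ i), map_sum, AddMonoidHom.finsetSum_apply]
  rfl

/-- the tensor product with a module that is free at a point of an irreducible set -/
theorem ten_sub (hX : X.Free) {p : Ideal X.R} [p.IsPrime] {z : X.Pt} (hz : ∀ r ∈ p, z.1 r = 0)
    (h2 : ringKrullDim (X.R ⧸ p) < (d + 1 : ℕ)) {N : GMod X} (hN : ∀ r ∈ p, ∀ n : N.M, r • n = 0)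
    {r : ℕ} (h : FreeAt z.1 M.M r) : cls (M.ten N) - r • cls N ∈ Fl X d := by
  obtain ⟨γ, f, h3, s, g, h4, h5, h6⟩ := exists_frame_free h
  have h7 := birat_prime (isHom_rT h3 N) (fun r hr => ten_kill _ (hN r hr))
    (fun r hr => ten_kill _ (hN r hr)) (fun o => h4 (hz s o))
    (fun a ha => (rT_aux N.M h5 a).symm.trans ((congrArg _ ha).trans (map_zero _)))
    (fun b => ⟨_, rT_aux N.M h6 b⟩) h2
  have h8 := sub_mem (sum_mem fun i (_ : i ∈ Finset.univ) =>
    line_Fl hX (γ i) (cls_mem_Fl_of_kill p hN h2)) h7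
  rwa [cls_pi_ten, Finset.sum_sub_distrib, Finset.sum_const, Finset.card_univ, Fintype.card_fin,
    sub_sub_sub_cancel_left] at h8

theorem kact_sub_rk (hX : X.Free) (a : K0 X) (hx : x ∈ Fl X (d + 1)) :
    kact X a x - rk X a • x ∈ Fl X d := by
  have key : ∀ B : Bun X, kact X B.cls x - B.rk • x ∈ Fl X d := fun B => by
    refine Fl_le ((Fl X d).comap (kact X B.cls - B.rk • AddMonoidHom.id _))
      (fun p hp δ h1 ⟨z, hz⟩ h2 => ?_) hx
    have h3 := ten_sub hX hz h2 (quo_kill hp δ) (B.free z)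
    rwa [← kact_cls] at h3
  obtain ⟨B₀, B₁, rfl⟩ := K0_induction a
  have h := sub_mem (key B₀) (key B₁)
  rwa [map_sub, map_sub, AddMonoidHom.sub_apply, rk_cls, rk_cls, sub_smul, natCast_zsmul,
    natCast_zsmul, sub_sub_sub_comm]

theorem kact_sub_rk_Fd (hX : X.Free) (a : K0 X) (hx : x ∈ Fd X (d + 1)) :
    kact X a x - rk X a • x ∈ Fd X d :=
  kact_sub_rk hX a (by rwa [Nat.add_right_comm])

theorem eq_of_lt_succ {c : WithBot ℕ∞} (h : c < (d + 1 : ℕ)) (h' : ¬c < d) : c = d :=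
  le_antisymm (le_iff_lt_succ.2 h) (not_lt.1 h')

theorem Fl_succ_le (hX : X.Free) (H : AddSubgroup (G X)) (h0 : Fl X d ≤ H)
    (h : ∀ (Z : Set X.Pt) (hZ : X.Stab Z), X.Clo Z → Z.Nonempty → (X.van Z).IsPrime →
      X.cdim Z = d → clZ X Z hZ ∈ H) : Fl X (d + 1) ≤ H :=
  Fl_le' H fun Z hZ γ h1 h2 h3 h4 => by
    by_cases o : X.cdim Z < d
    · exact h0 (str_mem_Fl hZ γ o)
    · have h5 := add_mem (h0 (shift_Fl hX γ (clZ_mem_Fl hZ h4)))
        (h Z hZ h1 h2 h3 (eq_of_lt_succ h4 o))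
      rwa [clZ, sub_add_cancel] at h5

theorem Fd_succ_le (hX : X.Free) (H : AddSubgroup (G X)) (h0 : Fd X d ≤ H)
    (h : ∀ (Z : Set X.Pt) (hZ : X.Stab Z), X.Clo Z → Z.Nonempty → (X.van Z).IsPrime →
      X.cdim Z = (d + Fintype.card X.J : ℕ) → clZ X Z hZ ∈ H) : Fd X (d + 1) ≤ H := by
  rw [Fd, Nat.add_right_comm]
  exact Fl_succ_le hX H h0 h

/-- the multiplicity along an irreducible set -/
theorem exists_mult (hX : X.Free) (Z : Set X.Pt) (hZ : X.Stab Z) (hp : (X.van Z).IsPrime)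
    (hM : ∀ z : X.Pt, z ∉ Z → ZeroAt z.1 M.M) (hd : X.cdim Z ≤ d) :
    ∃ c : ℤ, cls M - c • clZ X Z hZ ∈ Fl X d := by
  have h : cls M ∈ Fl X d ⊔ AddSubgroup.zmultiples (clZ X Z hZ) :=
    supp_le _ Z hM fun V hV γ h1 _ _ _ _ => by
      by_cases o : X.cdim V < d
      · exact AddSubgroup.mem_sup_left (str_mem_Fl hV γ o)
      · have h5 := AddSubgroup.add_mem_sup (shift_Fl hX γ (clZ_mem_Fl hV
          (le_iff_lt_succ.1 ((cdim_mono h1).trans hd)))) (AddSubgroup.mem_zmultiples (clZ X Z hZ))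
        rwa [clZ_congr hZ hV (van_eq_of_cdim (van_anti h1) (hd.trans (not_lt.1 o))).symm, clZ,
          sub_add_cancel, ← clZ,
          clZ_congr hV hZ (van_eq_of_cdim (van_anti h1) (hd.trans (not_lt.1 o)))] at h5
  obtain ⟨y, hy, _, ⟨c, rfl⟩, e⟩ := AddSubgroup.mem_sup.1 h
  exact ⟨c, by rwa [← e, add_sub_cancel_right]⟩

/-! ### the generic rank -/

theorem finrank_zero [IsDomain X.R] {z : X.Pt} (h : ZeroAt z.1 M.M) :
    Module.finrank X.R M.M = 0 :=
  Module.finrank_eq_zero_iff_isTorsion.2 fun m => by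
    obtain ⟨r, h1, h2⟩ := h m
    exact ⟨⟨r, mem_nonZeroDivisors_of_ne_zero fun o => h1 (by rw [o, map_zero])⟩, h2⟩

theorem rkG_cls [IsDomain X.R] [h : Nonempty X.Pt] (M : GMod X) :
    rkG X (cls M) = Module.finrank X.R M.M := by
  have h1 : ∃ ψ : G X →+ ℤ, ∀ M : GMod X, ψ (cls M) = Module.finrank X.R M.M := by
    refine G_lift' _ (fun A B C f g _ _ h1 h2 h3 => ?_) fun M hM => ?_
    · have h4 := (LinearMap.ker g).finrank_quotient_add_finrank
      rw [(g.quotKerEquivOfSurjective h3).finrank_eq, LinearMap.exact_iff.1 h2,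
        LinearMap.finrank_range_of_inj h1] at h4
      rw [← h4, Nat.cast_add, add_comm]
    · rw [finrank_zero (hM h.some), Nat.cast_zero]
  rw [rkG, dif_pos h1]
  exact h1.choose_spec M

theorem rkG_oG [IsDomain X.R] [Nonempty X.Pt] : rkG X (oG X) = 1 :=
  (rkG_cls (one X)).trans (by exact_mod_cast Module.finrank_self X.R)

theorem rkG_Fl [IsDomain X.R] [Nonempty X.Pt] (hd : (d : WithBot ℕ∞) ≤ ringKrullDim X.R)
    (hx : x ∈ Fl X d) : rkG X x = 0 := by
  refine Fl_le (rkG X).ker (fun p hp γ h1 _ h2 => ?_) hx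
  rw [AddMonoidHom.mem_ker, rkG_cls, Nat.cast_eq_zero]
  have h3 : p ≠ ⊥ := by
    rintro rfl
    rw [ringKrullDim_eq_of_ringEquiv (RingEquiv.quotientBot _)] at h2
    exact h2.not_ge hd
  obtain ⟨r, h4, h5⟩ := (Submodule.ne_bot_iff p).1 h3
  exact Module.finrank_eq_zero_iff_isTorsion.2 fun m =>
    ⟨⟨r, mem_nonZeroDivisors_of_ne_zero h5⟩, quo_kill hp γ r h4 m⟩

theorem exists_top [IsDomain X.R] (hX : X.Free) (hd : ringKrullDim X.R ≤ d) (x : G X) :
    ∃ c : ℤ, x - c • oG X ∈ Fl X d := by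
  have key : ∀ M : GMod X, ∃ c : ℤ, cls M - c • oG X ∈ Fl X d := fun M =>
    clZ_univ X ▸ exists_mult hX Set.univ _ (van_univ (X := X) ▸ Ideal.isPrime_bot)
      (fun _ h => (h trivial).elim) (cdim_univ.trans_le hd)
  obtain ⟨M, N, rfl⟩ := G_exists_sub x
  obtain ⟨c, hc⟩ := key M
  obtain ⟨c', hc'⟩ := key N
  exact ⟨c - c', by rw [sub_smul, sub_sub_sub_comm]; exact sub_mem hc hc'⟩

theorem sub_rkG_Fl [IsDomain X.R] [Nonempty X.Pt] (hX : X.Free) (hd : ringKrullDim X.R ≤ d)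
    (x : G X) : x - rkG X x • oG X ∈ Fl X d := by
  have h0 := dim_eq_td (k := ℂ) (R := X.R)
  obtain ⟨c, hc⟩ := exists_top hX h0.le x
  have h1 := rkG_Fl h0.ge hc
  rw [map_sub, map_zsmul, rkG_oG, smul_eq_mul, mul_one, sub_eq_zero] at h1
  rw [h1]
  exact Fl_mono (by rwa [h0, Nat.cast_le] at hd) hc

theorem rkG_shift [IsDomain X.R] [Nonempty X.Pt] (M : GMod X) (γ : X.J → ℤ) :
    rkG X (cls (M.shift γ)) = rkG X (cls M) := by
  rw [rkG_cls, rkG_cls]
  rfl

theorem rkG_isoAt [IsDomain X.R] {A B : GMod X} {f : A.M →ₗ[X.R] B.M} (hf : A.IsHom B f)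
    {z : X.Pt} (h1 : InjAt z.1 f) (h2 : SurjAt z.1 f) : rkG X (cls A) = rkG X (cls B) := by
  haveI : Nonempty X.Pt := ⟨z⟩
  rw [← sub_eq_zero, ← map_sub, cls_sub_cls hf, map_sub, rkG_cls, rkG_cls,
    finrank_zero (M := hf.kerM) (injAt_iff_ker.1 h1),
    finrank_zero (M := hf.cokerM) (surjAt_iff_coker.1 h2), sub_self]

theorem rkG_free [IsDomain X.R] {z : X.Pt} {r : ℕ} (h : FreeAt z.1 M.M r) :
    rkG X (cls M) = r := by
  haveI : Nonempty X.Pt := ⟨z⟩
  obtain ⟨γ, f, h1, h2⟩ := exists_frame_free h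
  rw [← rkG_isoAt h1 h2.injAt h2.surjAt, cls_pi, map_sum]
  simp only [rkG_shift]
  rw [show cls (one X) = oG X from rfl, rkG_oG]
  simp

theorem rkG_kact [IsDomain X.R] [h : Nonempty X.Pt] (a : K0 X) (x : G X) :
    rkG X (kact X a x) = rk X a * rkG X x := by
  have key : ∀ (B : Bun X) (N : GMod X), rkG X (kact X B.cls (cls N)) = B.rk * rkG X (cls N) := by
    intro B N
    obtain ⟨γ, f, h3, s, g, h4, h5, h6⟩ := exists_frame_free (B.free h.some)
    rw [kact_cls, ← rkG_isoAt (isHom_rT h3 N) (.of_left h4 (rT_aux N.M h5))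
      (.of_right h4 (rT_aux N.M h6)), cls_pi_ten, map_sum]
    simp only [kact_line, rkG_shift]
    simp
  obtain ⟨B₀, B₁, rfl⟩ := K0_induction a
  obtain ⟨M, N, rfl⟩ := G_exists_sub x
  simp only [map_sub, AddMonoidHom.sub_apply, key, rk_cls]
  ring

/-! ### the filtration of `K0` -/

theorem FF_zero (X : Spc) : FF X 0 = ⊤ := eq_top_iff.2 fun _ _ _ _ _ _ _ hx => kact_Fl _ hx

theorem FF_anti (h : i ≤ j) : FF X j ≤ FF X i := fun _ ha W f hW d x hx =>
  ha W f hW d x (Fl_mono (Nat.add_le_add_left h d) hx)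

theorem FF_mul (ha : a ∈ FF X i) (hb : b ∈ FF X j) : a * b ∈ FF X (i + j) :=
  fun W f hW d x hx => by
    rw [map_mul, kact_mul]
    exact ha W f hW d _ (hb W f hW _ x (by rwa [add_assoc]))

theorem FF_mul_left (a : K0 X) (hb : b ∈ FF X j) : a * b ∈ FF X j :=
  zero_add j ▸ FF_mul ((FF_zero X).ge trivial) hb

theorem FF_mul_right (b : K0 X) (ha : a ∈ FF X j) : a * b ∈ FF X j :=
  mul_comm b a ▸ FF_mul_left b ha

theorem FF_prod {ι : Type*} (s : Finset ι) {a : ι → K0 X} {n : ι → ℕ}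
    (h : ∀ k ∈ s, a k ∈ FF X (n k)) : ∏ k ∈ s, a k ∈ FF X (∑ k ∈ s, n k) := by
  classical
  induction s using Finset.induction_on with
  | empty => exact (FF_zero X).ge trivial
  | insert k t hk ih =>
    rw [Finset.prod_insert hk, Finset.sum_insert hk]
    exact FF_mul (h k (Finset.mem_insert_self _ _))
      (ih fun l hl => h l (Finset.mem_insert_of_mem hl))

theorem FF_pow (ha : a ∈ FF X i) (n : ℕ) : a ^ n ∈ FF X (n * i) := by
  simpa using FF_prod (Finset.range n) (a := fun _ => a) (n := fun _ => i) fun _ _ => ha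

theorem FF_pull (f : Mor W X) (ha : a ∈ FF X j) : pullK f a ∈ FF W j :=
  fun V g hV d x hx => pullK_comp f g a ▸ ha V (f.comp g) hV d x hx

theorem FF_one (h : rk X a = 0) : a ∈ FF X 1 := fun W f hW d x hx => by
  have h1 := kact_sub_rk hW (pullK f a) hx
  rwa [rk_pullK, h, zero_smul, sub_zero] at h1

theorem sub_rk_FF (a : K0 X) : a - (rk X a : K0 X) ∈ FF X 1 := FF_one (by simp)

theorem one_sub_line_FF (γ : X.J → ℤ) : 1 - line X γ ∈ FF X 1 := FF_one (by simp [rk_line])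

theorem FF_Fl (hX : X.Free) (ha : a ∈ FF X j) (hx : x ∈ Fl X (d + j)) : kact X a x ∈ Fl X d :=
  pullK_id a ▸ ha X (Mor.id X) hX d x hx

theorem FF_Fd (hX : X.Free) (ha : a ∈ FF X j) (hx : x ∈ Fd X (d + j)) : kact X a x ∈ Fd X d :=
  FF_Fl hX ha (by rwa [Nat.add_right_comm])

theorem FF_Fd' (hX : X.Free) (ha : a ∈ FF X j) (hx : x ∈ Fd X d) : kact X a x ∈ Fd X (d - j) :=
  FF_Fd hX ha (Fd_mono le_tsub_add hx)

theorem rk_of_FF_one [h0 : Nonempty X.Pt] (h : a ∈ FF X 1) : rk X a = 0 := by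
  have hW : (Spc.pt Empty).Free := fun _ => eq_top_iff.2 fun γ _ =>
    (funext fun j => j.elim : (0 : Empty → ℤ) = γ) ▸ zero_mem _
  haveI : IsDomain (Spc.pt Empty).R := inferInstanceAs (IsDomain ℂ)
  haveI : Nonempty (Spc.pt Empty).Pt := ⟨⟨AlgHom.id ℂ ℂ, (1 : ℂ), trivial, one_ne_zero⟩⟩
  have h1 := h _ (cst (Spc.pt Empty) h0.some) hW 0 (oG _) ((Fl_top (by
    change ringKrullDim ℂ < _
    rw [ringKrullDim_eq_zero_of_field]
    exact_mod_cast Nat.zero_lt_one)).ge trivial)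
  rw [Fl_zero, AddSubgroup.mem_bot] at h1
  have h2 := rkG_kact (pullK (cst (Spc.pt Empty) h0.some) a) (oG _)
  rwa [h1, map_zero, rkG_oG, mul_one, rk_pullK, eq_comm] at h2

end AF

end Vale.Agent.P297Z
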