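import Vale.Agent.P297Z.K.AF2
import Vale.Agent.P297Z.K.AS

/-!
# P297: points, modules supported on a closed subspace
-/

set_option linter.all false

open scoped TensorProduct

noncomputable section

namespace Vale.Agent.P297Z

open GMod Dim

variable {W X Y : Spc}

namespace AF

variable {M : GMod X} {d : ℕ}

theorem Fd_zero (hX : X.Free) : Fd X 0 = ⊥ :=
  eq_bot_iff.2 (Fl_le' _ fun _ hZ _ _ h2 _ h4 =>
    absurd (card_le_cdim hX hZ h2) (not_le.2 (by rwa [zero_add] at h4)))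

theorem ptC_mem (z : X.Pt) : ptC X z ∈ Fd X 1 :=
  clZ_mem_Fl _ (by rw [add_comm]; exact le_iff_lt_succ.1 (cdim_orb_le z))

theorem orb_eq {z z' : X.Pt} (h : X.Orb z z') : X.orb z = X.orb z' :=
  Set.ext fun _ => ⟨fun k => h.symm.trans k, fun k => h.trans k⟩

theorem ptC_orb {z z' : X.Pt} (h : X.Orb z z') : ptC X z = ptC X z' :=
  clZ_congr _ _ (congrArg X.van (orb_eq h))

/-- an irreducible stable set of minimal dimension is the closure of an orbit -/
theorem van_eq_orb (hX : X.Free) {Z : Set X.Pt} (hZ : X.Stab Z) (hp : (X.van Z).IsPrime)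
    (hd : X.cdim Z ≤ (Fintype.card X.J : ℕ)) {z : X.Pt} (hz : z ∈ Z) :
    X.van (X.orb z) = X.van Z :=
  van_eq_of_cdim (van_anti (hZ z hz)) (hd.trans (cdim_orb hX z).ge)

theorem Fd_one (hX : X.Free) : Fd X 1 = AddSubgroup.closure (Set.range (ptC X)) := by
  refine le_antisymm (Fd_succ_le hX _ ((Fd_zero hX).le.trans bot_le)
    fun Z hZ _ ⟨z, hz⟩ h3 h4 => AddSubgroup.subset_closure ⟨z, clZ_congr _ _
      (van_eq_orb hX hZ h3 (by rw [h4, zero_add]) hz)⟩) ((AddSubgroup.closure_le _).2 ?_)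
  rintro _ ⟨z, rfl⟩
  exact ptC_mem z

/-- two additive maps that agree on points agree on the classes of dimension zero -/
theorem Fd_one_ext {A : Type*} [AddGroup A] (hX : X.Free) {α β : G X →+ A}
    (h : ∀ z, α (ptC X z) = β (ptC X z)) {x : G X} (hx : x ∈ Fd X 1) : α x = β x := by
  rw [Fd_one hX] at hx
  exact (AddSubgroup.closure_le (α.eqLocus β)).2 (by rintro _ ⟨z, rfl⟩; exact h z) hx

theorem kact_Fd_one (hX : X.Free) (a : K0 X) {x : G X} (hx : x ∈ Fd X 1) :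
    kact X a x = rk X a • x :=
  sub_eq_zero.1 ((Fd_zero hX).le (kact_sub_rk_Fd hX a hx))

theorem kact_ptC (hX : X.Free) (a : K0 X) (z : X.Pt) :
    kact X a (ptC X z) = rk X a • ptC X z := kact_Fd_one hX a (ptC_mem z)

/-- a class in `FF (n + 1)` acts as zero on a free space of dimension at most `n` -/
theorem FF_kact_zero (hX : X.Free) {n : ℕ} (h : ringKrullDim X.R ≤ (n + Fintype.card X.J : ℕ))
    {a : K0 X} (ha : a ∈ FF X (n + 1)) (x : G X) : kact X a x = 0 :=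
  (Fd_zero hX).le (FF_Fd hX ha (by rw [zero_add, Fd_top h]; trivial))

/-- a module supported on one orbit -/
theorem exists_mult_pt (hX : X.Free) (z : X.Pt)
    (hM : ∀ z' : X.Pt, ¬X.Orb z z' → ZeroAt z'.1 M.M) : ∃ c : ℤ, cls M = c • ptC X z := by
  obtain ⟨c, hc⟩ := exists_mult hX (X.orb z) (X.orb_stab z) (van_orb_prime z) hM (cdim_orb_le z)
  exact ⟨c, sub_eq_zero.1 ((Fd_zero hX).le (by rwa [Fd, zero_add]))⟩

theorem fstar_incl_oG (hX : X.IsProj) (Z : Set X.Pt) (hZ : X.Stab Z) :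
    fstar (Mor.incl X Z hZ) (oG _) = clZ X Z hZ := fstar_incl hX Z hZ

theorem fstar_cst (hX : X.IsProj) (z : X.Pt) :
    fstar (cst (Spc.pt Empty) z) (oG _) = ptC X z :=
  fstar_pt hX _ z (fun _ => rfl) (fun _ => Iff.rfl) _

theorem fstar_ptC (hX : X.IsProj) (hY : Y.IsProj) (f : Mor X Y) (z : X.Pt) :
    fstar f (ptC X z) = ptC Y (f.onPt z) := by
  rw [← fstar_cst hX, ← fstar_comp Spc.isProj_pt hX hY]
  exact fstar_pt hY _ (f.onPt z) (fun _ => rfl) (fun _ => Iff.rfl) _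

theorem chiG_ptC (hX : X.IsProj) (z : X.Pt) : chiG X (ptC X z) = 1 := by
  rw [← fstar_cst hX, chiG_fstar Spc.isProj_pt hX, chiG_pt_oG]

/-- the class of a closed subspace of a closed subspace -/
theorem fstar_incl_str (hX : X.IsProj) (Z : Set X.Pt) (hZ : X.Stab Z) (V : Set X.Pt)
    (hV : X.Stab V) (h : X.van Z ≤ X.van V) (γ : X.J → ℤ) :
    ∃ (p : Ideal (X.sub Z hZ).R) (hp : (one (X.sub Z hZ)).Stab p),
      Nonempty (((X.sub Z hZ).R ⧸ p) ≃+* (X.R ⧸ X.van V)) ∧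
      fstar (Mor.incl X Z hZ) (cls (((one _).quo p hp).shift γ)) = cls ((str X V hV).shift γ) := by
  let p : Ideal (X.R ⧸ X.van Z) := (X.van V).map (Ideal.Quotient.mk (X.van Z))
  have hp : (one (X.sub Z hZ)).Stab p := fun g => map_stab (Ideal.Quotient.mk (X.van Z)) (X.act g)
    ((X.sub Z hZ).act g) (fun _ => rfl) (Spc.van_act hV g)
  let e := DoubleQuot.quotQuotEquivQuotOfLE h
  refine ⟨p, hp, ⟨e⟩, fstar_of_img (hX.sub Z hZ) hX (fun k => ⟨k, le_rfl⟩)
    (Img.shift (f := Mor.incl X Z hZ) (M := (one _).quo p hp) (N := str X V hV)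
      ⟨e.symm.toAddMonoidHom, fun r n => ?_, fun δ n hn g => ?_, 0, fun δ _ => ⟨fun n _ h0 =>
        e.symm.injective (h0.trans (map_zero _).symm), fun m hm => ⟨e m, fun g => ?_,
          e.symm_apply_apply m⟩⟩⟩ γ)⟩
  · obtain ⟨n, rfl⟩ := Ideal.Quotient.mk_surjective (I := X.van V) n
    rfl
  · have h1 : ∀ n : X.R ⧸ X.van V, ((one (X.sub Z hZ)).quo p hp).act g (e.symm n) =
        e.symm ((str X V hV).act g n) := fun n => by
      obtain ⟨n, rfl⟩ := Ideal.Quotient.mk_surjective (I := X.van V) n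
      rfl
    refine (h1 n).trans ((congrArg e.symm (hn g)).trans ?_)
    obtain ⟨n, rfl⟩ := Ideal.Quotient.mk_surjective (I := X.van V) n
    rfl
  · have h1 : ∀ m : (X.R ⧸ X.van Z) ⧸ p, (str X V hV).act g (e m) =
        e (((one (X.sub Z hZ)).quo p hp).act g m) := fun m => by
      obtain ⟨m, rfl⟩ := Ideal.Quotient.mk_surjective (I := p) m
      obtain ⟨m, rfl⟩ := Ideal.Quotient.mk_surjective (I := X.van Z) m
      rfl
    refine (h1 m).trans ((congrArg e (hm g)).trans ?_)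
    obtain ⟨m, rfl⟩ := Ideal.Quotient.mk_surjective (I := p) m
    obtain ⟨m, rfl⟩ := Ideal.Quotient.mk_surjective (I := X.van Z) m
    rfl

/-- a module supported on `Z` comes from `Z` -/
theorem supp_incl (hX : X.IsProj) (Z : Set X.Pt) (hZ : X.Stab Z)
    (hM : ∀ z : X.Pt, z ∉ Z → ZeroAt z.1 M.M) (V : Set X.Pt)
    (hV : ∀ z : X.Pt, z ∉ V → ZeroAt z.1 M.M) (h : X.cdim V < d) :
    cls M ∈ (Fl (X.sub Z hZ) d).map (fstar (Mor.incl X Z hZ)) :=
  supp_le _ (Z ∩ V) (fun z hz => (not_and_or.1 hz).elim (hM z) (hV z))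
    fun U hU γ h1 _ _ _ _ => by
      obtain ⟨p, hp, ⟨e⟩, h2⟩ := fstar_incl_str hX Z hZ U hU
        (van_anti (h1.trans Set.inter_subset_left)) γ
      exact ⟨_, quo_mem_Fl hp γ ((ringKrullDim_eq_of_ringEquiv e).trans_lt
        ((cdim_mono (h1.trans Set.inter_subset_right)).trans_lt h)), h2⟩

theorem supp_incl_range (hX : X.IsProj) (Z : Set X.Pt) (hZ : X.Stab Z)
    (hM : ∀ z : X.Pt, z ∉ Z → ZeroAt z.1 M.M) : cls M ∈ (fstar (Mor.incl X Z hZ)).range :=
  supp_le _ Z hM fun U hU γ h1 _ _ _ _ =>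
    let ⟨_, _, _, h2⟩ := fstar_incl_str hX Z hZ U hU (van_anti h1) γ
    ⟨_, h2⟩

end AF

end Vale.Agent.P297Z
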