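import Vale.Agent.P297Z.K.Spc

/-!
# P297: morphisms of spaces
-/

set_option linter.all false

open scoped TensorProduct

noncomputable section

namespace Vale.Agent.P297Z

section good

variable {X Y : Spc} (φ : Y.R →ₐ[ℂ] X.R) (ρ : (Y.J → ℤ) →+ (X.J → ℤ))

/-- the map commutes with the tori on `r` -/
def Good (r : Y.R) : Prop := ∀ h, φ (Y.act (tor ρ h) r) = X.act h (φ r)

theorem good_zero : Good φ ρ 0 := fun _ => by simp only [map_zero]

variable {φ ρ}

theorem Good.add {x y : Y.R} (hx : Good φ ρ x) (hy : Good φ ρ y) : Good φ ρ (x + y) :=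
  fun h => by simp only [map_add, hx h, hy h]

theorem Good.mul {x y : Y.R} (hx : Good φ ρ x) (hy : Good φ ρ y) : Good φ ρ (x * y) :=
  fun h => by simp only [map_mul, hx h, hy h]

theorem good_of_wt {γ : Y.J → ℤ} {r : Y.R} (hr : r ∈ Y.wt γ) (h : φ r ∈ X.wt (ρ γ)) :
    Good φ ρ r := equiv_of_wt φ.toLinearMap ρ hr h

theorem Good.wt {γ : Y.J → ℤ} {r : Y.R} (h : Good φ ρ r) (hr : r ∈ Y.wt γ) : φ r ∈ X.wt (ρ γ) :=
  wt_of_equiv φ.toLinearMap ρ hr h

end good

/-- a morphism of spaces `X ⟶ Y` -/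
structure Mor (X Y : Spc) where
  φ : Y.R →ₐ[ℂ] X.R
  ρ : (Y.J → ℤ) →+ (X.J → ℤ)
  wt_map : ∀ γ, ∀ r ∈ Y.wt γ, φ r ∈ X.wt (ρ γ)
  pt_map : ∀ z : X.Pt, ∃ f ∈ Y.b, z.1 (φ f) ≠ 0

namespace Mor

variable {W X Y Z : Spc}

/-- the map on points -/
def onPt (f : Mor X Y) (z : X.Pt) : Y.Pt := ⟨z.1.comp f.φ, f.pt_map z⟩

/-- the identity -/
def id (X : Spc) : Mor X X := ⟨AlgHom.id ℂ X.R, AddMonoidHom.id _, fun _ _ h => h, fun z => z.2⟩

/-- first `f`, then `g` -/
def comp (g : Mor Y Z) (f : Mor X Y) : Mor X Z :=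
  ⟨f.φ.comp g.φ, f.ρ.comp g.ρ, fun γ r h => f.wt_map _ _ (g.wt_map γ r h),
    fun z => g.pt_map (f.onPt z)⟩

theorem act_map (f : Mor X Y) (g : X.J → ℂˣ) (r : Y.R) :
    f.φ (Y.act (tor f.ρ g) r) = X.act g (f.φ r) :=
  Y.induction (P := Good f.φ f.ρ) (good_zero _ _) (fun γ r hr => good_of_wt hr (f.wt_map γ r hr))
    (fun _ _ => Good.add) r g

theorem orb (f : Mor X Y) {z z' : X.Pt} (h : X.Orb z z') : Y.Orb (f.onPt z) (f.onPt z') := by
  obtain ⟨g, h⟩ := h
  refine ⟨tor f.ρ g, AlgHom.ext fun r => ?_⟩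
  show z'.1 (f.φ r) = z.1 (f.φ (Y.act (tor f.ρ g) r))
  rw [h, f.act_map, AlgHom.comp_apply]

/-- the first projection -/
def fst (X Y : Spc) : Mor (X.prod Y) X where
  φ := Algebra.TensorProduct.includeLeft
  ρ := { toFun := fun γ => Sum.elim γ 0
         map_zero' := funext fun j => by cases j <;> rfl
         map_add' := fun _ _ => funext fun j => by cases j <;> rfl }
  wt_map := fun _ _ h => Spc.tmul_mem h Y.one_mem
  pt_map := fun z => ((Spc.prod_pt X Y z.1).1 z.2).1

/-- the second projection -/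
def snd (X Y : Spc) : Mor (X.prod Y) Y where
  φ := Algebra.TensorProduct.includeRight
  ρ := { toFun := fun γ => Sum.elim 0 γ
         map_zero' := funext fun j => by cases j <;> rfl
         map_add' := fun _ _ => funext fun j => by cases j <;> rfl }
  wt_map := fun _ _ h => Spc.tmul_mem X.one_mem h
  pt_map := fun z => ((Spc.prod_pt X Y z.1).1 z.2).2

/-- the map of lattices of the map to a product -/
def liftρ (f : Mor W X) (g : Mor W Y) : (X.J ⊕ Y.J → ℤ) →+ (W.J → ℤ) where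
  toFun := fun γ => f.ρ (fun j => γ (.inl j)) + g.ρ (fun j => γ (.inr j))
  map_zero' := by
    show f.ρ 0 + g.ρ 0 = 0
    rw [map_zero, map_zero, add_zero]
  map_add' := fun γ δ => by
    show f.ρ ((fun j => γ (.inl j)) + fun j => δ (.inl j)) +
      g.ρ ((fun j => γ (.inr j)) + fun j => δ (.inr j)) = _
    rw [map_add, map_add, add_add_add_comm]

theorem lift_good (f : Mor W X) (g : Mor W Y) (r : X.R ⊗[ℂ] Y.R) :
    Good (Y := X.prod Y) (Algebra.TensorProduct.productMap f.φ g.φ) (liftρ f g) r :=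
  Spc.ten_induction X Y
    (P := Good (Y := X.prod Y) (Algebra.TensorProduct.productMap f.φ g.φ) (liftρ f g))
    (good_zero (Y := X.prod Y) _ _)
    (fun γ δ x hx y hy => good_of_wt (Spc.tmul_mem hx hy)
      (Spc.mul_mem (f.wt_map γ x hx) (g.wt_map δ y hy)))
    (fun _ _ hx hy => Good.add (Y := X.prod Y) hx hy) r

/-- the map to a product -/
def lift (f : Mor W X) (g : Mor W Y) : Mor W (X.prod Y) where
  φ := Algebra.TensorProduct.productMap f.φ g.φ
  ρ := { toFun := fun γ => f.ρ (fun j => γ (.inl j)) + g.ρ (fun j => γ (.inr j))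
         map_zero' := (liftρ f g).map_zero
         map_add' := (liftρ f g).map_add }
  wt_map := fun _ r hr => (lift_good f g r).wt hr
  pt_map := fun z =>
    (Spc.prod_pt X Y (z.1.comp (Algebra.TensorProduct.productMap f.φ g.φ))).2 (by
      simpa using And.intro (f.pt_map z) (g.pt_map z))

/-- the product of two maps -/
def map (f : Mor W X) (g : Mor Y Z) : Mor (W.prod Y) (X.prod Z) :=
  lift (f.comp (fst W Y)) (g.comp (snd W Y))

/-- the inclusion of a closed subspace -/
def incl (X : Spc) (Z : Set X.Pt) (hZ : X.Stab Z) : Mor (X.sub Z hZ) X where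
  φ := Ideal.Quotient.mkₐ ℂ (X.van Z)
  ρ := AddMonoidHom.id _
  wt_map := fun _ _ h => Spc.mk_mem hZ h
  pt_map := fun z => (Spc.sub_pt X Z hZ z.1).1 z.2

/-- a map whose points land in `Z` factors through the closed subspace -/
def toSub (f : Mor W X) (Z : Set X.Pt) (hZ : X.Stab Z) (h : ∀ w, f.onPt w ∈ Z) :
    Mor W (X.sub Z hZ) where
  φ := Ideal.Quotient.liftₐ (X.van Z) f.φ fun a ha => W.sep _ fun w hw => ha _ (h ⟨w, hw⟩)
  ρ := f.ρ
  wt_map := fun γ v hv => by
    obtain ⟨r, hr, rfl⟩ := Spc.exists_mk hZ hv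
    exact f.wt_map γ r hr
  pt_map := fun z => by
    obtain ⟨a, ha, h0⟩ := f.pt_map z
    exact ⟨Ideal.Quotient.mk _ a, Ideal.mem_map_of_mem _ ha, h0⟩

/-- the projection of the projective bundle -/
def adjPr (X : Spc) (ι : Type) [Fintype ι] [Nonempty ι] (d : ι → X.J → ℤ) :
    Mor (X.adj ι d) X where
  φ := IsScalarTower.toAlgHom ℂ X.R (MvPolynomial ι X.R)
  ρ := { toFun := fun γ j => j.elim 0 γ
         map_zero' := funext fun j => by cases j <;> rfl
         map_add' := fun _ _ => funext fun j => by cases j <;> rfl }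
  wt_map := fun _ _ h => Spc.C_mem X ι d h
  pt_map := fun z => ((Spc.adj_pt X ι d z.1).1 z.2).1

/-- the map of lattices of the map to a projective bundle -/
def adjρ (f : Mor W X) (e : W.J → ℤ) : (Option X.J → ℤ) →+ (W.J → ℤ) where
  toFun := fun γ => f.ρ (fun j => γ (some j)) + γ none • e
  map_zero' := by
    show f.ρ 0 + (0 : ℤ) • e = 0
    rw [map_zero, zero_smul, add_zero]
  map_add' := fun γ δ => by
    show f.ρ ((fun j => γ (some j)) + fun j => δ (some j)) + (γ none + δ none) • e = _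
    rw [map_add, add_smul, add_add_add_comm]

theorem adj_good (f : Mor W X) (ι : Type) [Fintype ι] [Nonempty ι] (d : ι → X.J → ℤ)
    (e : W.J → ℤ) (y : ι → W.R) (hy : ∀ i, y i ∈ W.wt (f.ρ (d i) + e))
    (p : MvPolynomial ι X.R) :
    Good (Y := X.adj ι d) (MvPolynomial.aevalTower f.φ y) (adjρ f e) p := by
  induction p using MvPolynomial.induction_on with
  | C r =>
    refine X.induction (P := fun r => Good (Y := X.adj ι d) (MvPolynomial.aevalTower f.φ y)
      (adjρ f e) (MvPolynomial.C r : MvPolynomial ι X.R)) ?_ (fun γ r hr => ?_)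
      (fun a b ha hb => ?_) r
    · rw [map_zero]
      exact good_zero (Y := X.adj ι d) _ _
    · refine good_of_wt (Spc.C_mem X ι d hr) ?_
      show MvPolynomial.aevalTower f.φ y (MvPolynomial.C r) ∈ W.wt (f.ρ γ + (0 : ℤ) • e)
      rw [MvPolynomial.aevalTower_C, zero_smul, add_zero]
      exact f.wt_map γ r hr
    · rw [map_add]
      exact Good.add (Y := X.adj ι d) ha hb
  | add p q hp hq => exact Good.add (Y := X.adj ι d) hp hq
  | mul_X p i hp =>
    refine Good.mul (Y := X.adj ι d) hp (good_of_wt (Spc.X_mem X ι d i) ?_)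
    show MvPolynomial.aevalTower f.φ y (MvPolynomial.X i) ∈ W.wt (f.ρ (d i) + (1 : ℤ) • e)
    rw [MvPolynomial.aevalTower_X, one_smul]
    exact hy i

/-- a map to the projective bundle, given by sections without common zero -/
def toAdj (f : Mor W X) (ι : Type) [Fintype ι] [Nonempty ι] (d : ι → X.J → ℤ) (e : W.J → ℤ)
    (y : ι → W.R)
    (hy : ∀ i, y i ∈ W.wt (f.ρ (d i) + e)) (h0 : ∀ w : W.Pt, ∃ i, w.1 (y i) ≠ 0) :
    Mor W (X.adj ι d) where
  φ := MvPolynomial.aevalTower f.φ y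
  ρ := { toFun := fun γ => f.ρ (fun j => γ (some j)) + γ none • e
         map_zero' := (adjρ f e).map_zero
         map_add' := (adjρ f e).map_add }
  wt_map := fun _ r hr => (adj_good f ι d e y hy r).wt hr
  pt_map := fun z => (Spc.adj_pt X ι d (z.1.comp (MvPolynomial.aevalTower f.φ y))).2 (by
    simpa using And.intro (f.pt_map z) (h0 z))

/-- the map to the point, with a chosen map of lattices -/
def toPt (X : Spc) (J : Type) [Fintype J] [DecidableEq J] (ρ : (J → ℤ) →+ (X.J → ℤ)) :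
    Mor X (Spc.pt J) where
  φ := Algebra.ofId ℂ X.R
  ρ := ρ
  wt_map := fun _ r hr => Good.wt (Y := Spc.pt J) (φ := Algebra.ofId ℂ X.R)
    (fun h => ((X.act h).commutes r).symm) hr
  pt_map := fun z => ⟨(1 : ℂ), trivial, fun h =>
    one_ne_zero ((map_one (z.1.comp (Algebra.ofId ℂ X.R))).symm.trans h)⟩

end Mor

/-- the points of the graph -/
def Mor.grS {X Y : Spc} (f : Mor X Y) : Set (X.prod Y).Pt :=
  {w | Y.Orb (f.onPt ((Mor.fst X Y).onPt w)) ((Mor.snd X Y).onPt w)}

theorem Mor.grS_stab {X Y : Spc} (f : Mor X Y) : (X.prod Y).Stab f.grS := fun _ hw _ h =>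
  ((f.orb ((Mor.fst X Y).orb h)).symm.trans hw).trans ((Mor.snd X Y).orb h)

end Vale.Agent.P297Z
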