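import Vale.Agent.P297Z.K.Lem
import Vale.Agent.P297Z.K.Mor

/-!
# P297: morphisms of spaces, pull-back, projective structures
-/

set_option linter.all false

open scoped TensorProduct

noncomputable section

namespace Vale.Agent.P297Z

namespace Mor

variable {W X Y Z : Spc}

/-- the ring of the source, as an algebra over the ring of the target -/
def Src (_ : Mor X Y) : Type := X.R

instance (f : Mor X Y) : CommRing f.Src := X.cr
instance (f : Mor X Y) : Algebra ℂ f.Src := X.alg
instance (f : Mor X Y) : Algebra Y.R f.Src := (f.φ : Y.R →+* X.R).toAlgebra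
instance (f : Mor X Y) : IsScalarTower ℂ Y.R f.Src :=
  IsScalarTower.of_algebraMap_eq fun c => (f.φ.commutes c).symm

/-- the action on the source ring, semilinear over the target ring -/
def semi (f : Mor X Y) (g : X.J → ℂˣ) :
    f.Src →ₛₗ[(Y.act (tor f.ρ g) : Y.R →+* Y.R)] f.Src where
  toFun := X.act g
  map_add' := map_add (X.act g)
  map_smul' := fun r x => by
    show X.act g (f.φ r * (show X.R from x)) = f.φ (Y.act (tor f.ρ g) r) * X.act g x
    rw [map_mul, act_map]

theorem map_smul_aux (f : Mor X Y) (M : GMod Y) (g : X.J → ℂˣ) (r : f.Src)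
    (x : f.Src ⊗[Y.R] M.M) :
    TensorProduct.map (f.semi g) (M.semi (tor f.ρ g)) (r • x) =
      f.semi g r • TensorProduct.map (f.semi g) (M.semi (tor f.ρ g)) x := by
  induction x using TensorProduct.induction_on with
  | zero => simp
  | tmul a m =>
    rw [TensorProduct.smul_tmul', TensorProduct.map_tmul, TensorProduct.map_tmul,
      TensorProduct.smul_tmul']
    congr 1
    exact map_mul (X.act g) r a
  | add x y hx hy => rw [smul_add, map_add, map_add, hx, hy, smul_add]

/-- the pull-back of a module -/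
def pull (f : Mor X Y) (M : GMod Y) : GMod X where
  M := f.Src ⊗[Y.R] M.M
  mR := inferInstanceAs (Module f.Src (f.Src ⊗[Y.R] M.M))
  tow := inferInstanceAs (IsScalarTower ℂ f.Src (f.Src ⊗[Y.R] M.M))
  fin := inferInstanceAs (Module.Finite f.Src (f.Src ⊗[Y.R] M.M))
  act := fun g =>
    { toFun := TensorProduct.map (f.semi g) (M.semi (tor f.ρ g))
      map_add' := map_add _
      map_smul' := fun c x => by
        have e : ∀ x : f.Src ⊗[Y.R] M.M, c • x = algebraMap ℂ Y.R c • x := fun x =>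
          (algebraMap_smul Y.R c x).symm
        rw [e, LinearMap.map_smulₛₗ, RingHom.id_apply, e]
        congr 1
        exact (Y.act _).commutes c }
  act_smul := fun g r x => f.map_smul_aux M g r x
  span := span_tensor (R := Y.R) (V := f.Src) (a := fun g => (X.act g).toLinearMap)
    (b := fun g => M.act (tor f.ρ g)) (fun _ _ _ => rfl) X.span (span_tor f.ρ M.span)

/-- a module on the source as a module over the ring of the target -/
def Res (_ : Mor X Y) (M : GMod X) : Type := M.M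

instance (f : Mor X Y) (M : GMod X) : AddCommGroup (f.Res M) := M.acg
instance (f : Mor X Y) (M : GMod X) : Module ℂ (f.Res M) := M.mC
instance (f : Mor X Y) (M : GMod X) : Module Y.R (f.Res M) :=
  Module.compHom M.M (f.φ : Y.R →+* X.R)
instance (f : Mor X Y) (M : GMod X) : IsScalarTower ℂ Y.R (f.Res M) :=
  ⟨fun c r m => by
    show f.φ (c • r) • (show M.M from m) = c • (f.φ r • (show M.M from m))
    rw [map_smul, smul_assoc]⟩

/-- the identity map to the restricted module -/
def toRes (f : Mor X Y) (M : GMod X) : M.M ≃ₗ[ℂ] f.Res M := LinearEquiv.refl ℂ M.M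

theorem smul_toRes (f : Mor X Y) (M : GMod X) (r : Y.R) (m : M.M) :
    r • f.toRes M m = f.toRes M (f.φ r • m) := rfl

theorem toRes_symm_smul (f : Mor X Y) (M : GMod X) (r : Y.R) (m : f.Res M) :
    (f.toRes M).symm (r • m) = f.φ r • (f.toRes M).symm m := rfl

/-- the same map to the quotient by the torus -/
def Homot (f f' : Mor X Y) : Prop := ∀ z, Y.Orb (f.onPt z) (f'.onPt z)

/-- flat at all points -/
def Flat (f : Mor X Y) : Prop :=
  ∀ (A B : GMod Y) (u : A.M →ₗ[Y.R] B.M), A.IsHom B u → (∀ y : Y.Pt, InjAt y.1 u) →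
    ∀ z : X.Pt, InjAt (R := X.R) z.1 (A := (f.pull A).M) (B := (f.pull B).M) (u.baseChange f.Src)

end Mor

/-- a projective structure on a morphism: the new directions `E` and coordinates `y` -/
structure Prj {X Y : Spc} (f : Mor X Y) where
  E : Type
  [fE : Fintype E]
  [dE : DecidableEq E]
  π : (X.J → ℤ) →+ (E → ℤ)
  σ : (E → ℤ) →+ (X.J → ℤ)
  ret : (X.J → ℤ) →+ (Y.J → ℤ)
  ret_ρ : ∀ γ, ret (f.ρ γ) = γ
  ret_σ : ∀ k, ret (σ k) = 0
  π_ρ : ∀ γ, π (f.ρ γ) = 0
  π_σ : ∀ k, π (σ k) = k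
  tot : ∀ δ, f.ρ (ret δ) + σ (π δ) = δ
  y : E → Finset X.R
  y_wt : ∀ e, ∀ a ∈ y e, ∃ γ, a ∈ X.wt (f.ρ γ + σ (Pi.single e 1))
  fin : Module.Finite (Algebra.adjoin ℂ (Set.range f.φ ∪ ⋃ e, (y e : Set X.R))) X.R
  pts : ∀ z : X.R →ₐ[ℂ] ℂ, (∃ a ∈ X.b, z a ≠ 0) ↔
    (∃ a ∈ Y.b, z (f.φ a) ≠ 0) ∧ ∀ e, ∃ a ∈ y e, z a ≠ 0

attribute [instance] Prj.fE Prj.dE

namespace Prj

variable {X Y : Spc} {f : Mor X Y}

theorem π_add (P : Prj f) (γ : Y.J → ℤ) (k : P.E → ℤ) : P.π (f.ρ γ + P.σ k) = k := by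
  rw [map_add, P.π_ρ, P.π_σ, zero_add]

theorem ret_add (P : Prj f) (γ : Y.J → ℤ) (k : P.E → ℤ) : P.ret (f.ρ γ + P.σ k) = γ := by
  rw [map_add, P.ret_ρ, P.ret_σ, add_zero]

/-- the elements of degree `k` in the new directions -/
def partS (P : Prj f) (k : P.E → ℤ) (M : GMod X) : Submodule Y.R (f.Res M) where
  carrier := {m | (m : M.M) ∈ ⨆ γ, M.wt (f.ρ γ + P.σ k)}
  add_mem' := fun ha hb => Submodule.add_mem (⨆ γ, M.wt (f.ρ γ + P.σ k)) ha hb
  zero_mem' := Submodule.zero_mem (⨆ γ, M.wt (f.ρ γ + P.σ k))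
  smul_mem' := fun r m hm => by
    show f.φ r • (show M.M from m) ∈ ⨆ γ, M.wt (f.ρ γ + P.σ k)
    refine Submodule.iSup_induction (motive := fun m : M.M => f.φ r • m ∈ ⨆ γ,
      M.wt (f.ρ γ + P.σ k)) _ hm (fun γ m hm => ?_) ?_ ?_
    · induction r using Y.induction with
      | h0 => rw [map_zero, zero_smul]; exact Submodule.zero_mem _
      | ha x y hx hy => rw [map_add, add_smul]; exact Submodule.add_mem _ hx hy
      | hw δ r hr =>
        refine Submodule.mem_iSup_of_mem (δ + γ) ?_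
        rw [map_add, add_assoc]
        exact GMod.smul_mem_wt (f.wt_map δ r hr) hm
    · rw [smul_zero]; exact Submodule.zero_mem _
    · intro x y hx hy
      rw [smul_add]; exact Submodule.add_mem _ hx hy

/-- the action of the torus of the new directions -/
def actE (P : Prj f) (M : GMod X) : (P.E → ℂˣ) → M.M →ₗ[ℂ] M.M := fun h => M.act (tor P.π h)

theorem mem_wtE (P : Prj f) {M : GMod X} {δ : X.J → ℤ} {m : M.M} (hm : m ∈ M.wt δ) :
    m ∈ wt (P.actE M) (P.π δ) := fun h => by
  show M.act (tor P.π h) m = _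
  rw [M.mem_wt.1 hm, chr_tor]

theorem spanE (P : Prj f) (M : GMod X) : ⨆ k, wt (P.actE M) k = ⊤ :=
  iSup_wt_eq_top fun m => M.induction (P := fun m => m ∈ ⨆ k, wt (P.actE M) k)
    (Submodule.zero_mem _) (fun _ _ hm => mem_iSup_wt (P.mem_wtE hm))
    (fun _ _ hx hy => Submodule.add_mem _ hx hy) m

theorem mem_partS_of_wt (P : Prj f) {M : GMod X} {δ : X.J → ℤ} {m : M.M} (hm : m ∈ M.wt δ) :
    f.toRes M m ∈ P.partS (P.π δ) M :=
  Submodule.mem_iSup_of_mem (p := fun γ => M.wt (f.ρ γ + P.σ (P.π δ))) (P.ret δ)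
    (by rw [P.tot]; exact hm)

theorem toRes_mem_partS (P : Prj f) {M : GMod X} {k : P.E → ℤ} {m : M.M} :
    f.toRes M m ∈ P.partS k M ↔ m ∈ wt (P.actE M) k := by
  constructor
  · intro hm
    refine Submodule.iSup_induction (motive := fun m : M.M => m ∈ wt (P.actE M) k) _ hm
      (fun γ m hm => ?_) (Submodule.zero_mem _) (fun x y hx hy => Submodule.add_mem _ hx hy)
    have := P.mem_wtE hm
    rwa [P.π_add] at this
  · intro hm
    rw [← cmp_of_mem (P.spanE M) hm]
    clear hm
    induction m using M.induction with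
    | h0 => rw [map_zero, map_zero]; exact Submodule.zero_mem (P.partS k M)
    | ha x y hx hy => rw [map_add, map_add]; exact Submodule.add_mem (P.partS k M) hx hy
    | hw δ x hx =>
      by_cases e : P.π δ = k
      · rw [cmp_of_mem _ (e ▸ P.mem_wtE hx)]
        exact e ▸ P.mem_partS_of_wt hx
      · rw [cmp_of_ne _ e (P.mem_wtE hx), map_zero]
        exact Submodule.zero_mem (P.partS k M)

theorem mem_partS (P : Prj f) {M : GMod X} {k : P.E → ℤ} {m : f.Res M} :
    m ∈ P.partS k M ↔ (f.toRes M).symm m ∈ wt (P.actE M) k :=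
  P.toRes_mem_partS (m := (f.toRes M).symm m)

/-- the projection to the part of degree `k` -/
def cmpE (P : Prj f) (M : GMod X) (k : P.E → ℤ) : f.Res M →ₗ[Y.R] f.Res M where
  toFun := fun m => f.toRes M (cmp (P.spanE M) k ((f.toRes M).symm m))
  map_add' := fun a b => by rw [map_add, map_add, map_add]
  map_smul' := fun r m =>
    (map_cmp (P.spanE M) (P.spanE M) (DistribSMul.toAddMonoidHom M.M (f.φ r)) (fun k => k)
      Function.injective_id
      (fun k v hv => P.mem_partS.1 ((P.partS k M).smul_mem r (P.toRes_mem_partS.2 hv))) k m).symm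

theorem cmpE_mem (P : Prj f) (M : GMod X) (k : P.E → ℤ) (m : f.Res M) :
    P.cmpE M k m ∈ P.partS k M := P.toRes_mem_partS.2 (cmp_mem (P.spanE M) k _)

theorem cmpE_of_mem (P : Prj f) {M : GMod X} {k : P.E → ℤ} {m : f.Res M} (h : m ∈ P.partS k M) :
    P.cmpE M k m = m := cmp_of_mem (P.spanE M) (P.mem_partS.1 h)

theorem cmpE_of_ne (P : Prj f) {M : GMod X} {k l : P.E → ℤ} (hne : l ≠ k) {m : f.Res M}
    (h : m ∈ P.partS l M) : P.cmpE M k m = 0 := cmp_of_ne (P.spanE M) hne (P.mem_partS.1 h)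

/-- the index set of the new coordinates -/
abbrev Ix (P : Prj f) : Type := Σ e : P.E, P.y e

/-- a monomial in the new coordinates -/
def mon (P : Prj f) (α : P.Ix → ℕ) : X.R := ∏ s : P.Ix, (s.2 : X.R) ^ α s

/-- the degree of a monomial -/
def deg (P : Prj f) (α : P.Ix → ℕ) : P.E → ℤ := fun e => ∑ a : P.y e, (α ⟨e, a⟩ : ℤ)

theorem mon_zero (P : Prj f) : P.mon 0 = 1 := by simp [mon]

theorem mon_add (P : Prj f) (α β : P.Ix → ℕ) : P.mon (α + β) = P.mon α * P.mon β := by
  simp [mon, pow_add, Finset.prod_mul_distrib]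

theorem mon_mem (P : Prj f) (α : P.Ix → ℕ) : ∃ δ, P.mon α ∈ X.wt δ ∧ P.π δ = P.deg α := by
  choose γ hγ using fun s : P.Ix => P.y_wt s.1 s.2.1 s.2.2
  refine ⟨_, Spc.prod_mem _ fun s _ => Spc.pow_mem (hγ s) (α s), ?_⟩
  rw [map_sum]
  simp only [map_nsmul, P.π_add]
  ext e
  rw [Finset.sum_apply, Fintype.sum_sigma, Finset.sum_eq_single e]
  · simp [deg]
  · intro b _ hb
    simp [Pi.single_eq_of_ne hb.symm]
  · simp

theorem mon_single (P : Prj f) (s : P.Ix) [DecidableEq P.Ix] :
    P.mon (Pi.single s 1) = (s.2 : X.R) := by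
  unfold mon
  rw [Finset.prod_eq_single s]
  · simp
  · intro b _ hb
    simp [Pi.single_eq_of_ne hb]
  · simp

theorem exists_gens (P : Prj f) (M : GMod X) :
    ∃ (T : Finset M.M) (w : M.M → X.J → ℤ), (∀ t ∈ T, t ∈ M.wt (w t)) ∧
      ∀ k, P.partS k M = Submodule.span Y.R
        {m : f.Res M | ∃ t ∈ T, ∃ α, P.deg α + P.π (w t) = k ∧ m = f.toRes M (P.mon α • t)} := by
  classical
  let A := Algebra.adjoin ℂ (Set.range f.φ ∪ ⋃ e, (P.y e : Set X.R))
  haveI : Module.Finite A X.R := P.fin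
  haveI : Module.Finite A M.M := Module.Finite.trans X.R M.M
  obtain ⟨T, w, hw, hT⟩ := M.exists_gens A
  refine ⟨T, w, hw, fun k => ?_⟩
  have hmem : ∀ t ∈ T, ∀ α, f.toRes M (P.mon α • t) ∈ P.partS (P.deg α + P.π (w t)) M := by
    intro t ht α
    obtain ⟨δ, h1, h2⟩ := P.mon_mem α
    have := P.mem_partS_of_wt (GMod.smul_mem_wt h1 (hw t ht))
    rwa [map_add, h2] at this
  let S : Submodule Y.R (f.Res M) :=
    Submodule.span Y.R {m : f.Res M | ∃ t ∈ T, ∃ α, m = f.toRes M (P.mon α • t)}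
  have hA : ∀ a ∈ A, ∀ m : M.M, f.toRes M m ∈ S → f.toRes M (a • m) ∈ S := by
    intro a ha
    induction ha using Algebra.adjoin_induction with
    | mem x hx =>
      rcases hx with ⟨r, rfl⟩ | hx
      · exact fun m hm => S.smul_mem r hm
      · obtain ⟨e, he⟩ := Set.mem_iUnion.1 hx
        intro m hm
        refine Submodule.span_induction (p := fun (m : f.Res M) _ =>
          f.toRes M (x • (f.toRes M).symm m) ∈ S) ?_ ?_ ?_ ?_ hm
        · rintro _ ⟨t, ht, α, rfl⟩
          refine Submodule.subset_span ⟨t, ht, Pi.single ⟨e, ⟨x, he⟩⟩ 1 + α, ?_⟩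
          rw [P.mon_add, mul_smul, P.mon_single, LinearEquiv.symm_apply_apply]
        · rw [map_zero, smul_zero, map_zero]; exact S.zero_mem
        · intro a b _ _ ha hb
          rw [map_add, smul_add, map_add]; exact S.add_mem ha hb
        · intro r a _ ha
          rw [f.toRes_symm_smul, smul_comm, ← f.smul_toRes]; exact S.smul_mem r ha
    | algebraMap c =>
      intro m hm
      rw [algebraMap_smul, map_smul]
      exact S.smul_of_tower_mem c hm
    | add x y _ _ hx hy =>
      intro m hm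
      rw [add_smul, map_add]; exact S.add_mem (hx m hm) (hy m hm)
    | mul x y _ _ hx hy =>
      intro m hm
      rw [mul_smul]; exact hx _ (hy m hm)
  have hS : ∀ m : M.M, f.toRes M m ∈ S := by
    intro m
    have hm : m ∈ Submodule.span A (T : Set M.M) := hT ▸ Submodule.mem_top
    induction hm using Submodule.span_induction with
    | mem t ht => exact Submodule.subset_span ⟨t, ht, 0, by rw [P.mon_zero, one_smul]⟩
    | zero => rw [map_zero]; exact S.zero_mem
    | add x y _ _ hx hy => rw [map_add]; exact S.add_mem hx hy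
    | smul a x _ hx => exact hA a.1 a.2 x hx
  apply le_antisymm
  · intro m hm
    rw [← P.cmpE_of_mem hm]
    refine Submodule.span_induction (p := fun (m : f.Res M) _ => P.cmpE M k m ∈ Submodule.span Y.R
      {m : f.Res M | ∃ t ∈ T, ∃ α, P.deg α + P.π (w t) = k ∧ m = f.toRes M (P.mon α • t)})
      ?_ ?_ ?_ ?_ (hS ((f.toRes M).symm m))
    · rintro _ ⟨t, ht, α, rfl⟩
      by_cases e : P.deg α + P.π (w t) = k
      · rw [P.cmpE_of_mem (e ▸ hmem t ht α)]
        exact Submodule.subset_span ⟨t, ht, α, e, rfl⟩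
      · rw [P.cmpE_of_ne e (hmem t ht α)]
        exact Submodule.zero_mem _
    · rw [map_zero]; exact Submodule.zero_mem _
    · intro a b _ _ ha hb
      rw [map_add]; exact Submodule.add_mem _ ha hb
    · intro r a _ ha
      rw [map_smul]; exact Submodule.smul_mem _ _ ha
  · rw [Submodule.span_le]
    rintro _ ⟨t, ht, α, e, rfl⟩
    exact e ▸ hmem t ht α

theorem finite_deg (P : Prj f) (k : P.E → ℤ) : {α | P.deg α = k}.Finite := by
  refine (Set.Finite.pi' fun s : P.Ix => Set.finite_Iic (k s.1).toNat).subset fun α hα s => ?_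
  have h1 : (α s : ℤ) ≤ P.deg α s.1 :=
    Finset.single_le_sum (f := fun a : P.y s.1 => (α ⟨s.1, a⟩ : ℤ))
      (fun _ _ => Int.natCast_nonneg _) (Finset.mem_univ s.2)
  rw [show P.deg α = k from hα] at h1
  show α s ≤ (k s.1).toNat
  omega

theorem partS_fg (P : Prj f) (k : P.E → ℤ) (M : GMod X) : (P.partS k M).FG := by
  obtain ⟨T, w, -, h⟩ := P.exists_gens M
  rw [h k]
  refine Submodule.fg_span ?_
  refine (T.finite_toSet.biUnion (t := fun t => (fun α => f.toRes M (P.mon α • t)) ''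
    {α | P.deg α = k - P.π (w t)}) fun t _ => (P.finite_deg _).image _).subset ?_
  rintro _ ⟨t, ht, α, e, rfl⟩
  exact Set.mem_biUnion ht ⟨α, eq_sub_of_add_eq e, rfl⟩

theorem act_mem_partS (P : Prj f) {k : P.E → ℤ} {M : GMod X} (g : X.J → ℂˣ) {m : M.M}
    (hm : f.toRes M m ∈ P.partS k M) : f.toRes M (M.act g m) ∈ P.partS k M := by
  refine P.toRes_mem_partS.2 fun h => ?_
  show M.act _ (M.act g m) = _
  rw [← M.act_mul, mul_comm, M.act_mul]
  have : M.act (tor P.π h) m = _ := P.toRes_mem_partS.1 hm h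
  rw [this, map_smul]

theorem tor_ret (P : Prj f) (h : Y.J → ℂˣ) : tor f.ρ (tor P.ret h) = h :=
  chr_ext fun γ => by rw [chr_tor, chr_tor, P.ret_ρ]

/-- the part of degree `k` in the new directions, a module on the target -/
def part (P : Prj f) (k : P.E → ℤ) (M : GMod X) : GMod Y where
  M := P.partS k M
  fin := Module.Finite.iff_fg.2 (P.partS_fg k M)
  act := fun h =>
    { toFun := fun m => ⟨M.act (tor P.ret h) m.1, P.act_mem_partS _ m.2⟩
      map_add' := fun a b => Subtype.ext (map_add (M.act (tor P.ret h)) a.1 b.1)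
      map_smul' := fun c a => Subtype.ext (map_smul (M.act (tor P.ret h)) c a.1) }
  act_smul := fun h r m => Subtype.ext (by
    show M.act (tor P.ret h) (f.φ r • (f.toRes M).symm m.1) =
      f.φ (Y.act h r) • M.act (tor P.ret h) ((f.toRes M).symm m.1)
    rw [M.act_smul, ← f.act_map, P.tor_ret])
  span := iSup_wt_eq_top fun m => by
    obtain ⟨m, hm⟩ := m
    refine Submodule.iSup_induction' (fun γ => M.wt (f.ρ γ + P.σ k))
      (motive := fun (m : M.M) hm => (⟨m, hm⟩ : P.partS k M) ∈ _) ?_ ?_ ?_ hm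
    · intro γ m hm
      refine mem_iSup_wt (γ := γ) fun h => Subtype.ext ?_
      show M.act (tor P.ret h) m = chr γ h • m
      rw [M.mem_wt.1 hm, chr_tor, P.ret_add]
    · exact Submodule.zero_mem _
    · intro x y hx hy h1 h2
      exact Submodule.add_mem _ h1 h2

theorem mem_part_wt (P : Prj f) {k : P.E → ℤ} {M : GMod X} {γ : Y.J → ℤ} {m : (P.part k M).M} :
    m ∈ (P.part k M).wt γ ↔ (f.toRes M).symm m.1 ∈ M.wt (f.ρ γ + P.σ k) := by
  constructor
  · intro hm g
    have e : g = tor P.ret (tor f.ρ g) * tor P.π (tor P.σ g) :=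
      chr_ext fun δ => by rw [chr_mul, chr_tor, chr_tor, chr_tor, chr_tor, ← chr_add, P.tot]
    have h1 : M.act (tor P.π (tor P.σ g)) ((f.toRes M).symm m.1) = _ := P.mem_partS.1 m.2 _
    have h2 : M.act (tor P.ret (tor f.ρ g)) ((f.toRes M).symm m.1) =
        chr γ (tor f.ρ g) • (f.toRes M).symm m.1 :=
      congrArg Subtype.val (hm (tor f.ρ g))
    conv_lhs => rw [e, M.act_mul]
    rw [h1, map_smul, h2, smul_smul, chr_tor, chr_tor, chr_add, mul_comm]
  · intro hm h
    refine Subtype.ext ?_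
    show M.act (tor P.ret h) ((f.toRes M).symm m.1) = chr γ h • (f.toRes M).symm m.1
    rw [M.mem_wt.1 hm, chr_tor, P.ret_add]

end Prj

end Vale.Agent.P297Z
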