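import Vale.Agent.P297Z.K.Fstar0
import Vale.Agent.P297Z.K.AK

/-!
# P297: the projection formula
-/

set_option linter.all false

noncomputable section

namespace Vale.Agent.P297Z

variable {X Y : Spc}

theorem fstar_proj (hX : X.IsProj) (hY : Y.IsProj) (f : Mor X Y) (a : K0 Y) (x : G X) :
    fstar f (kact X (pullK f a) x) = kact Y a (fstar f x) := by
  obtain ⟨P⟩ := ne_prj_gr2 hX f
  rw [fstar_eq P, fstar_eq P, pullG_kact (flat_gr1 hX hY f), ← pullK_comp,
    pullK_homot hY.free (f.gr_homot hY), push_proj]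

end Vale.Agent.P297Z
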