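import Vale.Agent.P297Z.K.Push

/-!
# P297: the push-forward along a composite map
-/

set_option linter.all false

noncomputable section

namespace Vale.Agent.P297Z

variable {X Y Z : Spc} {f : Mor X Y} {g : Mor Y Z}

namespace Prj

theorem wtE_induction (P : Prj f) {M : GMod X} {k : P.E → ℤ} {p : M.M → Prop} (h0 : p 0)
    (hw : ∀ γ, ∀ m ∈ M.wt (f.ρ γ + P.σ k), p m) (ha : ∀ x y, p x → p y → p (x + y)) {m : M.M}
    (hm : m ∈ wt (P.actE M) k) : p m :=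
  Submodule.iSup_induction (motive := p) (fun γ => M.wt (f.ρ γ + P.σ k))
    (P.toRes_mem_partS.2 hm) hw h0 ha

variable (P : Prj f) (Q : Prj g) (R : Prj (g.comp f))

theorem π_ρ_ρ (ζ : Z.J → ℤ) : R.π (f.ρ (g.ρ ζ)) = 0 := R.π_ρ ζ

theorem tot' (δ : X.J → ℤ) : f.ρ (g.ρ (R.ret δ)) + R.σ (R.π δ) = δ := R.tot δ

theorem val_val_mem {M : GMod X} {k : P.E → ℤ} {l : Q.E → ℤ} {n : (P.part k M).M}
    (hn : n ∈ wt (Q.actE (P.part k M)) l) :
    P.val n ∈ wt (R.actE M) (R.π (f.ρ (Q.σ l) + P.σ k)) := by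
  refine Q.wtE_induction (p := fun n => P.val n ∈ wt (R.actE M) (R.π (f.ρ (Q.σ l) + P.σ k)))
    ?_ (fun ζ n hn => ?_) (fun x y hx hy => ?_) hn
  · rw [map_zero]
    exact Submodule.zero_mem _
  · have h := R.mem_wtE (P.mem_part_wt'.1 hn)
    rwa [map_add f.ρ, add_assoc, map_add, π_ρ_ρ, zero_add] at h
  · rw [map_add P.val]
    exact Submodule.add_mem _ hx hy

theorem exists_val_val {M : GMod X} {k : P.E → ℤ} {l : Q.E → ℤ} {m : M.M}
    (hm : m ∈ wt (R.actE M) (R.π (f.ρ (Q.σ l) + P.σ k))) :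
    ∃ n : (Q.part l (P.part k M)).M, P.val (Q.val n) = m := by
  refine R.wtE_induction (p := fun m => ∃ n : (Q.part l (P.part k M)).M, P.val (Q.val n) = m)
    ⟨0, by rw [map_zero, map_zero]⟩ (fun ζ m hm => ?_) ?_ hm
  · have e : (g.comp f).ρ ζ + R.σ (R.π (f.ρ (Q.σ l) + P.σ k)) =
        f.ρ (g.ρ (ζ - R.ret (f.ρ (Q.σ l) + P.σ k)) + Q.σ l) + P.σ k := by
      rw [map_add f.ρ, add_assoc, map_sub, map_sub,
        eq_sub_of_add_eq' (R.tot' (f.ρ (Q.σ l) + P.σ k))]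
      exact (sub_add_eq_add_sub _ _ _).trans (add_sub_assoc _ _ _) |>.symm
    rw [e] at hm
    have h1 := P.mem_wtE hm
    rw [P.π_add] at h1
    have h2 := Q.mem_wtE ((P.mem_part_wt' (m := P.el m h1)).2 hm)
    rw [Q.π_add] at h2
    exact ⟨Q.el _ h2, rfl⟩
  · rintro _ _ ⟨x, rfl⟩ ⟨y, rfl⟩
    exact ⟨x + y, by rw [map_add, map_add]⟩

/-- the comparison map for a composite -/
def fubMap (M : GMod X) (k : P.E → ℤ) (l : Q.E → ℤ) :
    (Q.part l (P.part k M)).M →ₗ[Z.R] (R.part (R.π (f.ρ (Q.σ l) + P.σ k)) M).M where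
  toFun n := R.el (P.val (Q.val n)) (val_val_mem P Q R (Q.val_mem n))
  map_add' a b := R.val_inj (by simp only [map_add, val_el])
  map_smul' r a := R.val_inj rfl

theorem val_fubMap (M : GMod X) (k : P.E → ℤ) (l : Q.E → ℤ) (n : (Q.part l (P.part k M)).M) :
    R.val (fubMap P Q R M k l n) = P.val (Q.val n) := rfl

theorem part_part (M : GMod X) (k : P.E → ℤ) (l : Q.E → ℤ) :
    ∃ e : (Q.part l (P.part k M)).M ≃ₗ[Z.R] (R.piece (f.ρ (Q.σ l) + P.σ k) M).M,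
      GMod.IsHom _ _ e.toLinearMap := by
  have hb : Function.Bijective (fubMap P Q R M k l) :=
    ⟨fun a b e => Q.val_inj (P.val_inj (by rw [← val_fubMap P Q R, ← val_fubMap P Q R, e])),
      fun m => (exists_val_val P Q R (R.val_mem m)).imp fun n hn =>
        R.val_inj (by rw [val_fubMap, hn])⟩
  refine ⟨(LinearEquiv.ofBijective _ hb).trans (R.toPiece _ M), GMod.isHom_of_wt fun ζ n hn => ?_⟩
  rw [mem_part_wt', mem_part_wt', map_add, add_assoc] at hn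
  rw [LinearEquiv.coe_coe, LinearEquiv.trans_apply, toPiece_mem_wt]
  exact hn

theorem π_ρ_σ (γ : Y.J → ℤ) : R.π (f.ρ (Q.σ (Q.π γ))) = R.π (f.ρ γ) := by
  conv_rhs => rw [← Q.tot γ, map_add, map_add, π_ρ_ρ, zero_add]

theorem exists_large (z : X.Pt) (m : R.E → ℤ) : ∃ k₀, ∀ k, k₀ ≤ k → ∃ l₀, ∀ l, l₀ ≤ l →
    m ≤ R.π (f.ρ (Q.σ l) + P.σ k) := by
  have h1 : ∀ e, ∃ γ, 0 ≤ R.π (f.ρ γ + P.σ (Pi.single e 1)) := fun e => by
    obtain ⟨a, h1, h2⟩ := P.pt_y z e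
    exact (P.y_wt e a h1).imp fun γ h3 => R.π_nonneg h3 fun h => h2 (by rw [h, map_zero])
  choose γ hγ using h1
  let τ := (Fintype.linearCombination ℤ γ).toAddMonoidHom
  have m1 : Monotone (R.π.comp (f.ρ.comp τ + P.σ)) := mono_of_single _ fun e => by
    have : τ (Pi.single e 1) = γ e :=
      (Fintype.linearCombination_apply_single ℤ γ e 1).trans (one_smul _ _)
    simpa [this] using hγ e
  have m2 : Monotone (R.π.comp (f.ρ.comp Q.σ)) := mono_of_single _ fun e => by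
    obtain ⟨a, h1, h2⟩ := Q.pt_y (f.onPt z) e
    obtain ⟨ζ, h3⟩ := Q.y_wt e a h1
    have := R.π_nonneg (f.wt_map _ _ h3) fun h => h2 ((congrArg z.1 h).trans (map_zero _))
    rwa [map_add, map_add, π_ρ_ρ, zero_add] at this
  refine ⟨P.π (R.σ m), fun k hk =>
    ⟨Q.π (P.ret (R.σ m)) - Q.π (τ (P.π (R.σ m))) + Q.π (τ k), fun l hl => ?_⟩⟩
  have h2 := add_le_add (m1 hk) (m2 hl)
  have h3 := congrArg R.π (P.tot (R.σ m))
  simp only [AddMonoidHom.comp_apply, AddMonoidHom.add_apply, map_add, map_sub, π_ρ_σ,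
    R.π_σ] at h2 h3
  rw [map_add]
  intro j
  have h4 := h2 j
  have h5 := congrFun h3 j
  simp only [Pi.add_apply, Pi.sub_apply] at h4 h5 ⊢
  omega

end Prj

theorem cls_part_part (P : Prj f) (Q : Prj g) (R : Prj (g.comp f)) (M : GMod X) (k : P.E → ℤ)
    (l : Q.E → ℤ) : cls (Q.part l (P.part k M)) = cls (R.piece (f.ρ (Q.σ l) + P.σ k) M) :=
  (P.part_part Q R M k l).elim cls_equiv

theorem push_comp (P : Prj f) (Q : Prj g) (R : Prj (g.comp f)) (x : G X) :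
    push R x = push Q (push P x) := by
  classical
  rcases isEmpty_or_nonempty X.Pt with h | ⟨⟨z⟩⟩
  · rw [G_empty x, map_zero, map_zero, map_zero]
  refine DFunLike.congr_fun (push_ext (β := (push Q).comp (push P)) P fun M => ?_) x
  obtain ⟨k₁, h1⟩ := push_char P M
  obtain ⟨m, h2⟩ := push_piece R M
  obtain ⟨k₂, h3⟩ := P.exists_large Q R z m
  refine ⟨k₁ ⊔ k₂, fun k hk γ => ?_⟩
  obtain ⟨l₁, h4⟩ := h3 k (le_sup_right.trans hk)
  obtain ⟨l₂, h5⟩ := push_char Q (P.part k M)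
  refine sub_eq_zero.1 (ext_gen (g.comp f).ρ (f.ρ.comp Q.σ) (fun e => (Q.y e).image f.φ)
    (fun e a ha => ?_) (fun z e => ?_) (push R - (push Q).comp (push P)) _
    (k₀ := l₁ ⊔ l₂ - Q.π γ) fun l hl ζ => ?_)
  · obtain ⟨b, hb, rfl⟩ := Finset.mem_image.1 ha
    exact (Q.y_wt e b hb).imp fun ζ h => (map_add f.ρ _ _).symm ▸ f.wt_map _ _ h
  · obtain ⟨a, h, h'⟩ := Q.pt_y (f.onPt z) e
    exact ⟨_, Finset.mem_image_of_mem _ h, h'⟩
  · have hl' := sub_le_iff_le_add.1 hl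
    have e : (g.comp f).ρ ζ + f.ρ.comp Q.σ l + (f.ρ γ + P.σ k) =
        (g.comp f).ρ (ζ + Q.ret γ) + (f.ρ (Q.σ (l + Q.π γ)) + P.σ k) := by
      conv_lhs => rw [← Q.tot γ]
      simp only [map_add, AddMonoidHom.comp_apply]
      show f.ρ (g.ρ ζ) + _ + _ = f.ρ (g.ρ ζ) + f.ρ (g.ρ (Q.ret γ)) + _
      abel
    have h6 := h5 _ (le_sup_right.trans hl') 0
    rw [map_zero, zero_add, kact_line_zero] at h6
    rw [← kact_line, kact_line_line, e, ← kact_line_line, AddMonoidHom.sub_apply,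
      AddMonoidHom.comp_apply, push_line R, sub_eq_zero]
    refine Eq.trans ?_ ((congrArg (push Q) (push_line P (g.ρ _) _)).trans (push_line Q _ _)).symm
    rw [kact_line, h1 k (le_sup_left.trans hk), kact_line, h6,
      h2 _ (h4 _ (le_sup_left.trans hl')), cls_part_part P Q R]

end Vale.Agent.P297Z
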