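import Vale.Agent.P297Z.K.Spc

/-!
# P297: equivariant modules
-/

set_option linter.all false

open scoped TensorProduct

noncomputable section

namespace Vale.Agent.P297Z

section aux

variable {J V W : Type} [Fintype J] [AddCommGroup V] [Module ℂ V] [AddCommGroup W] [Module ℂ W]
  {a : (J → ℂˣ) → V →ₗ[ℂ] V} {c : (J → ℂˣ) → W →ₗ[ℂ] W}

theorem span_of_inj (φ : V →ₗ[ℂ] W) (hφ : ∀ g v, φ (a g v) = c g (φ v))
    (hi : Function.Injective φ) (h : ⨆ γ, wt c γ = ⊤) : ⨆ γ, wt a γ = ⊤ :=
  iSup_wt_eq_top fun v => by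
    have key := wt_induction_sub h (LinearMap.range φ)
      (by rintro g _ ⟨v, rfl⟩; exact ⟨a g v, hφ g v⟩)
      (P := fun w => ∃ v ∈ ⨆ γ, wt a γ, φ v = w) ⟨0, Submodule.zero_mem _, map_zero _⟩
      (by
        rintro γ _ ⟨v, rfl⟩ hv
        exact ⟨v, mem_iSup_wt (γ := γ) fun g => hi (by rw [hφ, hv g, map_smul]), rfl⟩)
      (by
        rintro _ _ ⟨x, hx, rfl⟩ ⟨y, hy, rfl⟩
        exact ⟨x + y, Submodule.add_mem _ hx hy, map_add _ _ _⟩) (φ v) ⟨v, rfl⟩
    obtain ⟨v', hv', e⟩ := key
    exact hi e ▸ hv'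

theorem map_mem_iSup_wt (φ : V →ₗ[ℂ] W) (hφ : ∀ g v, φ (a g v) = c g (φ v))
    (h : ⨆ γ, wt a γ = ⊤) (v : V) : φ v ∈ ⨆ γ, wt c γ :=
  wt_induction h (P := fun v => φ v ∈ ⨆ γ, wt c γ) (by rw [map_zero]; exact Submodule.zero_mem _)
    (fun _ _ hv => mem_iSup_wt (map_mem_wt φ hφ hv))
    (fun x y hx hy => by rw [map_add]; exact Submodule.add_mem _ hx hy) v

theorem span_of_surj (φ : V →ₗ[ℂ] W) (hφ : ∀ g v, φ (a g v) = c g (φ v))
    (hs : Function.Surjective φ) (h : ⨆ γ, wt a γ = ⊤) : ⨆ γ, wt c γ = ⊤ :=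
  iSup_wt_eq_top fun w => by
    obtain ⟨v, rfl⟩ := hs w
    exact map_mem_iSup_wt φ hφ h v

theorem span_twist (h : ⨆ γ, wt a γ = ⊤) (γ : J → ℤ) :
    ⨆ δ, wt (fun g => chr (-γ) g • a g) δ = ⊤ :=
  iSup_wt_eq_top fun v => wt_induction h (P := fun v => v ∈ ⨆ δ, wt (fun g => chr (-γ) g • a g) δ)
    (Submodule.zero_mem _)
    (fun δ v hv => mem_iSup_wt (γ := -γ + δ) fun g => by
      rw [LinearMap.smul_apply, hv g, smul_smul, chr_add])
    (fun _ _ hx hy => Submodule.add_mem _ hx hy) v

theorem span_pi {ι : Type} [Fintype ι] {V : ι → Type} [∀ i, AddCommGroup (V i)]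
    [∀ i, Module ℂ (V i)] {a : ∀ i, (J → ℂˣ) → V i →ₗ[ℂ] V i} (h : ∀ i, ⨆ γ, wt (a i) γ = ⊤) :
    ⨆ γ, wt (fun g => LinearMap.pi fun i => (a i g).comp (LinearMap.proj i)) γ = ⊤ :=
  iSup_wt_eq_top fun v => by
    classical
    rw [← Finset.univ_sum_single v]
    refine Submodule.sum_mem _ fun i _ => map_mem_iSup_wt (LinearMap.single ℂ V i)
      (fun g x => funext fun j => ?_) (h i) (v i)
    by_cases e : j = i
    · subst e
      simp
    · simp [Pi.single_eq_of_ne e]

/-- a module generated by weight vectors is the sum of its weight spaces -/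
theorem span_of_gens (X : Spc) [Module X.R V] [IsScalarTower ℂ X.R V]
    {a : (X.J → ℂˣ) → V →ₗ[ℂ] V} (ha : ∀ g (r : X.R) v, a g (r • v) = X.act g r • a g v)
    {s : Set V} (hs : Submodule.span X.R s = ⊤) (h : ∀ v ∈ s, v ∈ ⨆ γ, wt a γ) :
    ⨆ γ, wt a γ = ⊤ :=
  iSup_wt_eq_top fun v => by
    have hv : v ∈ Submodule.span X.R s := hs ▸ Submodule.mem_top
    induction hv using Submodule.span_induction with
    | mem x hx => exact h x hx
    | zero => exact Submodule.zero_mem _
    | add x y _ _ hx hy => exact Submodule.add_mem _ hx hy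
    | smul r x _ hx =>
      obtain ⟨t, f, hf, rfl⟩ := exists_sum_wt_of_mem hx
      rw [Finset.smul_sum]
      refine Submodule.sum_mem _ fun δ _ => ?_
      refine X.induction (P := fun r => r • f δ ∈ ⨆ γ, wt a γ) ?_ (fun γ r hr => ?_)
        (fun x y hx hy => ?_) r
      · rw [zero_smul]; exact Submodule.zero_mem _
      · refine mem_iSup_wt (γ := γ + δ) fun g => ?_
        rw [ha, Spc.mem_wt.1 hr g, hf δ g, chr_add, smul_assoc, smul_comm r, smul_smul]
      · rw [add_smul]; exact Submodule.add_mem _ hx hy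

theorem span_wt_top (R : Type) [CommRing R] [Module R V] (h : ⨆ γ, wt a γ = ⊤) :
    Submodule.span R {v : V | ∃ γ, v ∈ wt a γ} = ⊤ :=
  eq_top_iff.2 fun v _ => wt_induction h
    (P := fun v => v ∈ Submodule.span R {v : V | ∃ γ, v ∈ wt a γ}) (Submodule.zero_mem _)
    (fun γ _ hv => Submodule.subset_span ⟨γ, hv⟩) (fun _ _ hx hy => Submodule.add_mem _ hx hy) v

theorem exists_wt_gens (R : Type) [CommRing R] [Module R V] [Module.Finite R V]
    (h : ⨆ γ, wt a γ = ⊤) : ∃ (T : Finset V) (w : T → J → ℤ), (∀ t : T, t.1 ∈ wt a (w t)) ∧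
      Submodule.span R (T : Set V) = ⊤ := by
  have hfg : (Submodule.span R {v : V | ∃ γ, v ∈ wt a γ}).FG := by
    rw [span_wt_top R h]
    exact Module.finite_def.1 inferInstance
  obtain ⟨T, hT, e⟩ := (Submodule.fg_span_iff_fg_span_finset_subset _).1 hfg
  choose w hw using fun t : T => hT t.2
  exact ⟨T, w, hw, by rw [← e, span_wt_top R h]⟩

/-- a module with the scalars twisted by a ring map -/
def TwMod {R : Type} [CommRing R] (_ : R →+* R) (V : Type) : Type := V

instance {R : Type} [CommRing R] (σ : R →+* R) : AddCommGroup (TwMod σ V) :=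
  inferInstanceAs (AddCommGroup V)

instance {R : Type} [CommRing R] (σ : R →+* R) [Module R V] : Module R (TwMod σ V) :=
  Module.compHom V σ

end aux

/-- a finitely generated graded module -/
structure GMod (X : Spc) where
  M : Type
  [acg : AddCommGroup M]
  [mR : Module X.R M]
  [mC : Module ℂ M]
  [tow : IsScalarTower ℂ X.R M]
  [fin : Module.Finite X.R M]
  act : (X.J → ℂˣ) → M →ₗ[ℂ] M
  act_smul : ∀ g r m, act g (r • m) = X.act g r • act g m
  span : ⨆ γ, wt act γ = ⊤

attribute [instance] GMod.acg GMod.mR GMod.mC GMod.tow GMod.fin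

section loc

variable {R : Type} [CommRing R] [Algebra ℂ R] (z : R →ₐ[ℂ] ℂ) {A B C : Type} [AddCommGroup A]
  [Module R A] [AddCommGroup B] [Module R B] [AddCommGroup C] [Module R C]

/-- injective at a point -/
def InjAt (f : A →ₗ[R] B) : Prop := ∀ a, f a = 0 → ∃ r, z r ≠ 0 ∧ r • a = 0

/-- surjective at a point -/
def SurjAt (f : A →ₗ[R] B) : Prop := ∀ b, ∃ r a, z r ≠ 0 ∧ f a = r • b

/-- the kernel of `g` is inside the image of `f` at a point -/
def ExAt (f : A →ₗ[R] B) (g : B →ₗ[R] C) : Prop :=
  ∀ b, g b = 0 → ∃ r a, z r ≠ 0 ∧ f a = r • b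

/-- invertible at a point -/
def IsoAt (f : A →ₗ[R] B) : Prop :=
  ∃ (r : R) (g : B →ₗ[R] A), z r ≠ 0 ∧ (∀ a, g (f a) = r • a) ∧ ∀ b, f (g b) = r • b

variable (A) in
/-- free of rank `n` at a point -/
def FreeAt (n : ℕ) : Prop := ∃ e : (Fin n → R) →ₗ[R] A, IsoAt z e

variable (A) in
/-- zero at a point -/
def ZeroAt : Prop := ∀ a : A, ∃ r, z r ≠ 0 ∧ r • a = 0

variable (A) in
/-- the fibre at a point -/
abbrev Fib : Type := A ⧸ (RingHom.ker z • (⊤ : Submodule R A))

end loc

namespace GMod

variable {X : Spc}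

/-- homogeneous elements of degree `γ` -/
def wt (M : GMod X) (γ : X.J → ℤ) : Submodule ℂ M.M := P297Z.wt M.act γ

/-- a map of degree zero -/
def IsHom (M N : GMod X) (f : M.M →ₗ[X.R] N.M) : Prop := ∀ g m, f (M.act g m) = N.act g (f m)

/-- a graded submodule -/
def Stab (M : GMod X) (N : Submodule X.R M.M) : Prop := ∀ g, ∀ m ∈ N, M.act g m ∈ N

/-- the action as a semilinear map -/
def semi (M : GMod X) (g : X.J → ℂˣ) : M.M →ₛₗ[(X.act g : X.R →+* X.R)] M.M where
  toFun := M.act g
  map_add' := map_add _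
  map_smul' := M.act_smul g

/-- the structure module -/
def one (X : Spc) : GMod X where
  M := X.R
  act := fun g => (X.act g).toLinearMap
  act_smul := fun g r m => map_mul (X.act g) r m
  span := X.span

/-- the twist: `(M.shift γ).wt δ = M.wt (δ + γ)` -/
def shift (M : GMod X) (γ : X.J → ℤ) : GMod X where
  M := M.M
  act := fun g => chr (-γ) g • M.act g
  act_smul := fun g r m => by
    rw [LinearMap.smul_apply, LinearMap.smul_apply, M.act_smul, smul_comm]
  span := span_twist M.span γ

/-- a graded submodule as a module -/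
def sub (M : GMod X) (N : Submodule X.R M.M) (h : M.Stab N) : GMod X where
  M := N
  act := fun g =>
    { toFun := fun m => ⟨M.act g m, h g _ m.2⟩
      map_add' := fun a b => Subtype.ext (map_add (M.act g) a.1 b.1)
      map_smul' := fun c a => Subtype.ext (map_smul (M.act g) c a.1) }
  act_smul := fun g r m => Subtype.ext (M.act_smul g r m.1)
  span := span_of_inj (c := M.act) (N.subtype.restrictScalars ℂ) (fun _ _ => rfl)
    Subtype.val_injective M.span

/-- the quotient by a graded submodule -/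
def quo (M : GMod X) (N : Submodule X.R M.M) (h : M.Stab N) : GMod X where
  M := M.M ⧸ N
  act := fun g =>
    { toFun := N.mapQ N (M.semi g) (h g)
      map_add' := map_add _
      map_smul' := fun c x => by
        obtain ⟨m, rfl⟩ := N.mkQ_surjective x
        exact congrArg N.mkQ (map_smul (M.act g) c m) }
  act_smul := fun g r x => by
    obtain ⟨m, rfl⟩ := N.mkQ_surjective x
    exact congrArg N.mkQ (M.act_smul g r m)
  span := span_of_surj (a := M.act) (N.mkQ.restrictScalars ℂ) (fun _ _ => rfl)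
    N.mkQ_surjective M.span

/-- the direct sum -/
def prod (M N : GMod X) : GMod X where
  M := M.M × N.M
  act := fun g => (M.act g).prodMap (N.act g)
  act_smul := fun g r m => Prod.ext (M.act_smul g r m.1) (N.act_smul g r m.2)
  span := iSup_wt_eq_top fun v => by
    rw [← Prod.fst_add_snd v]
    exact Submodule.add_mem _
      (map_mem_iSup_wt (LinearMap.inl ℂ M.M N.M) (fun g x => by simp) M.span v.1)
      (map_mem_iSup_wt (LinearMap.inr ℂ M.M N.M) (fun g x => by simp) N.span v.2)

/-- the finite direct sum -/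
def pi {ι : Type} [Fintype ι] (M : ι → GMod X) : GMod X where
  M := ∀ i, (M i).M
  act := fun g => LinearMap.pi fun i => ((M i).act g).comp (LinearMap.proj i)
  act_smul := fun g r m => funext fun i => (M i).act_smul g r (m i)
  span := span_pi fun i => (M i).span

/-- the tensor product -/
def ten (M N : GMod X) : GMod X where
  M := M.M ⊗[X.R] N.M
  act := fun g =>
    { toFun := TensorProduct.map (M.semi g) (N.semi g)
      map_add' := map_add _
      map_smul' := fun c x => by
        have e : ∀ x : M.M ⊗[X.R] N.M, c • x = algebraMap ℂ X.R c • x := fun x =>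
          (algebraMap_smul X.R c x).symm
        rw [e, LinearMap.map_smulₛₗ, RingHom.id_apply, e]
        congr 1
        exact (X.act _).commutes c }
  act_smul := fun g r x => LinearMap.map_smulₛₗ (TensorProduct.map (M.semi g) (N.semi g)) r x
  span := span_of_gens X
    (fun g r x => LinearMap.map_smulₛₗ (TensorProduct.map (M.semi g) (N.semi g)) r x)
    (TensorProduct.span_tmul_eq_top X.R M.M N.M) (by
      rintro _ ⟨x, y, rfl⟩
      obtain ⟨s, f, hf, rfl⟩ := exists_sum_wt M.span x
      obtain ⟨t, k, hk, rfl⟩ := exists_sum_wt N.span y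
      rw [TensorProduct.sum_tmul]
      refine Submodule.sum_mem _ fun γ _ => ?_
      rw [TensorProduct.tmul_sum]
      refine Submodule.sum_mem _ fun δ _ => mem_iSup_wt (γ := γ + δ) fun g => ?_
      show M.act g (f γ) ⊗ₜ[X.R] N.act g (k δ) = _
      rw [hf γ g, hk δ g, TensorProduct.tmul_smul, ← TensorProduct.smul_tmul', smul_smul, chr_add,
        mul_comm])

/-- the module of homomorphisms -/
def hom (M N : GMod X) : GMod X where
  M := M.M →ₗ[X.R] N.M
  act := fun g =>
    { toFun := fun f =>
        { toFun := fun m => N.act g (f (M.act g⁻¹ m))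
          map_add' := fun x y => by rw [map_add, map_add, map_add]
          map_smul' := fun r m => by
            rw [M.act_smul, map_smul, N.act_smul, X.act_act_inv, RingHom.id_apply] }
      map_add' := fun f f' => LinearMap.ext fun m => map_add (N.act g) _ _
      map_smul' := fun c f => LinearMap.ext fun m => map_smul (N.act g) c _ }
  act_smul := fun g r f => LinearMap.ext fun m => N.act_smul g r _
  span := by
    obtain ⟨T, w, hw, hT⟩ := exists_wt_gens X.R M.span
    refine span_of_inj (W := T → N.M)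
      (c := fun g => LinearMap.pi fun t => (chr (-w t) g • N.act g).comp (LinearMap.proj t))
      { toFun := fun f t => f t.1
        map_add' := fun _ _ => rfl
        map_smul' := fun _ _ => rfl } (fun g f => funext fun t => ?_) (fun f f' e => ?_)
      (span_pi (a := fun t g => chr (-w t) g • N.act g) fun t => span_twist N.span (w t))
    · show N.act g (f (M.act g⁻¹ t.1)) = chr (-w t) g • N.act g (f t.1)
      rw [hw t, LinearMap.map_smul_of_tower, map_smul, chr_inv, chr_neg]
    · exact LinearMap.ext_on hT fun t ht => congrFun e ⟨t, ht⟩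

/-- the dual -/
def dual (M : GMod X) : GMod X := M.hom (one X)

theorem ext_act (M : GMod X) (n : ℕ) (g : X.J → ℂˣ) :
    ∃ a : (⋀[X.R]^n M.M) →+ (⋀[X.R]^n M.M), (∀ r x, a (r • x) = X.act g r • a x) ∧
      ∀ v : Fin n → M.M, a (exteriorPower.ιMulti X.R n v) =
        exteriorPower.ιMulti X.R n fun i => M.act g (v i) := by
  let F : M.M [⋀^Fin n]→ₗ[X.R] TwMod (X.act g : X.R →+* X.R) (⋀[X.R]^n M.M) :=
    { toFun := fun v => exteriorPower.ιMulti X.R n fun i => M.act g (v i)
      map_update_add' := fun v i x y => by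
        have e : ∀ x, (fun j => M.act g (Function.update v i x j)) =
            Function.update (fun j => M.act g (v j)) i (M.act g x) := fun x =>
          funext fun j => Function.apply_update (fun _ => M.act g) v i x j
        rw [e, e, e, map_add]
        exact (exteriorPower.ιMulti X.R n).map_update_add _ i _ _
      map_update_smul' := fun v i r x => by
        have e : ∀ x, (fun j => M.act g (Function.update v i x j)) =
            Function.update (fun j => M.act g (v j)) i (M.act g x) := fun x =>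
          funext fun j => Function.apply_update (fun _ => M.act g) v i x j
        rw [e, e, M.act_smul]
        exact (exteriorPower.ιMulti X.R n).map_update_smul _ i _ _
      map_eq_zero_of_eq' := fun v i j h hij =>
        (exteriorPower.ιMulti X.R n).map_eq_zero_of_eq _ (congrArg (M.act g) h) hij }
  exact ⟨(exteriorPower.alternatingMapLinearEquiv F).toAddMonoidHom,
    fun r x => (exteriorPower.alternatingMapLinearEquiv F).map_smul r x,
    fun v => exteriorPower.alternatingMapLinearEquiv_apply_ιMulti F v⟩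

/-- the exterior power -/
def ext (M : GMod X) (n : ℕ) : GMod X where
  M := ⋀[X.R]^n M.M
  mC := Module.compHom _ (algebraMap ℂ X.R)
  tow :=
    letI : Module ℂ (⋀[X.R]^n M.M) := Module.compHom _ (algebraMap ℂ X.R)
    ⟨fun c r x => by
      show (c • r) • x = algebraMap ℂ X.R c • r • x
      rw [Algebra.smul_def, mul_smul]⟩
  act := fun g =>
    letI : Module ℂ (⋀[X.R]^n M.M) := Module.compHom _ (algebraMap ℂ X.R)
    { toFun := (M.ext_act n g).choose
      map_add' := map_add _
      map_smul' := fun c x => by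
        show (M.ext_act n g).choose (algebraMap ℂ X.R c • x) =
          algebraMap ℂ X.R c • (M.ext_act n g).choose x
        rw [(M.ext_act n g).choose_spec.1, AlgHom.commutes] }
  act_smul := fun g => (M.ext_act n g).choose_spec.1
  span := by
    letI : Module ℂ (⋀[X.R]^n M.M) := Module.compHom _ (algebraMap ℂ X.R)
    refine @span_of_gens _ _ _ X _ ⟨fun c r x => by
      show (c • r) • x = algebraMap ℂ X.R c • r • x
      rw [Algebra.smul_def, mul_smul]⟩ _ (fun g => (M.ext_act n g).choose_spec.1) _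
      (exteriorPower.ιMulti_span_of_span X.R n M.M (span_wt_top X.R M.span)) ?_
    rintro _ ⟨v, hv, rfl⟩
    choose w hw using fun i => hv ⟨i, rfl⟩
    refine mem_iSup_wt (γ := ∑ i, w i) fun g => ?_
    show (M.ext_act n g).choose _ = algebraMap ℂ X.R (chr (∑ i, w i) g) • _
    rw [(M.ext_act n g).choose_spec.2, chr_sum, map_prod,
      ← (exteriorPower.ιMulti X.R n).map_smul_univ]
    congr 1
    funext i
    rw [hw i g, algebraMap_smul]

/-- a sequence that is short exact at all points -/
def SES (A B C : GMod X) (f : A.M →ₗ[X.R] B.M) (g : B.M →ₗ[X.R] C.M) : Prop :=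
  A.IsHom B f ∧ B.IsHom C g ∧ (∀ a, g (f a) = 0) ∧
    ∀ z : X.Pt, InjAt z.1 f ∧ ExAt z.1 f g ∧ SurjAt z.1 g

/-- a map of degree zero that is invertible at all points -/
def Qis (A B : GMod X) (f : A.M →ₗ[X.R] B.M) : Prop := A.IsHom B f ∧ ∀ z : X.Pt, IsoAt z.1 f

/-- a bundle of rank `r` -/
def IsBun (M : GMod X) (r : ℕ) : Prop := ∀ z : X.Pt, FreeAt z.1 M.M r

end GMod

end Vale.Agent.P297Z
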