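import Vale.Agent.P297Z.K.GMod

/-!
# P297: first lemmas on weights of rings and modules
-/

set_option linter.all false

noncomputable section

namespace Vale.Agent.P297Z

section generic

open scoped TensorProduct

variable {J V : Type} [Fintype J] [AddCommGroup V] [Module ℂ V]

theorem mem_wt_tor {J' : Type} [Fintype J'] [DecidableEq J] {a : (J → ℂˣ) → V →ₗ[ℂ] V}
    (ρ : (J → ℤ) →+ (J' → ℤ)) {γ : J → ℤ} {v : V} (hv : v ∈ wt a γ) :
    v ∈ wt (fun g => a (tor ρ g)) (ρ γ) := fun g => by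
  show a (tor ρ g) v = _
  rw [hv, chr_tor]

theorem span_tor {J' : Type} [Fintype J'] [DecidableEq J] {a : (J → ℂˣ) → V →ₗ[ℂ] V}
    (ρ : (J → ℤ) →+ (J' → ℤ)) (h : ⨆ γ, wt a γ = ⊤) :
    ⨆ γ, wt (fun g => a (tor ρ g)) γ = ⊤ :=
  iSup_wt_eq_top fun v => wt_induction h (P := fun v => v ∈ ⨆ γ, wt (fun g => a (tor ρ g)) γ)
    (Submodule.zero_mem _) (fun _ _ hv => mem_iSup_wt (mem_wt_tor ρ hv))
    (fun _ _ hx hy => Submodule.add_mem _ hx hy) v

variable {R W : Type} [CommRing R] [Algebra ℂ R] [Module R V] [IsScalarTower ℂ R V]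
  [AddCommGroup W] [Module ℂ W] [Module R W] [IsScalarTower ℂ R W]

theorem tmul_mem_wt {a : (J → ℂˣ) → V →ₗ[ℂ] V} {b : (J → ℂˣ) → W →ₗ[ℂ] W}
    {c : (J → ℂˣ) → V ⊗[R] W →ₗ[ℂ] V ⊗[R] W} (hc : ∀ g x y, c g (x ⊗ₜ y) = a g x ⊗ₜ b g y)
    {γ δ : J → ℤ} {x : V} {y : W} (hx : x ∈ wt a γ) (hy : y ∈ wt b δ) :
    x ⊗ₜ[R] y ∈ wt c (γ + δ) := fun g => by
  rw [hc, hx g, hy g, TensorProduct.tmul_smul, ← TensorProduct.smul_tmul', smul_smul, chr_add,
    mul_comm]

theorem span_tensor {a : (J → ℂˣ) → V →ₗ[ℂ] V} {b : (J → ℂˣ) → W →ₗ[ℂ] W}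
    {c : (J → ℂˣ) → V ⊗[R] W →ₗ[ℂ] V ⊗[R] W} (hc : ∀ g x y, c g (x ⊗ₜ y) = a g x ⊗ₜ b g y)
    (ha : ⨆ γ, wt a γ = ⊤) (hb : ⨆ γ, wt b γ = ⊤) : ⨆ γ, wt c γ = ⊤ :=
  iSup_wt_eq_top fun z => by
    induction z using TensorProduct.induction_on with
    | zero => exact Submodule.zero_mem _
    | add x y hx hy => exact Submodule.add_mem _ hx hy
    | tmul x y =>
      induction x using wt_induction ha with
      | h0 => rw [TensorProduct.zero_tmul]; exact Submodule.zero_mem _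
      | ha x x' hx hx' => rw [TensorProduct.add_tmul]; exact Submodule.add_mem _ hx hx'
      | hw γ x hx =>
        induction y using wt_induction hb with
        | h0 => rw [TensorProduct.tmul_zero]; exact Submodule.zero_mem _
        | ha y y' hy hy' => rw [TensorProduct.tmul_add]; exact Submodule.add_mem _ hy hy'
        | hw δ y hy => exact mem_iSup_wt (tmul_mem_wt hc hx hy)

end generic

namespace Spc

variable (X : Spc)

theorem span' : ⨆ γ, X.wt γ = ⊤ := X.span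

/-- the component of degree `γ` -/
def cmp (γ : X.J → ℤ) : X.R →ₗ[ℂ] X.R := P297Z.cmp X.span γ

end Spc

namespace GMod

variable {X : Spc} (M : GMod X)

theorem mem_wt {γ : X.J → ℤ} {m : M.M} : m ∈ M.wt γ ↔ ∀ g, M.act g m = chr γ g • m := Iff.rfl

theorem span' : ⨆ γ, M.wt γ = ⊤ := M.span

variable {M} in
theorem smul_mem_wt {γ δ : X.J → ℤ} {r : X.R} {m : M.M} (hr : r ∈ X.wt γ) (hm : m ∈ M.wt δ) :
    r • m ∈ M.wt (γ + δ) := fun g => by
  rw [M.act_smul, Spc.mem_wt.1 hr g, M.mem_wt.1 hm g, chr_add, smul_assoc, smul_comm r, smul_smul]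

theorem induction {P : M.M → Prop} (h0 : P 0) (hw : ∀ (γ : X.J → ℤ) (m : M.M), m ∈ M.wt γ → P m)
    (ha : ∀ x y, P x → P y → P (x + y)) (m : M.M) : P m :=
  wt_induction M.span h0 hw ha m

theorem act_one (m : M.M) : M.act 1 m = m := P297Z.act_one M.span m

theorem act_mul (g h : X.J → ℂˣ) (m : M.M) : M.act (g * h) m = M.act g (M.act h m) :=
  P297Z.act_mul M.span g h m

theorem act_inv_act (g : X.J → ℂˣ) (m : M.M) : M.act g⁻¹ (M.act g m) = m :=
  P297Z.act_inv_act M.span g m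

theorem act_act_inv (g : X.J → ℂˣ) (m : M.M) : M.act g (M.act g⁻¹ m) = m :=
  P297Z.act_act_inv M.span g m

/-- the component of degree `γ` -/
def cmp (γ : X.J → ℤ) : M.M →ₗ[ℂ] M.M := P297Z.cmp M.span γ

theorem cmp_mem (γ : X.J → ℤ) (m : M.M) : M.cmp γ m ∈ M.wt γ := P297Z.cmp_mem M.span γ m

theorem cmp_of_mem {γ : X.J → ℤ} {m : M.M} (h : m ∈ M.wt γ) : M.cmp γ m = m :=
  P297Z.cmp_of_mem M.span h

theorem cmp_of_ne {γ δ : X.J → ℤ} (hne : δ ≠ γ) {m : M.M} (h : m ∈ M.wt δ) : M.cmp γ m = 0 :=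
  P297Z.cmp_of_ne M.span hne h

theorem exists_sum_cmp (m : M.M) :
    ∃ s : Finset (X.J → ℤ), ∑ γ ∈ s, M.cmp γ m = m ∧ ∀ γ ∉ s, M.cmp γ m = 0 :=
  P297Z.exists_sum_cmp M.span m

theorem cmp_mem_stab {N : Submodule X.R M.M} (h : M.Stab N) {m : M.M} (hm : m ∈ N)
    (γ : X.J → ℤ) : M.cmp γ m ∈ N :=
  P297Z.cmp_mem_stab M.span (N.restrictScalars ℂ) h hm γ

/-- induction over the homogeneous elements of a graded submodule -/
theorem induction_sub {N : Submodule X.R M.M} (h : M.Stab N) {P : M.M → Prop} (h0 : P 0)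
    (hw : ∀ (γ : X.J → ℤ) (m : M.M), m ∈ N → m ∈ M.wt γ → P m)
    (ha : ∀ x y, P x → P y → P (x + y)) (m : M.M) (hm : m ∈ N) : P m :=
  wt_induction_sub M.span (N.restrictScalars ℂ) h h0 hw ha m hm

theorem cmp_smul {γ : X.J → ℤ} {r : X.R} (hr : r ∈ X.wt γ) (δ : X.J → ℤ) (m : M.M) :
    M.cmp (γ + δ) (r • m) = r • M.cmp δ m :=
  (map_cmp M.span M.span (DistribSMul.toAddMonoidHom M.M r) (fun δ => γ + δ)
    (add_right_injective γ) (fun _ _ hv => smul_mem_wt hr hv) δ m).symm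

/-- a module that is finite over a ring `A` is generated by finitely many homogeneous elements -/
theorem exists_gens (A : Type) [CommRing A] [Module A M.M] [Module.Finite A M.M] :
    ∃ (T : Finset M.M) (w : M.M → X.J → ℤ), (∀ t ∈ T, t ∈ M.wt (w t)) ∧
      Submodule.span A (T : Set M.M) = ⊤ := by
  classical
  obtain ⟨S, hS⟩ := (Module.finite_def.1 inferInstance : (⊤ : Submodule A M.M).FG)
  choose s hs _ using M.exists_sum_cmp
  let T : Finset M.M := S.biUnion fun m => (s m).image fun γ => M.cmp γ m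
  have hT : ∀ t, ∃ γ, t ∈ T → t ∈ M.wt γ := by
    intro t
    by_cases ht : t ∈ T
    · obtain ⟨m, -, hm⟩ := Finset.mem_biUnion.1 ht
      obtain ⟨γ, -, rfl⟩ := Finset.mem_image.1 hm
      exact ⟨γ, fun _ => M.cmp_mem γ m⟩
    · exact ⟨0, fun h => (ht h).elim⟩
  choose w hw using hT
  refine ⟨T, w, hw, ?_⟩
  rw [eq_top_iff, ← hS, Submodule.span_le]
  intro m hm
  rw [← hs m]
  exact Submodule.sum_mem _ fun γ hγ => Submodule.subset_span
    (Finset.mem_coe.2 (Finset.mem_biUnion.2 ⟨m, hm, Finset.mem_image.2 ⟨γ, hγ, rfl⟩⟩))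

variable {M} {N : GMod X}

theorem IsHom.map_wt {f : M.M →ₗ[X.R] N.M} (hf : M.IsHom N f) {γ : X.J → ℤ} {m : M.M}
    (hm : m ∈ M.wt γ) : f m ∈ N.wt γ :=
  map_mem_wt (f.restrictScalars ℂ) hf hm

theorem isHom_of_wt {f : M.M →ₗ[X.R] N.M} (hf : ∀ γ, ∀ m ∈ M.wt γ, f m ∈ N.wt γ) :
    M.IsHom N f :=
  map_act_of_wt M.span (f.restrictScalars ℂ) hf

theorem IsHom.map_cmp {f : M.M →ₗ[X.R] N.M} (hf : M.IsHom N f) (γ : X.J → ℤ) (m : M.M) :
    f (M.cmp γ m) = N.cmp γ (f m) :=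
  P297Z.map_cmp M.span N.span f.toAddMonoidHom (fun γ => γ) Function.injective_id
    (fun _ _ hv => hf.map_wt hv) γ m

theorem IsHom.exists_preimage {f : M.M →ₗ[X.R] N.M} (hf : M.IsHom N f) {γ : X.J → ℤ} {m : M.M}
    (hm : f m ∈ N.wt γ) : ∃ m' ∈ M.wt γ, f m' = f m :=
  exists_wt_preimage M.span (f.restrictScalars ℂ) hf hm

theorem IsHom.id (M : GMod X) : M.IsHom M LinearMap.id := fun _ _ => rfl

theorem IsHom.comp {P : GMod X} {f : M.M →ₗ[X.R] N.M} {g : N.M →ₗ[X.R] P.M} (hg : N.IsHom P g)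
    (hf : M.IsHom N f) : M.IsHom P (g ∘ₗ f) := fun a m => by
  rw [LinearMap.comp_apply, hf, hg, LinearMap.comp_apply]

theorem IsHom.zero (M N : GMod X) : M.IsHom N 0 := fun _ _ => by simp

theorem IsHom.add {f g : M.M →ₗ[X.R] N.M} (hf : M.IsHom N f) (hg : M.IsHom N g) :
    M.IsHom N (f + g) := fun a m => by
  rw [LinearMap.add_apply, LinearMap.add_apply, hf, hg, map_add]

theorem IsHom.neg {f : M.M →ₗ[X.R] N.M} (hf : M.IsHom N f) : M.IsHom N (-f) := fun a m => by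
  rw [LinearMap.neg_apply, LinearMap.neg_apply, hf, map_neg]

theorem IsHom.sub {f g : M.M →ₗ[X.R] N.M} (hf : M.IsHom N f) (hg : M.IsHom N g) :
    M.IsHom N (f - g) := fun a m => by
  rw [LinearMap.sub_apply, LinearMap.sub_apply, hf, hg, map_sub]

theorem IsHom.symm {e : M.M ≃ₗ[X.R] N.M} (he : M.IsHom N e.toLinearMap) :
    N.IsHom M e.symm.toLinearMap := fun g n => by
  apply e.injective
  have := he g (e.symm n)
  simp only [LinearEquiv.coe_coe, LinearEquiv.apply_symm_apply] at this ⊢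
  exact this.symm

theorem IsHom.stab_ker {f : M.M →ₗ[X.R] N.M} (hf : M.IsHom N f) : M.Stab (LinearMap.ker f) :=
  fun g m hm => by
    rw [LinearMap.mem_ker] at hm ⊢
    rw [hf, hm, map_zero]

theorem IsHom.stab_range {f : M.M →ₗ[X.R] N.M} (hf : M.IsHom N f) :
    N.Stab (LinearMap.range f) := by
  rintro g _ ⟨m, rfl⟩
  exact ⟨M.act g m, hf g m⟩

theorem IsHom.stab_map {f : M.M →ₗ[X.R] N.M} (hf : M.IsHom N f) {S : Submodule X.R M.M}
    (hS : M.Stab S) : N.Stab (S.map f) := by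
  rintro g _ ⟨m, hm, rfl⟩
  exact ⟨M.act g m, hS g m hm, hf g m⟩

theorem IsHom.stab_comap {f : M.M →ₗ[X.R] N.M} (hf : M.IsHom N f) {S : Submodule X.R N.M}
    (hS : N.Stab S) : M.Stab (S.comap f) := fun g m hm => by
  rw [Submodule.mem_comap] at hm ⊢
  rw [hf]
  exact hS g _ hm

theorem stab_top (M : GMod X) : M.Stab ⊤ := fun _ _ _ => Submodule.mem_top

theorem stab_bot (M : GMod X) : M.Stab ⊥ := fun g m hm => by
  rw [(Submodule.mem_bot _).1 hm, map_zero]; exact Submodule.zero_mem _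

theorem Stab.inf {S T : Submodule X.R M.M} (hS : M.Stab S) (hT : M.Stab T) : M.Stab (S ⊓ T) :=
  fun g m hm => ⟨hS g m hm.1, hT g m hm.2⟩

theorem Stab.sup {S T : Submodule X.R M.M} (hS : M.Stab S) (hT : M.Stab T) : M.Stab (S ⊔ T) := by
  intro g m hm
  obtain ⟨a, ha, b, hb, rfl⟩ := Submodule.mem_sup.1 hm
  rw [map_add]
  exact Submodule.add_mem_sup (hS g a ha) (hT g b hb)

/-- the span of a set that the torus maps into the span is graded -/
theorem stab_span {s : Set M.M} (h : ∀ g, ∀ m ∈ s, M.act g m ∈ Submodule.span X.R s) :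
    M.Stab (Submodule.span X.R s) := by
  intro g m hm
  induction hm using Submodule.span_induction with
  | mem x hx => exact h g x hx
  | zero => rw [map_zero]; exact Submodule.zero_mem _
  | add x y _ _ hx hy => rw [map_add]; exact Submodule.add_mem _ hx hy
  | smul r x _ hx => rw [M.act_smul]; exact Submodule.smul_mem _ _ hx

/-- the span of homogeneous elements is graded -/
theorem stab_span_wt {s : Set M.M} (h : ∀ m ∈ s, ∃ γ, m ∈ M.wt γ) :
    M.Stab (Submodule.span X.R s) :=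
  stab_span fun g m hm => by
    obtain ⟨γ, hγ⟩ := h m hm
    rw [hγ g]
    exact Submodule.smul_of_tower_mem _ _ (Submodule.subset_span hm)

/-- the product of a graded ideal and a graded submodule is graded -/
theorem Stab.smul {I : Ideal X.R} (hI : (one X).Stab I) {S : Submodule X.R M.M} (hS : M.Stab S) :
    M.Stab (I • S) := by
  intro g m hm
  refine Submodule.smul_induction_on hm (fun r hr n hn => ?_) (fun x y hx hy => ?_)
  · rw [M.act_smul]
    exact Submodule.smul_mem_smul (hI g r hr) (hS g n hn)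
  · rw [map_add]
    exact Submodule.add_mem _ hx hy

end GMod

end Vale.Agent.P297Z
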