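import Vale.Agent.P297Z.K.PK0
import Vale.Agent.P297Z.K.PK1
import Vale.Agent.P297Z.K.Rec
import Vale.Agent.P297Z.K.Cart

/-!
# P297: the push-forward on `K0`
-/

set_option linter.all false

open scoped TensorProduct

noncomputable section

namespace Vale.Agent.P297Z

open GMod PK

variable {W X Y Z : Spc}

section kc

variable {A B C M : GMod X} {a c r : ℕ} {f : A.M →ₗ[X.R] B.M} {g : B.M →ₗ[X.R] C.M}

theorem kc'_eq [Nonempty X.Pt] (h : M.IsBun r) : kc' M = kc M r := by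
  have e : ∃ r, M.IsBun r := ⟨r, h⟩
  rw [kc', dif_pos e, e.choose_spec.unique h]

theorem kc'_not (h : ¬∃ r, M.IsBun r) : kc' M = 0 := dif_neg h

theorem kc'_qis [Nonempty X.Pt] (h : Qis A B f) : kc' A = kc' B := by
  by_cases e : ∃ r, A.IsBun r
  · obtain ⟨r, e⟩ := e
    rw [kc'_eq e, kc'_eq (h.isBun_iff.1 e), kc_qis h]
  · rw [kc'_not e, kc'_not fun ⟨r, e'⟩ => e ⟨r, h.isBun_iff.2 e'⟩]

theorem kc'_shift [Nonempty X.Pt] (M : GMod X) (γ : X.J → ℤ) :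
    kc' (M.shift γ) = line X γ * kc' M := by
  by_cases e : ∃ r, M.IsBun r
  · obtain ⟨r, e⟩ := e
    rw [kc'_eq e, kc'_eq (e.shift γ), kc_shift e]
  · rw [kc'_not e, kc'_not (M := M.shift γ) e, mul_zero]

theorem kc'_ses [Nonempty X.Pt] (h : SES A B C f g) (hA : A.IsBun a) (hC : C.IsBun c) :
    kc' B = kc' A + kc' C := by
  rw [kc'_eq hA, kc'_eq hC, kc'_eq (h.isBun_mid hA hC), kc_ses h hA hC]

end kc

/-- the twist of a bundle -/
def Bun.shift (B : Bun X) (γ : X.J → ℤ) : Bun X := ⟨B.M.shift γ, B.rk, B.free.shift γ⟩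

theorem Bun.cls_shift (B : Bun X) (γ : X.J → ℤ) : (B.shift γ).cls = line X γ * B.cls := by
  rw [← kc_bun, ← kc_bun]
  exact kc_shift B.free γ

theorem twi_line (Y : Spc) : Twi fun γ => AddMonoidHom.mulLeft (line Y γ) :=
  ⟨fun γ => Function.bijective_iff_has_inverse.2 ⟨fun a => line Y (-γ) * a, fun a => by
      show line Y (-γ) * (line Y γ * a) = a
      rw [← mul_assoc, line_neg_mul, one_mul], fun a => by
      show line Y γ * (line Y (-γ) * a) = a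
      rw [← mul_assoc, mul_comm (line Y γ), line_neg_mul, one_mul]⟩,
    fun γ δ a => mul_left_comm (line Y γ) (line Y δ) a⟩

namespace PK

/-- the functions that vanish in large degrees -/
def ev0 (E A : Type*) [AddCommGroup A] : AddSubgroup ((E → ℤ) → A) where
  carrier := {h | ∃ k₀, ∀ k, k₀ ≤ k → h k = 0}
  add_mem' := by
    rintro a b ⟨k1, h1⟩ ⟨k2, h2⟩
    exact ⟨k1 ⊔ k2, fun k hk => by
      rw [Pi.add_apply, h1 k (le_sup_left.trans hk), h2 k (le_sup_right.trans hk), add_zero]⟩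
  zero_mem' := ⟨0, fun _ _ => rfl⟩
  neg_mem' := by
    rintro a ⟨k1, h1⟩
    exact ⟨k1, fun k hk => by rw [Pi.neg_apply, h1 k hk, neg_zero]⟩

end PK

variable {f : Mor X Y}

/-- the general existence theorem -/
theorem exists_extr_K {A Γ : Type*} [AddCommGroup A] (P : Prj f) {u : Γ → A →+ A} (hu : Twi u)
    (τ : (Y.J → ℤ) → Γ) (h : Bun X → (P.E → ℤ) → A)
    (hadd : ∀ (A B C : Bun X) (u : A.M.M →ₗ[X.R] B.M.M) (v : B.M.M →ₗ[X.R] C.M.M),
      SES A.M B.M C.M u v → B.rk = A.rk + C.rk → ∃ k₀, ∀ k, k₀ ≤ k → h B k = h A k + h C k)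
    (hsh : ∀ B γ c k, h (B.shift (f.ρ γ + P.σ c)) k = u (τ γ) (h B (k + c))) :
    ∃ ψ : K0 X →+ A, ∀ B, Extr u (h B) (ψ B.cls) := by
  obtain ⟨Φ, hΦ⟩ := K0_lift (fun B => (QuotientAddGroup.mk (h B) : _ ⧸ ev0 P.E A))
    fun A B C u v s r => by
      obtain ⟨k₀, e⟩ := hadd A B C u v s r
      rw [← QuotientAddGroup.mk_add, QuotientAddGroup.eq]
      exact ⟨k₀, fun k hk => by rw [Pi.add_apply, Pi.neg_apply, e k hk]; exact neg_add_cancel _⟩
  have key : ∀ (e : P.E) (l : List (Y.J → ℤ)) (B : Bun X),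
      Φ ((l.map fun γ => 1 - line X (-(f.ρ γ + P.σ (Pi.single e 1)))).prod * B.cls) =
        QuotientAddGroup.mk (RecAux.L u e (l.map fun γ => τ (-γ)) (h B)) := by
    intro e l
    induction l with
    | nil => intro B; rw [List.map_nil, List.prod_nil, one_mul, hΦ]; rfl
    | cons γ l ih =>
      intro B
      have e1 : -(f.ρ γ + P.σ (Pi.single e 1)) = f.ρ (-γ) + P.σ (-Pi.single e 1) := by
        rw [map_neg, map_neg, neg_add]
      rw [List.map_cons, List.prod_cons, mul_comm _ (List.prod _), mul_assoc, sub_mul, one_mul,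
        mul_sub, map_sub, e1, ← B.cls_shift, ih, ih, ← QuotientAddGroup.mk_sub, ← map_sub,
        List.map_cons, RecAux.L_cons, RecAux.op_L hu]
      refine congrArg _ (congrArg _ (funext fun k => ?_))
      rw [Pi.sub_apply, hsh, RecAux.op_apply, sub_eq_add_neg k]
  have ex : ∀ B : Bun X, ∃ a, Extr u (h B) a := fun B => exists_extr hu fun e => by
    obtain ⟨l, hl⟩ := P.dev_K e
    have := key e l B
    rw [hl, zero_mul, map_zero, eq_comm, QuotientAddGroup.eq_zero_iff] at this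
    obtain ⟨k₀, hk⟩ := this
    exact ⟨_, k₀, fun k e' => by rw [RecAux.L_eq]; exact hk k e'⟩
  choose a ha using ex
  obtain ⟨ψ, hψ⟩ := K0_lift a fun A B C u' v s r => by
    obtain ⟨k₀, e⟩ := hadd A B C u' v s r
    exact (ha B).unique hu (((ha A).add hu (ha C)).congr fun k hk => (e k hk).symm)
  exact ⟨ψ, fun B => (hψ B).symm ▸ ha B⟩

theorem pushK_ext {A : Type*} [AddCommGroup A] (P : Prj f) {α β : K0 X →+ A}
    (h : ∀ B : Bun X, ∃ k₀, ∀ δ, k₀ ≤ P.π δ → α (line X δ * B.cls) = β (line X δ * B.cls)) :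
    α = β := K0_ext fun B => by
  obtain ⟨k₀, e⟩ := h B
  exact sub_eq_zero.1 (ext_abs (line X) line_zero line_add f.ρ P.σ B.cls
    (fun e => (P.dev_K e).imp fun l hl => by rw [hl, zero_smul]) (α - β) (k₀ := k₀)
    fun k hk γ => sub_eq_zero.2 (e _ (by rw [P.π_add]; exact hk)))

variable {P : Prj f}

theorem Prj.Nice.part_bun (hP : P.Nice) (hY : Y.Cn) (B : Bun X) :
    ∃ k₀, ∀ k, k₀ ≤ k → ∃ r, (P.part k B.M).IsBun r :=
  (hP.part_free B).imp fun _ h k hk => hY.conn _ (h k hk)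

theorem kc'_part_shift [Nonempty Y.Pt] (P : Prj f) (M : GMod X) (γ : Y.J → ℤ) (c k : P.E → ℤ) :
    kc' (P.part k (M.shift (f.ρ γ + P.σ c))) = line Y γ * kc' (P.part (k + c) M) := by
  obtain ⟨e, he⟩ := P.part_shift k c γ M
  rw [← kc'_qis (qis_of_equiv e he), kc'_shift]

theorem pushK_spec (hP : P.Nice) (hY : Y.Cn) (B : Bun X) :
    Extr (fun γ => AddMonoidHom.mulLeft (line Y γ)) (fun k => kc' (P.part k B.M))
      (pushK P B.cls) := by
  haveI := hY.ne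
  have ex := exists_extr_K P (twi_line Y) id (fun B k => kc' (P.part k B.M))
    (fun A B C u v s _ => by
      obtain ⟨k1, h1⟩ := P.part_ses s
      obtain ⟨k2, h2⟩ := hP.part_bun hY A
      obtain ⟨k3, h3⟩ := hP.part_bun hY C
      refine ⟨k1 ⊔ (k2 ⊔ k3), fun k hk => ?_⟩
      obtain ⟨a, ha⟩ := h2 k (le_sup_left.trans (le_sup_right.trans hk))
      obtain ⟨c, hc⟩ := h3 k (le_sup_right.trans (le_sup_right.trans hk))
      exact kc'_ses (h1 k (le_sup_left.trans hk)) ha hc)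
    fun B γ c k => kc'_part_shift P B.M γ c k
  rw [pushK, dif_pos ex]
  exact ex.choose_spec B

theorem pushK_char (hP : P.Nice) (hY : Y.Cn) (B : Bun X) : ∃ k₀, ∀ k, k₀ ≤ k → ∀ γ,
    pushK P (line X (f.ρ γ + P.σ k) * B.cls) = line Y γ * kc' (P.part k B.M) := by
  haveI := hY.ne
  obtain ⟨k₀, h⟩ := (pushK_spec hP hY B).shift
  refine ⟨k₀, fun k hk γ => ?_⟩
  rw [← B.cls_shift]
  exact (pushK_spec hP hY _).unique (twi_line Y)
    (((h k hk).map (AddMonoidHom.mulLeft (line Y γ)) id ((twi_line Y).2 γ)).congr (k₀ := 0)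
      fun l _ => (kc'_part_shift P B.M γ k l).symm)

theorem pushK_piece (hP : P.Nice) (hY : Y.Cn) (B : Bun X) : ∃ k₀, ∀ δ, k₀ ≤ P.π δ →
    ∃ r, (P.piece δ B.M).IsBun r ∧ pushK P (line X δ * B.cls) = kc (P.piece δ B.M) r := by
  haveI := hY.ne
  obtain ⟨k1, h1⟩ := pushK_char hP hY B
  obtain ⟨k2, h2⟩ := hP.part_bun hY B
  refine ⟨k1 ⊔ k2, fun δ hδ => ?_⟩
  obtain ⟨r, hr⟩ := h2 _ (le_sup_right.trans hδ)
  refine ⟨r, hr.shift _, ?_⟩
  have := h1 _ (le_sup_left.trans hδ) (P.ret δ)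
  rw [P.tot, kc'_eq hr, ← kc_shift hr] at this
  exact this

theorem pushK_part (hP : P.Nice) (hY : Y.Cn) (B : Bun X) :
    ∃ k₀, ∀ k, k₀ ≤ k → ∃ r, (P.part k B.M).IsBun r ∧
      pushK P (line X (P.σ k) * B.cls) = kc (P.part k B.M) r := by
  haveI := hY.ne
  obtain ⟨k1, h1⟩ := pushK_char hP hY B
  obtain ⟨k2, h2⟩ := hP.part_bun hY B
  refine ⟨k1 ⊔ k2, fun k hk => ?_⟩
  obtain ⟨r, hr⟩ := h2 _ (le_sup_right.trans hk)
  have := h1 _ (le_sup_left.trans hk) 0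
  rw [map_zero, zero_add, line_zero, one_mul, kc'_eq hr] at this
  exact ⟨r, hr, this⟩

theorem pushK_mul (hP : P.Nice) (hY : Y.Cn) (b : K0 Y) (a : K0 X) :
    pushK P (pullK f b * a) = b * pushK P a := by
  haveI := hY.ne
  have key : ∀ N : Bun Y, (pushK P).comp (AddMonoidHom.mulLeft (pullK f N.cls)) =
      (AddMonoidHom.mulLeft N.cls).comp (pushK P) := fun N => pushK_ext P fun B => by
    let C : Bun X := ⟨_, _, (N.free.pull f).ten B.free⟩
    obtain ⟨k1, h1⟩ := pushK_char hP hY B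
    obtain ⟨k2, h2⟩ := pushK_char hP hY C
    obtain ⟨k3, h3⟩ := hP.part_bun hY B
    refine ⟨k1 ⊔ (k2 ⊔ k3), fun δ hδ => ?_⟩
    obtain ⟨r, hr⟩ := h3 _ (le_sup_right.trans (le_sup_right.trans hδ))
    obtain ⟨e, he⟩ := P.part_ten (P.π δ) N.M B.M
    have e1 := h1 _ (le_sup_left.trans hδ) (P.ret δ)
    have e2 := h2 _ (le_sup_left.trans (le_sup_right.trans hδ)) (P.ret δ)
    have e3 : C.cls = pullK f N.cls * B.cls := by
      rw [pullK_cls, ← kc_bun B, ← kc_ten (N.free.pull f) B.free]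
      exact (kc_bun C).symm
    rw [P.tot] at e1 e2
    show pushK P (pullK f N.cls * (line X δ * B.cls)) = N.cls * pushK P (line X δ * B.cls)
    rw [mul_left_comm, ← e3, e1, e2, ← kc'_qis (qis_of_equiv e he), kc'_eq hr,
      kc'_eq (N.free.ten hr), kc_ten N.free hr, kc_bun, mul_left_comm]
  obtain ⟨N, N', rfl⟩ := K0_induction b
  rw [map_sub, sub_mul, map_sub, sub_mul]
  exact congrArg₂ _ (DFunLike.congr_fun (key N) a) (DFunLike.congr_fun (key N') a)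

theorem PK.cofinal (P P' : Prj f) [hX : Nonempty X.Pt] (k' : P'.E → ℤ) :
    ∃ k₀, ∀ δ, k₀ ≤ P.π δ → k' ≤ P'.π δ := by
  have h1 : ∀ δ, P'.π δ = ∑ e, P.π δ e • P'.π (P.σ (Pi.single e 1)) := fun δ => by
    conv_lhs => rw [← P.tot δ, map_add, P'.π_ρ, zero_add, ← Finset.univ_sum_single (P.π δ)]
    rw [map_sum, map_sum]
    refine Finset.sum_congr rfl fun e _ => ?_
    rw [← map_zsmul, ← map_zsmul, ← Pi.single_smul, smul_eq_mul, mul_one]
  have h2 : ∀ e, 0 ≤ P'.π (P.σ (Pi.single e 1)) := fun e => by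
    obtain ⟨a, ha, h⟩ := ((P.pts hX.some.1).1 hX.some.2).2 e
    obtain ⟨γ, hγ⟩ := P.y_wt e a ha
    have := P'.π_nonneg hγ fun h0 => h (by rw [h0, map_zero])
    rwa [map_add, P'.π_ρ, zero_add] at this
  have h3 : ∀ e', ∃ e, 1 ≤ P'.π (P.σ (Pi.single e 1)) e' := fun e' => by
    by_contra hc
    have := congrFun (h1 (P'.σ (Pi.single e' 1))) e'
    rw [P'.π_σ, Pi.single_eq_same, Finset.sum_apply, Finset.sum_eq_zero] at this
    · exact one_ne_zero this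
    · intro e _
      have a1 : ¬1 ≤ P'.π (P.σ (Pi.single e 1)) e' := fun h => hc ⟨e, h⟩
      have a2 : 0 ≤ P'.π (P.σ (Pi.single e 1)) e' := h2 e e'
      rw [Pi.smul_apply, show P'.π (P.σ (Pi.single e 1)) e' = 0 by omega, smul_zero]
  obtain ⟨c, hc⟩ := (Set.finite_range k').bddAbove
  refine ⟨fun _ => c ⊔ 0, fun δ hδ e' => ?_⟩
  obtain ⟨e, he⟩ := h3 e'
  have a1 : ∀ e, 0 ≤ P.π δ e := fun e => le_sup_right.trans (hδ e)
  rw [h1, Finset.sum_apply]
  refine le_trans ?_ (Finset.single_le_sum (f := fun e => (P.π δ e • P'.π (P.σ (Pi.single e 1))) e')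
    (fun e _ => mul_nonneg (a1 e) (h2 e e')) (Finset.mem_univ e))
  exact ((hc ⟨e', rfl⟩).trans (le_sup_left.trans (hδ e))).trans (le_mul_of_one_le_right (a1 e) he)

theorem pushK_empty [IsEmpty X.Pt] (hP : P.Nice) (hY : Y.Cn) : pushK P = 0 :=
  pushK_ext P fun B => by
    haveI := hY.ne
    obtain ⟨k1, h1⟩ := pushK_char hP hY B
    obtain ⟨k2, h2⟩ := P.part_zeroAt (A := B.M) fun z => isEmptyElim z
    refine ⟨k1 ⊔ k2, fun δ hδ => ?_⟩
    have e1 := h1 _ (le_sup_left.trans hδ) (P.ret δ)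
    have e2 := h2 _ (le_sup_right.trans hδ)
    rw [P.tot, kc'_eq (isBun_zero e2), kc_zero e2, mul_zero] at e1
    exact e1

theorem pushK_indep {P' : Prj f} (hP : P.Nice) (hP' : P'.Nice) (hY : Y.Cn) :
    pushK P = pushK P' := by
  haveI := hY.ne
  rcases isEmpty_or_nonempty X.Pt with hX | hX
  · rw [pushK_empty hP hY, pushK_empty hP' hY]
  refine pushK_ext P fun B => ?_
  obtain ⟨k1, h1⟩ := pushK_piece hP hY B
  obtain ⟨k2, h2⟩ := pushK_piece hP' hY B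
  obtain ⟨k3, h3⟩ := cofinal P P' k2
  refine ⟨k1 ⊔ k3, fun δ hδ => ?_⟩
  obtain ⟨r, a1, a2⟩ := h1 δ (le_sup_left.trans hδ)
  obtain ⟨r', b1, b2⟩ := h2 δ (h3 δ (le_sup_right.trans hδ))
  obtain ⟨e, he⟩ := P.piece_iso P' δ B.M
  rw [a2, b2, ← kc'_eq a1, ← kc'_eq b1, kc'_qis (qis_of_equiv e he)]

/-- base change -/
theorem Cart.pushK {X' Y' : Spc} {g : Mor Y' Y} {f' : Mor X' Y'} {g' : Mor X' X}
    (h : Cart f g f' g') {P' : Prj f'} (τ : (P.E → ℤ) ≃+ (P'.E → ℤ))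
    (hτ : ∀ δ, P'.π (g'.ρ δ) = τ (P.π δ)) (hτ' : ∀ k', ∃ k₀, ∀ k, k₀ ≤ k → k' ≤ τ k)
    (hP : P.Nice) (hP' : P'.Nice) (hY : Y.Cn) (hY' : Y'.Cn) (a : K0 X) :
    pullK g (pushK P a) = pushK P' (pullK g' a) := by
  haveI := hY'.ne
  refine DFunLike.congr_fun (pushK_ext P (α := (pullK g).toAddMonoidHom.comp (P297Z.pushK P))
    (β := (P297Z.pushK P').comp (pullK g').toAddMonoidHom) fun B => ?_) a
  let C : Bun X' := ⟨_, _, B.free.pull g'⟩
  obtain ⟨k1, h1⟩ := pushK_piece hP hY B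
  obtain ⟨k2, h2⟩ := pushK_piece hP' hY' C
  obtain ⟨k3, h3⟩ := hτ' k2
  refine ⟨k1 ⊔ k3, fun δ hδ => ?_⟩
  obtain ⟨r, a1, a2⟩ := h1 δ (le_sup_left.trans hδ)
  obtain ⟨r', b1, b2⟩ := h2 (g'.ρ δ) (by rw [hτ]; exact h3 _ (le_sup_right.trans hδ))
  obtain ⟨e, he⟩ := h.part P P' τ hτ B.M δ
  show pullK g (P297Z.pushK P (line X δ * B.cls)) = P297Z.pushK P' (pullK g' (line X δ * B.cls))
  rw [a2, map_mul, pullK_line, pullK_cls, kc_bun C, b2, pullK_kc g a1, ← kc'_eq (a1.pull g),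
    ← kc'_eq b1]
  exact kc'_qis (qis_of_equiv e he)

theorem pK_eq (hX : X.Cn) (P : Prj (Mor.fst X Y)) : pK X Y = pushK P := by
  rw [pK, dif_pos ⟨P⟩]
  exact pushK_indep (Prj.nice_fst _) P.nice_fst hX

theorem pK_mul (hX : X.Cn) (hY : Y.IsProj) (b : K0 X) (a : K0 (X.prod Y)) :
    pK X Y (pullK (Mor.fst X Y) b * a) = b * pK X Y a := by
  rw [pK_eq hX (Prj.fst X hY)]
  exact pushK_mul (Prj.nice_fst _) hX b a

theorem pK_pull (hW : W.Cn) (hX : X.Cn) (hY : Y.IsProj) (g : Mor W X) (a : K0 (X.prod Y)) :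
    pullK g (pK X Y a) = pK W Y (pullK (g.map (Mor.id Y)) a) := by
  rw [pK_eq hX (Prj.fst X hY), pK_eq hW (Prj.fst W hY)]
  exact (cart_fst g Y).pushK (AddEquiv.refl _)
    (fun δ => congrArg (Prj.fst W hY).π (Mor.map_ρ g (Mor.id Y) δ)) (fun k => ⟨k, fun _ h => h⟩)
    (Prj.nice_fst _) (Prj.nice_fst _) hX hW a

end Vale.Agent.P297Z
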