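import Vale.Agent.P297Z.K.PK2
import Vale.Agent.P297Z.K.Push

/-!
# P297: the push-forward on `K0` and on `G`
-/

set_option linter.all false

open scoped TensorProduct

noncomputable section

namespace Vale.Agent.P297Z

open GMod PK

variable {W X Y Z : Spc}

theorem push_kact_pullG {f : Mor X Y} {P : Prj f} (hP : P.Nice) (hY : Y.Cn) (hf : f.Flat)
    (a : K0 X) (x : G Y) : push P (kact X a (pullG f x)) = kact Y (pushK P a) x := by
  haveI := hY.ne
  have key : ∀ M : GMod Y, (push P).comp ((kact X).flip (pullG f (cls M))) =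
      ((kact Y).flip (cls M)).comp (pushK P) := fun M => pushK_ext P fun B => by
    obtain ⟨k1, h1⟩ := pushK_char hP hY B
    obtain ⟨k2, h2⟩ := push_char P ((f.pull M).ten B.M)
    obtain ⟨k3, h3⟩ := hP.part_bun hY B
    refine ⟨k1 ⊔ (k2 ⊔ k3), fun δ hδ => ?_⟩
    obtain ⟨r, hr⟩ := h3 _ (le_sup_right.trans (le_sup_right.trans hδ))
    obtain ⟨e, he⟩ := P.part_ten (P.π δ) M B.M
    have e1 := h1 _ (le_sup_left.trans hδ) (P.ret δ)
    have e2 := h2 _ (le_sup_left.trans (le_sup_right.trans hδ)) (P.ret δ)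
    rw [P.tot] at e1 e2
    show push P (kact X (line X δ * B.cls) (pullG f (cls M))) =
      kact Y (pushK P (line X δ * B.cls)) (cls M)
    rw [pullG_cls hf, kact_mul, kact_cls, cls_qis (AK.qis_comm _ _), kact_line, e1, e2, kact_mul,
      kc'_eq hr, kact_kc hr, cls_qis (AK.qis_comm _ M), cls_equiv e he]
  exact DFunLike.congr_fun (G_ext (ψ := (push P).comp ((kact X a).comp (pullG f)))
    (ψ' := kact Y (pushK P a)) fun M => DFunLike.congr_fun (key M) a) x

theorem push_fst_kact (hX : X.Cn) (P : Prj (Mor.fst X Y)) (a : K0 (X.prod Y)) (x : G X) :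
    push P (kact _ a (pullG (Mor.fst X Y) x)) = kact X (pK X Y a) x := by
  rw [pK_eq hX P]
  exact push_kact_pullG P.nice_fst hX (flat_fst X Y) a x

theorem cn_pt (J : Type) [Fintype J] [DecidableEq J] : (Spc.pt J).Cn :=
  haveI : IsDomain (Spc.pt J).R := inferInstanceAs (IsDomain ℂ)
  ⟨Spc.conn_of_domain, ⟨⟨AlgHom.id ℂ ℂ, (1 : ℂ), trivial, (one_ne_zero : (1 : ℂ) ≠ 0)⟩⟩⟩

theorem nice_pt {J : Type} [Fintype J] [DecidableEq J] {f : Mor X (Spc.pt J)} (P : Prj f) :
    P.Nice := fun γ => ⟨0, fun k _ y => by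
  letI : Field (Spc.pt J).R := inferInstanceAs (Field ℂ)
  exact freeAt_of_proj _ y.1⟩

theorem cart_pt (X Y : Spc) : Cart (Mor.toPt Y Empty 0) (Mor.toPt X Empty 0) (Mor.fst X Y)
    (Mor.snd X Y) where
  comm := Mor.ext' (fun r => ((Mor.snd X Y).φ.commutes r).trans ((Mor.fst X Y).φ.commutes r).symm)
    fun γ => (map_zero (Mor.snd X Y).ρ).trans (map_zero (Mor.fst X Y).ρ).symm
  bij := fun A _ _ a b _ => ⟨Algebra.TensorProduct.productMap b a,
    ⟨Algebra.TensorProduct.productMap_right b a, Algebra.TensorProduct.productMap_left b a⟩,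
    fun c hc => prod_hom_ext
      (fun r => (AlgHom.congr_fun hc.2 r).trans
        (AlgHom.congr_fun (Algebra.TensorProduct.productMap_left b a) r).symm)
      fun r => (AlgHom.congr_fun hc.1 r).trans
        (AlgHom.congr_fun (Algebra.TensorProduct.productMap_right b a) r).symm⟩

theorem PK.fdim_of_inj {R A : Type} [CommRing R] [Algebra ℂ R] [AddCommGroup A] [Module R A]
    [Module ℂ A] [IsScalarTower ℂ R A] {z : R →ₐ[ℂ] ℂ} (hz : Function.Injective z) :
    fdim z A = Module.finrank ℂ A :=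
  LinearEquiv.finrank_eq (((RingHom.ker z • ⊤ : Submodule R A).quotEquivOfEqBot (by
    rw [(RingHom.injective_iff_ker_eq_bot z).1 hz, Submodule.bot_smul])).restrictScalars ℂ)

/-- the classes on a point -/
theorem kc_pt {M : GMod (Spc.pt Empty)} {r : ℕ} (h : M.IsBun r) :
    kc M r = r ∧ Module.finrank ℂ M.M = r := by
  obtain ⟨z⟩ := (cn_pt Empty).ne
  obtain ⟨e, he⟩ := h z
  have hz : ∀ z' : (Spc.pt Empty).Pt, z' = z := fun z' =>
    Subtype.ext (AlgHom.ext fun c => (z'.1.commutes c).trans (z.1.commutes c).symm)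
  have q : Qis (pi fun _ : Fin r => one (Spc.pt Empty)) M e :=
    ⟨fun g m => by rw [show g = 1 from funext fun j => Empty.elim j, GMod.act_one, GMod.act_one], fun z' => hz z' ▸ he⟩
  constructor
  · have := kc_pi (M := fun _ : Fin r => one (Spc.pt Empty)) fun _ => isBun_one _
    rw [kc_one, Finset.sum_const, Finset.sum_const, Finset.card_univ, Fintype.card_fin, smul_eq_mul,
      mul_one, nsmul_one, kc_qis q] at this
    exact this
  · exact (fdim_of_inj (z := z.1) (RingHom.injective (show ℂ →+* ℂ from z.1.toRingHom))).symm.trans (h.fdim z)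

end Vale.Agent.P297Z
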