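import Vale.Agent.P297Z.K.PK2

/-!
# P297: locally free modules, their classes after a base change, push-forward of resolutions
-/

set_option linter.all false

open scoped TensorProduct

noncomputable section

namespace Vale.Agent.P297Z

open GMod PK
open Submodule.Quotient (mk)

variable {W X Y Z : Spc}

/-- locally free at all points -/
def GMod.LF (M : GMod X) : Prop := ∀ z : X.Pt, ∃ r, FreeAt z.1 M.M r

namespace PK

section pt

variable {A B C D M : GMod X} {u : A.M →ₗ[X.R] B.M} {v : B.M →ₗ[X.R] C.M} {z : X.Pt} {a b c : ℕ}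

theorem free_left (hB : FreeAt z.1 B.M b) (hC : FreeAt z.1 C.M c) (h0 : ∀ a, v (u a) = 0)
    (h1 : InjAt z.1 u) (h2 : ExAt z.1 u v) (h3 : SurjAt z.1 v) : FreeAt z.1 A.M (b - c) :=
  FreeAt.left ((Nat.sub_add_cancel (AK.free_le hB hC h3)).symm ▸ hB) hC h0 h1 h2 h3

theorem ker_aux {K : GMod X} {q : B.M →ₗ[X.R] K.M} {ι : K.M →ₗ[X.R] C.M} {w : C.M →ₗ[X.R] D.M}
    (s : SES K C D ι w) (s' : SES A B K u q) (hB : FreeAt z.1 B.M b) (hC : FreeAt z.1 C.M c)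
    {r : ℕ} (hq : FreeAt z.1 D.M r) : (∃ a, FreeAt z.1 A.M a) ∧ Function.Injective (fibMap z.1 u) ∧
      Function.Exact (fibMap z.1 u) (fibMap z.1 (ι ∘ₗ q)) := by
  have f1 := free_left hC hq s.2.2.1 (s.2.2.2 z).1 (s.2.2.2 z).2.1 (s.2.2.2 z).2.2
  have i1 := fib_inj_of_ses hq s.2.2.1 (s.2.2.2 z).1 (s.2.2.2 z).2.1 (s.2.2.2 z).2.2
  refine ⟨⟨_, free_left hB f1 s'.2.2.1 (s'.2.2.2 z).1 (s'.2.2.2 z).2.1 (s'.2.2.2 z).2.2⟩,
    fib_inj_of_ses f1 s'.2.2.1 (s'.2.2.2 z).1 (s'.2.2.2 z).2.1 (s'.2.2.2 z).2.2, fun x => ?_⟩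
  refine Iff.trans ?_ (s'.fib_exact z x)
  rw [fibMap_comp]
  exact (injective_iff_map_eq_zero' _).1 i1 _

/-- the kernel of a map whose cokernel is free -/
theorem ker_free (hu : A.IsHom B u) (hv : B.IsHom C v) (h1 : Function.Injective u)
    (h2 : Function.Exact u v) (hB : FreeAt z.1 B.M b) (hC : FreeAt z.1 C.M c) {r : ℕ}
    (hq : FreeAt z.1 hv.cokerM.M r) : (∃ a, FreeAt z.1 A.M a) ∧ Function.Injective (fibMap z.1 u) ∧
      Function.Exact (fibMap z.1 u) (fibMap z.1 v) := by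
  have s' : SES A B hv.rangeM u v.rangeRestrict := ses_of_exact hu hv.rangeRestrict h1
    (fun b => ⟨fun hb => (h2 b).1 (congrArg Subtype.val hb),
      fun hb => Subtype.ext ((h2 b).2 hb)⟩) v.surjective_rangeRestrict
  have := ker_aux (ses_sub_quo C _ hv.stab_range) s' hB hC hq
  exact ⟨this.1, this.2.1, this.2.2⟩

/-- the cokernel is free where its fibre dimension is minimal -/
theorem coker_free (hu : A.IsHom B u) (hB : FreeAt z.1 B.M b) {s : X.R} (hs : z.1 s ≠ 0)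
    (h : ∀ y : X.Pt, y.1 s ≠ 0 → frk y.1 u ≤ frk z.1 u) : ∃ r, FreeAt z.1 hu.cokerM.M r := by
  obtain ⟨s1, n1, h1⟩ := hB.nhd
  refine ⟨_, freeAt_of_fdim (M := hu.cokerM) (ev_mul n1 hs) fun y hy => ?_⟩
  rw [map_mul] at hy
  have e1 : frk z.1 u + fdim z.1 hu.cokerM.M = fdim z.1 B.M := frk_add_coker u
  have e2 : frk y.1 u + fdim y.1 hu.cokerM.M = fdim y.1 B.M := frk_add_coker u
  have e3 := h y (right_ne_zero_of_mul hy)
  have e4 := hB.fdim
  have e5 := (h1 y.1 (left_ne_zero_of_mul hy)).fdim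
  omega

theorem coker_free' (hu : A.IsHom B u) (hv : B.IsHom C v) (hB : B.LF) (hC : C.LF)
    (h : ∀ y : X.Pt, Function.Exact (fibMap y.1 u) (fibMap y.1 v)) : hu.cokerM.LF := fun z => by
  obtain ⟨b, hb⟩ := hB z
  obtain ⟨c, hc⟩ := hC z
  obtain ⟨s1, n1, h1⟩ := hb.nhd
  obtain ⟨s2, n2, h2⟩ := hc.nhd
  obtain ⟨s3, n3, h3⟩ := fdim_nhd (z := z.1) (A := hv.cokerM.M)
  refine coker_free hu hb (ev_mul n1 (ev_mul n2 n3)) fun y hy => ?_
  rw [map_mul, map_mul] at hy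
  have e2 : frk z.1 v + fdim z.1 hv.cokerM.M = fdim z.1 C.M := frk_add_coker v
  have e4 : frk y.1 v + fdim y.1 hv.cokerM.M = fdim y.1 C.M := frk_add_coker v
  have e5 := frk_add_of_exact (h z)
  have e6 := frk_add_of_exact (h y)
  have e7 := h3 y.1 (right_ne_zero_of_mul (right_ne_zero_of_mul hy))
  have e8 := hb.fdim
  have e9 := hc.fdim
  have e10 := (h1 y.1 (left_ne_zero_of_mul hy)).fdim
  have e11 := (h2 y.1 (left_ne_zero_of_mul (right_ne_zero_of_mul hy))).fdim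
  omega

end pt

end PK

namespace GMod

variable {A B C D M : GMod X} {u : A.M →ₗ[X.R] B.M} {v : B.M →ₗ[X.R] C.M} {w : C.M →ₗ[X.R] D.M}

theorem IsBun.lf {r : ℕ} (h : M.IsBun r) : M.LF := fun z => ⟨r, h z⟩

theorem LF.shift (h : M.LF) (γ : X.J → ℤ) : (M.shift γ).LF := h

theorem LF.of_equiv (h : A.LF) (e : A.M ≃ₗ[X.R] B.M) : B.LF := fun z =>
  (h z).imp fun _ h => h.of_equiv e

theorem LF.qis (h : A.LF) (q : Qis A B u) : B.LF := fun z => (h z).imp fun _ h => h.of_isoAt (q.2 z)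

theorem lf_pi {ι : Type} [Fintype ι] {M : ι → GMod X} (h : ∀ i, (M i).LF) : (pi M).LF := fun z => by
  choose r hr using fun i => h i z
  exact ⟨_, AK.free_pi hr⟩

theorem LF.pull (h : M.LF) (φ : Mor W X) : (φ.pull M).LF := fun z => (h (φ.onPt z)).imp fun _ h =>
  AK.free_bc (S := φ.Src) (w := z.1) (z := (φ.onPt z).1) (fun _ => rfl) h

theorem SES.lf_left (h : SES A B C u v) (hB : B.LF) (hC : C.LF) : A.LF := fun z => by
  obtain ⟨b, hb⟩ := hB z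
  obtain ⟨c, hc⟩ := hC z
  exact ⟨_, free_left hb hc h.2.2.1 (h.2.2.2 z).1 (h.2.2.2 z).2.1 (h.2.2.2 z).2.2⟩

theorem SES.lf_mid (h : SES A B C u v) (hA : A.LF) (hC : C.LF) : B.LF := fun z => by
  obtain ⟨a, ha⟩ := hA z
  obtain ⟨c, hc⟩ := hC z
  exact ⟨_, ha.mid hc h.2.2.1 (h.2.2.2 z).1 (h.2.2.2 z).2.1 (h.2.2.2 z).2.2⟩

theorem SES.pull_lf (h : SES A B C u v) (hC : C.LF) (φ : Mor W X) :
    SES (φ.pull A) (φ.pull B) (φ.pull C) (u.baseChange φ.Src) (v.baseChange φ.Src) :=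
  ses_of_split (h.1.pull φ) (h.2.1.pull φ) (h.pull_zero φ) fun z => by
    obtain ⟨c, hc⟩ := hC (φ.onPt z)
    exact AK.Split.bc (S := φ.Src) (w := z.1) (z := (φ.onPt z).1) (fun _ => rfl)
      (AK.split_of h.2.2.1 (h.2.2.2 _).1 (h.2.2.2 _).2.1 (h.2.2.2 _).2.2 hc)

theorem ses_of_fib_lf (hu : A.IsHom B u) (hv : B.IsHom C v) (h0 : ∀ a, v (u a) = 0)
    (hB : B.LF) (hC : C.LF) (h1 : ∀ z : X.Pt, Function.Injective (fibMap z.1 u))
    (h2 : ∀ z : X.Pt, ∀ y, fibMap z.1 v y = 0 → ∃ x, fibMap z.1 u x = y)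
    (h3 : ∀ z : X.Pt, Function.Surjective (fibMap z.1 v)) : SES A B C u v :=
  ⟨hu, hv, h0, fun z => ⟨injAt_of_fib (hB z).choose_spec (h1 z),
    exAt_of_fib (hC z).choose_spec h0 (h2 z), surjAt_iff_fib.2 (h3 z)⟩⟩

theorem qis_pull_pi (φ : Mor W X) {ι : Type} [Fintype ι] [DecidableEq ι] (M : ι → GMod X) :
    Qis (φ.pull (pi M)) (pi fun i => φ.pull (M i))
      (TensorProduct.piRight X.R φ.Src φ.Src fun i => (M i).M).toLinearMap :=
  qis_of_equiv (A := φ.pull (pi M)) (B := pi fun i => φ.pull (M i))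
    (TensorProduct.piRight X.R φ.Src φ.Src fun i => (M i).M)
    (isHom_pull fun t x => funext fun i => (pull_act_one φ (M i) t (x i)).symm)

end GMod

section kp

variable {A B C D M : GMod X} {u : A.M →ₗ[X.R] B.M} {v : B.M →ₗ[X.R] C.M} {w : C.M →ₗ[X.R] D.M}

theorem kc'_pi [Nonempty X.Pt] {ι : Type} [Fintype ι] {M : ι → GMod X}
    (h : ∀ i, ∃ r, (M i).IsBun r) : kc' (pi M) = ∑ i, kc' (M i) := by
  choose r hr using h
  rw [kc'_eq (isBun_pi hr), kc_pi hr]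
  exact Finset.sum_congr rfl fun i _ => (kc'_eq (hr i)).symm

/-- the class of the pull-back -/
def kp (g : Mor W X) (M : GMod X) : K0 W := kc' (g.pull M)

variable (hW : W.Cn) (g : Mor W X)
include hW

theorem kp_bun {r : ℕ} (h : M.IsBun r) : kp g M = pullK g (kc M r) := by
  haveI := hW.ne
  rw [pullK_kc g h, kp, kc'_eq (h.pull g)]

theorem kp_qis (h : Qis A B u) : kp g A = kp g B :=
  haveI := hW.ne
  kc'_qis (h.pull g)

theorem kp_shift (M : GMod X) (γ : X.J → ℤ) : kp g (M.shift γ) = line W (g.ρ γ) * kp g M :=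
  haveI := hW.ne
  (kc'_qis (AK.pull_shift g M γ)).trans (kc'_shift _ _)

theorem kp_ses (h : SES A B C u v) (hA : A.LF) (hC : C.LF) : kp g B = kp g A + kp g C := by
  haveI := hW.ne
  obtain ⟨a, ha⟩ := hW.conn _ (hA.pull g)
  obtain ⟨c, hc⟩ := hW.conn _ (hC.pull g)
  exact kc'_ses (h.pull_lf hC g) ha hc

theorem kp_pi {ι : Type} [Fintype ι] {M : ι → GMod X} (h : ∀ i, (M i).LF) :
    kp g (pi M) = ∑ i, kp g (M i) := by
  classical
  haveI := hW.ne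
  exact (kc'_qis (qis_pull_pi g M)).trans (kc'_pi fun i => hW.conn _ ((h i).pull g))

/-- a complex of four locally free modules that is exact on the fibres -/
theorem kp_four (hu : A.IsHom B u) (hv : B.IsHom C v) (hw : C.IsHom D w) (h1 : ∀ a, v (u a) = 0)
    (h2 : ∀ b, w (v b) = 0) (hA : A.LF) (hB : B.LF) (hC : C.LF) (hD : D.LF)
    (e0 : ∀ z : X.Pt, Function.Injective (fibMap z.1 u))
    (e1 : ∀ z : X.Pt, ∀ y, fibMap z.1 v y = 0 → ∃ x, fibMap z.1 u x = y)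
    (e2 : ∀ z : X.Pt, ∀ y, fibMap z.1 w y = 0 → ∃ x, fibMap z.1 v x = y)
    (e3 : ∀ z : X.Pt, Function.Surjective (fibMap z.1 w)) :
    kp g A + kp g C = kp g B + kp g D := by
  have s := hw.ses_ker fun z => surjAt_iff_fib.2 (e3 z)
  have hK := s.lf_left hC hD
  have i : ∀ z : X.Pt, Function.Injective (fibMap z.1 (LinearMap.ker w).subtype) := fun z =>
    fib_inj_of_ses (hD z).choose_spec s.2.2.1 (s.2.2.2 z).1 (s.2.2.2 z).2.1 (s.2.2.2 z).2.2
  have e : ∀ (z : X.Pt) y, fibMap z.1 (LinearMap.ker w).subtype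
      (fibMap z.1 (v.codRestrict (LinearMap.ker w) h2) y) = fibMap z.1 v y := fun z y =>
    (fibMap_comp _ _ y).symm
  have s' := ses_of_fib_lf hu (hv.codRestrict hw.stab_ker h2) (fun a => Subtype.ext (h1 a)) hB hK
    e0 (fun z y hy => e1 z y ((e z y).symm.trans ((congrArg _ hy).trans (map_zero _))))
    fun z x => by
      obtain ⟨y, hy⟩ := e2 z _ (fibMap_comp_zero s.2.2.1 x)
      exact ⟨y, i z ((e z y).trans hy)⟩
  rw [kp_ses hW g s hK hD, kp_ses hW g s' hA hK, add_assoc]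

end kp

theorem Res.hom {B M : GMod X} {b n : ℕ} {x : K0 X} (hB : B.IsBun b) (h : Res n M x) :
    Res n (B.hom M) (dualK X (kc B b) * x) := by
  induction n generalizing M x with
  | zero =>
    obtain ⟨r, h, rfl⟩ := h
    exact ⟨_, hB.hom h, (kc_hom hB h).symm⟩
  | succ n ih =>
    obtain ⟨N, P, p, y, f, g, h1, h2, h3, rfl⟩ := h
    exact ⟨_, _, _, _, _, _, h1.hom_right hB, hB.hom h2, ih h3, by rw [mul_sub, kc_hom hB h2]⟩

/-- the classes of the parts of a module that has a finite resolution, after a base change -/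
theorem Cart.pushK_res {X' Y' : Spc} {f : Mor X Y} {g : Mor Y' Y} {f' : Mor X' Y'} {g' : Mor X' X}
    (h : Cart f g f' g') {P : Prj f} {P' : Prj f'} (τ : (P.E → ℤ) ≃+ (P'.E → ℤ))
    (hτ : ∀ δ, P'.π (g'.ρ δ) = τ (P.π δ)) (hτ' : ∀ k', ∃ k₀, ∀ k, k₀ ≤ k → k' ≤ τ k)
    (hP : P.Nice) (hP' : P'.Nice) (hY' : Y'.Cn) {n : ℕ} {M : GMod X} {x : K0 X} (hr : Res n M x)
    (hM : ∃ k₀, ∀ k, k₀ ≤ k → (P.part k M).LF) : ∃ k₀, ∀ δ, k₀ ≤ P.π δ →
      kp g (P.piece δ M) = P297Z.pushK P' (pullK g' (line X δ * x)) := by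
  haveI := hY'.ne
  have key : ∀ (M : GMod X) (r : ℕ), M.IsBun r → ∃ k₀, ∀ δ, k₀ ≤ P.π δ →
      kp g (P.piece δ M) = P297Z.pushK P' (pullK g' (line X δ * kc M r)) := fun M r hM => by
    let C : Bun X' := ⟨_, _, hM.pull g'⟩
    obtain ⟨k2, h2⟩ := pushK_piece hP' hY' C
    obtain ⟨k3, h3⟩ := hτ' k2
    refine ⟨k3, fun δ hδ => ?_⟩
    obtain ⟨r', b1, b2⟩ := h2 (g'.ρ δ) (by rw [hτ]; exact h3 _ hδ)
    obtain ⟨e, he⟩ := h.part P P' τ hτ M δ
    rw [map_mul, pullK_line, pullK_kc g' hM, kc_bun C, b2, ← kc'_eq b1]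
    exact kc'_qis (qis_of_equiv e he)
  induction n generalizing M x with
  | zero =>
    obtain ⟨r, hr, rfl⟩ := hr
    exact key M r hr
  | succ n ih =>
    obtain ⟨N, Q, p, y, u, v, s, hQ, hN, rfl⟩ := hr
    obtain ⟨k1, h1⟩ := hM
    obtain ⟨k2, h2⟩ := P.part_ses s
    obtain ⟨k3, h3⟩ := hP.part_free ⟨Q, p, hQ⟩
    have h4 : ∀ k, k1 ⊔ (k2 ⊔ k3) ≤ k → (P.part k N).LF := fun k hk =>
      (h2 k (le_sup_left.trans (le_sup_right.trans hk))).lf_left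
        (h3 k (le_sup_right.trans (le_sup_right.trans hk))) (h1 k (le_sup_left.trans hk))
    obtain ⟨k5, h5⟩ := ih hN ⟨_, h4⟩
    obtain ⟨k6, h6⟩ := key Q p hQ
    refine ⟨(k1 ⊔ (k2 ⊔ k3)) ⊔ (k5 ⊔ k6), fun δ hδ => ?_⟩
    have a1 := le_sup_left.trans hδ
    rw [mul_sub, map_sub, map_sub, ← h5 δ (le_sup_left.trans (le_sup_right.trans hδ)),
      ← h6 δ (le_sup_right.trans (le_sup_right.trans hδ))]
    exact eq_sub_of_add_eq' (kp_ses hY' g
      ((h2 _ (le_sup_left.trans (le_sup_right.trans a1))).shift (P.ret δ)) (h4 _ a1)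
      (h1 _ (le_sup_left.trans a1))).symm

end Vale.Agent.P297Z
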