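import Vale.Agent.P297Z.K.Wt

/-!
# P297: spaces
-/

set_option linter.all false

open scoped TensorProduct

noncomputable section

namespace Vale.Agent.P297Z

section gen

variable {J A : Type} [Fintype J] [CommRing A] [Algebra ℂ A] (a : (J → ℂˣ) → A →ₐ[ℂ] A)

theorem mul_mem_wt {γ δ : J → ℤ} {x y : A} (hx : x ∈ wt (fun g => (a g).toLinearMap) γ)
    (hy : y ∈ wt (fun g => (a g).toLinearMap) δ) :
    x * y ∈ wt (fun g => (a g).toLinearMap) (γ + δ) := fun g => by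
  have h1 : a g x = chr γ g • x := hx g
  have h2 : a g y = chr δ g • y := hy g
  show a g (x * y) = _
  rw [map_mul, h1, h2, chr_add, smul_mul_smul_comm]

theorem mul_mem_iSup_wt {x y : A} (hx : x ∈ ⨆ γ, wt (fun g => (a g).toLinearMap) γ)
    (hy : y ∈ ⨆ γ, wt (fun g => (a g).toLinearMap) γ) :
    x * y ∈ ⨆ γ, wt (fun g => (a g).toLinearMap) γ := by
  obtain ⟨s, f, hf, rfl⟩ := exists_sum_wt_of_mem hx
  obtain ⟨t, k, hk, rfl⟩ := exists_sum_wt_of_mem hy
  rw [Finset.sum_mul_sum]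
  exact Submodule.sum_mem _ fun γ _ => Submodule.sum_mem _ fun δ _ =>
    mem_iSup_wt (mul_mem_wt a (hf γ) (hk δ))

theorem chr_sum_type {J' : Type} [Fintype J'] (γ : J ⊕ J' → ℤ) (g : J ⊕ J' → ℂˣ) :
    chr γ g = chr (fun j => γ (.inl j)) (fun j => g (.inl j)) *
      chr (fun j => γ (.inr j)) (fun j => g (.inr j)) := by
  simp only [chr_eq_prod, Fintype.prod_sum_type]

theorem chr_option (γ : Option J → ℤ) (g : Option J → ℂˣ) :
    chr γ g = (g none : ℂ) ^ γ none * chr (fun j => γ (some j)) (fun j => g (some j)) := by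
  simp only [chr_eq_prod, Fintype.prod_option]

variable {B : Type} [CommRing B]

theorem map_stab {F F' G : Type} [FunLike F A A] [FunLike F' B B] [RingHomClass F' B B]
    [FunLike G A B] [RingHomClass G A B] (φ : G) (c : F) (c' : F') (h : ∀ x, c' (φ x) = φ (c x))
    {I : Ideal A} (hI : ∀ r ∈ I, c r ∈ I) : ∀ s ∈ I.map φ, c' s ∈ I.map φ :=
  (Ideal.map_le_iff_le_comap (K := (I.map φ).comap c')).2 fun r hr => by
    rw [Ideal.mem_comap, Ideal.mem_comap, h]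
    exact Ideal.mem_map_of_mem _ (hI r hr)

theorem mul_stab {F' : Type} [FunLike F' B B] [RingHomClass F' B B] (c : F') {I K : Ideal B}
    (hI : ∀ r ∈ I, c r ∈ I) (hK : ∀ r ∈ K, c r ∈ K) : ∀ r ∈ I * K, c r ∈ I * K :=
  (Ideal.mul_le (K := (I * K).comap c)).2 fun r hr s hs => by
    rw [Ideal.mem_comap, map_mul]
    exact Ideal.mul_mem_mul (hI r hr) (hK s hs)

theorem span_stab {F' ι : Type} [FunLike F' B B] [RingHomClass F' B B] (c : F') (y : ι → B)
    (h : ∀ i, c (y i) ∈ Ideal.span (Set.range y)) :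
    ∀ r ∈ Ideal.span (Set.range y), c r ∈ Ideal.span (Set.range y) :=
  (Ideal.span_le (I := (Ideal.span (Set.range y)).comap c)).2 (by
    rintro _ ⟨i, rfl⟩
    exact Ideal.mem_comap.2 (h i))

variable [Algebra ℂ B]

theorem exists_map_ne {G : Type} [FunLike G A B] [RingHomClass G A B] (φ : G) (I : Ideal A)
    (z : B →ₐ[ℂ] ℂ) : (∃ f ∈ I.map φ, z f ≠ 0) ↔ ∃ f ∈ I, z (φ f) ≠ 0 := by
  refine ⟨fun h => ?_, fun ⟨f, hf, h⟩ => ⟨φ f, Ideal.mem_map_of_mem _ hf, h⟩⟩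
  by_contra hn
  push Not at hn
  obtain ⟨f, hf, h⟩ := h
  have : I.map φ ≤ RingHom.ker z := Ideal.map_le_iff_le_comap.2 fun r hr =>
    Ideal.mem_comap.2 (RingHom.mem_ker.2 (hn r hr))
  exact h (RingHom.mem_ker.1 (this hf))

theorem exists_mul_ne (I K : Ideal B) (z : B →ₐ[ℂ] ℂ) :
    (∃ f ∈ I * K, z f ≠ 0) ↔ (∃ f ∈ I, z f ≠ 0) ∧ ∃ f ∈ K, z f ≠ 0 := by
  refine ⟨fun ⟨f, hf, h⟩ => ⟨⟨f, (Ideal.mul_le_inf hf).1, h⟩, f, (Ideal.mul_le_inf hf).2, h⟩, ?_⟩
  rintro ⟨⟨f, hf, h⟩, k, hk, h'⟩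
  exact ⟨f * k, Ideal.mul_mem_mul hf hk, by rw [map_mul]; exact mul_ne_zero h h'⟩

theorem exists_span_ne {ι : Type} (y : ι → B) (z : B →ₐ[ℂ] ℂ) :
    (∃ f ∈ Ideal.span (Set.range y), z f ≠ 0) ↔ ∃ i, z (y i) ≠ 0 := by
  refine ⟨fun h => ?_, fun ⟨i, h⟩ => ⟨y i, Ideal.subset_span ⟨i, rfl⟩, h⟩⟩
  by_contra hn
  push Not at hn
  obtain ⟨f, hf, h⟩ := h
  exact h ((Ideal.span_le (I := RingHom.ker z)).2 (by rintro _ ⟨i, rfl⟩; exact hn i) hf)

variable {J' V W : Type} [Fintype J'] [DecidableEq J'] [AddCommGroup V] [Module ℂ V]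
  [AddCommGroup W] [Module ℂ W] {c : (J' → ℂˣ) → V →ₗ[ℂ] V} {c' : (J → ℂˣ) → W →ₗ[ℂ] W}

/-- an equivariant map shifts the weights -/
theorem wt_of_equiv (φ : V →ₗ[ℂ] W) (ρ : (J' → ℤ) →+ (J → ℤ)) {γ : J' → ℤ} {v : V}
    (hv : v ∈ wt c γ) (h : ∀ g, φ (c (tor ρ g) v) = c' g (φ v)) : φ v ∈ wt c' (ρ γ) :=
  fun g => by rw [← h, hv, map_smul, chr_tor]

theorem equiv_of_wt (φ : V →ₗ[ℂ] W) (ρ : (J' → ℤ) →+ (J → ℤ)) {γ : J' → ℤ} {v : V}
    (hv : v ∈ wt c γ) (h : φ v ∈ wt c' (ρ γ)) (g : J → ℂˣ) : φ (c (tor ρ g) v) = c' g (φ v) := by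
  rw [hv, h, map_smul, chr_tor]

end gen

/-- a space -/
structure Spc where
  R : Type
  [cr : CommRing R]
  [alg : Algebra ℂ R]
  [ft : Algebra.FiniteType ℂ R]
  J : Type
  [fJ : Fintype J]
  [dJ : DecidableEq J]
  act : (J → ℂˣ) → R →ₐ[ℂ] R
  span : ⨆ γ, wt (fun g => (act g).toLinearMap) γ = ⊤
  b : Ideal R
  b_act : ∀ g, ∀ r ∈ b, act g r ∈ b
  sep : ∀ r : R, (∀ z : R →ₐ[ℂ] ℂ, (∃ f ∈ b, z f ≠ 0) → z r = 0) → r = 0

attribute [instance] Spc.cr Spc.alg Spc.ft Spc.fJ Spc.dJ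

namespace Spc

instance (X : Spc) : IsNoetherianRing X.R := Algebra.FiniteType.isNoetherianRing ℂ X.R

/-- homogeneous elements of degree `γ` -/
def wt (X : Spc) (γ : X.J → ℤ) : Submodule ℂ X.R := P297Z.wt (fun g => (X.act g).toLinearMap) γ

/-- the points (of the cone) -/
def Pt (X : Spc) : Type := {z : X.R →ₐ[ℂ] ℂ // ∃ f ∈ X.b, z f ≠ 0}

/-- the torus acts freely on the points -/
def Free (X : Spc) : Prop :=
  ∀ z : X.Pt, AddSubgroup.closure {γ : X.J → ℤ | ∃ r ∈ X.wt γ, z.1 r ≠ 0} = ⊤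

/-- closed in a product of projective spaces, one for each direction (up to a finite map) -/
def IsProj (X : Spc) : Prop :=
  ∃ s : X.J → Finset X.R, (∀ j, ∀ y ∈ s j, y ∈ X.wt (Pi.single j 1)) ∧
    Module.Finite (Algebra.adjoin ℂ (⋃ j, (s j : Set X.R))) X.R ∧
    ∀ z : X.R →ₐ[ℂ] ℂ, (∃ f ∈ X.b, z f ≠ 0) ↔ ∀ j, ∃ y ∈ s j, z y ≠ 0

/-- two points in the same orbit of the torus -/
def Orb (X : Spc) (z z' : X.Pt) : Prop := ∃ g, z'.1 = z.1.comp (X.act g)

/-- the ideal of a set of points -/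
def van (X : Spc) (Z : Set X.Pt) : Ideal X.R where
  carrier := {r | ∀ z ∈ Z, z.1 r = 0}
  add_mem' := fun {x y} hx hy z hz => by rw [map_add, hx z hz, hy z hz, add_zero]
  zero_mem' := fun z _ => map_zero _
  smul_mem' := fun c x hx z hz => by rw [smul_eq_mul, map_mul, hx z hz, mul_zero]

/-- a set of points stable under the torus -/
def Stab (X : Spc) (Z : Set X.Pt) : Prop := ∀ z ∈ Z, ∀ z', X.Orb z z' → z' ∈ Z

/-- a closed set of points -/
def Clo (X : Spc) (Z : Set X.Pt) : Prop := ∀ z : X.Pt, (∀ r ∈ X.van Z, z.1 r = 0) → z ∈ Z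

/-- the dimension of the cone over the closure of a set of points -/
def cdim (X : Spc) (Z : Set X.Pt) : WithBot ℕ∞ := ringKrullDim (X.R ⧸ X.van Z)

theorem mem_wt {X : Spc} {γ : X.J → ℤ} {r : X.R} :
    r ∈ X.wt γ ↔ ∀ g, X.act g r = chr γ g • r := Iff.rfl

theorem mul_mem {X : Spc} {γ δ : X.J → ℤ} {x y : X.R} (hx : x ∈ X.wt γ) (hy : y ∈ X.wt δ) :
    x * y ∈ X.wt (γ + δ) := mul_mem_wt X.act hx hy

theorem algebraMap_mem (X : Spc) (c : ℂ) : algebraMap ℂ X.R c ∈ X.wt 0 :=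
  mem_wt.2 fun g => by rw [AlgHom.commutes, chr_zero, one_smul]

theorem one_mem (X : Spc) : (1 : X.R) ∈ X.wt 0 :=
  mem_wt.2 fun g => by rw [map_one, chr_zero, one_smul]

theorem pow_mem {X : Spc} {γ : X.J → ℤ} {x : X.R} (hx : x ∈ X.wt γ) (n : ℕ) :
    x ^ n ∈ X.wt (n • γ) := by
  induction n with
  | zero => rw [pow_zero, zero_smul]; exact X.one_mem
  | succ n ih => rw [pow_succ, succ_nsmul]; exact mul_mem ih hx

theorem prod_mem {X : Spc} {ι : Type*} (s : Finset ι) {γ : ι → X.J → ℤ} {x : ι → X.R}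
    (hx : ∀ i ∈ s, x i ∈ X.wt (γ i)) : ∏ i ∈ s, x i ∈ X.wt (∑ i ∈ s, γ i) := by
  classical
  induction s using Finset.induction_on with
  | empty => simpa using X.one_mem
  | insert a t ha ih =>
    rw [Finset.prod_insert ha, Finset.sum_insert ha]
    exact mul_mem (hx a (Finset.mem_insert_self _ _))
      (ih fun i hi => hx i (Finset.mem_insert_of_mem hi))

theorem induction (X : Spc) {P : X.R → Prop} (h0 : P 0) (hw : ∀ γ, ∀ r ∈ X.wt γ, P r)
    (ha : ∀ x y, P x → P y → P (x + y)) (r : X.R) : P r := wt_induction X.span h0 hw ha r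

theorem act_one (X : Spc) (r : X.R) : X.act 1 r = r := P297Z.act_one X.span r

theorem act_mul (X : Spc) (g k : X.J → ℂˣ) (r : X.R) : X.act (g * k) r = X.act g (X.act k r) :=
  P297Z.act_mul X.span g k r

theorem act_inv_act (X : Spc) (g : X.J → ℂˣ) (r : X.R) : X.act g⁻¹ (X.act g r) = r :=
  P297Z.act_inv_act X.span g r

theorem act_act_inv (X : Spc) (g : X.J → ℂˣ) (r : X.R) : X.act g (X.act g⁻¹ r) = r :=
  P297Z.act_act_inv X.span g r

/-- the translate of a point by the torus -/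
def mv {X : Spc} (z : X.Pt) (g : X.J → ℂˣ) : X.Pt :=
  ⟨z.1.comp (X.act g), by
    obtain ⟨f, hf, h⟩ := z.2
    exact ⟨X.act g⁻¹ f, X.b_act _ f hf, by rw [AlgHom.comp_apply, act_act_inv]; exact h⟩⟩

theorem orb_mv {X : Spc} (z : X.Pt) (g : X.J → ℂˣ) : X.Orb z (mv z g) := ⟨g, rfl⟩

theorem Orb.refl {X : Spc} (z : X.Pt) : X.Orb z z :=
  ⟨1, AlgHom.ext fun r => by rw [AlgHom.comp_apply, act_one]⟩

theorem Orb.symm {X : Spc} {z z' : X.Pt} (h : X.Orb z z') : X.Orb z' z := by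
  obtain ⟨g, h⟩ := h
  exact ⟨g⁻¹, AlgHom.ext fun r => by rw [h, AlgHom.comp_apply, AlgHom.comp_apply, act_act_inv]⟩

theorem Orb.trans {X : Spc} {z z' z'' : X.Pt} (h : X.Orb z z') (h' : X.Orb z' z'') :
    X.Orb z z'' := by
  obtain ⟨g, h⟩ := h
  obtain ⟨k, h'⟩ := h'
  exact ⟨g * k, AlgHom.ext fun r => by
    rw [h', h, AlgHom.comp_apply, AlgHom.comp_apply, AlgHom.comp_apply, act_mul]⟩

theorem mem_van {X : Spc} {Z : Set X.Pt} {r : X.R} : r ∈ X.van Z ↔ ∀ z ∈ Z, z.1 r = 0 := Iff.rfl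

theorem van_act {X : Spc} {Z : Set X.Pt} (hZ : X.Stab Z) (g : X.J → ℂˣ) :
    ∀ r ∈ X.van Z, X.act g r ∈ X.van Z := fun r hr z hz => hr _ (hZ z hz _ (orb_mv z g))

theorem ten_induction (X Y : Spc) {P : X.R ⊗[ℂ] Y.R → Prop} (h0 : P 0)
    (hw : ∀ γ δ, ∀ x ∈ X.wt γ, ∀ y ∈ Y.wt δ, P (x ⊗ₜ y)) (ha : ∀ x y, P x → P y → P (x + y))
    (r : X.R ⊗[ℂ] Y.R) : P r := by
  induction r using TensorProduct.induction_on with
  | zero => exact h0
  | add x y hx hy => exact ha x y hx hy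
  | tmul x y =>
    refine X.induction (P := fun x => P (x ⊗ₜ y)) (by simpa using h0) (fun γ x hx => ?_)
      (fun x x' h h' => by rw [TensorProduct.add_tmul]; exact ha _ _ h h') x
    exact Y.induction (P := fun y => P (x ⊗ₜ y)) (by simpa using h0) (fun δ y hy => hw γ δ x hx y hy)
      (fun y y' h h' => by rw [TensorProduct.tmul_add]; exact ha _ _ h h') y

theorem tmul_mem_aux {X Y : Spc} {γ : X.J → ℤ} {δ : Y.J → ℤ} {x : X.R} {y : Y.R}
    (hx : x ∈ X.wt γ) (hy : y ∈ Y.wt δ) : x ⊗ₜ[ℂ] y ∈ P297Z.wt (fun g : X.J ⊕ Y.J → ℂˣ =>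
      (Algebra.TensorProduct.map (X.act fun j => g (.inl j))
        (Y.act fun j => g (.inr j))).toLinearMap) (Sum.elim γ δ) := fun g => by
  rw [AlgHom.toLinearMap_apply, Algebra.TensorProduct.map_tmul, mem_wt.1 hx, mem_wt.1 hy,
    chr_sum_type, TensorProduct.smul_tmul_smul]
  rfl

theorem ten_sep (X Y : Spc) (r : X.R ⊗[ℂ] Y.R)
    (h : ∀ (x : X.Pt) (y : Y.Pt), Algebra.TensorProduct.productMap x.1 y.1 r = 0) : r = 0 := by
  classical
  let e := Module.Basis.ofVectorSpace ℂ Y.R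
  refine (TensorProduct.equivFinsuppOfBasisRight e).map_eq_zero_iff.1 (Finsupp.ext fun i => ?_)
  refine X.sep _ fun x hx => ?_
  let F : X.R ⊗[ℂ] Y.R →ₐ[ℂ] Y.R :=
    Algebra.TensorProduct.productMap ((Algebra.ofId ℂ Y.R).comp x) (AlgHom.id ℂ Y.R)
  have hF : ∀ a b, F (a ⊗ₜ b) = x a • b := fun a b => by
    simp [F, Algebra.smul_def, Algebra.ofId_apply]
  have h1 : ∀ t, x (TensorProduct.equivFinsuppOfBasisRight e t i) = e.repr (F t) i := by
    intro t
    induction t using TensorProduct.induction_on with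
    | zero => simp
    | add a b ha hb => simp only [map_add, Finsupp.add_apply, ha, hb]
    | tmul a b =>
      rw [TensorProduct.equivFinsuppOfBasisRight_apply_tmul_apply, hF, map_smul, map_smul,
        Finsupp.smul_apply, smul_eq_mul, smul_eq_mul, mul_comm]
  have h2 : F r = 0 := Y.sep _ fun y hy => by
    rw [← h ⟨x, hx⟩ ⟨y, hy⟩]
    clear h1 h
    induction r using TensorProduct.induction_on with
    | zero => simp
    | add a b ha hb => simp only [map_add, ha, hb]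
    | tmul a b => rw [hF, map_smul, smul_eq_mul, Algebra.TensorProduct.productMap_apply_tmul]
  rw [h1, h2, map_zero, Finsupp.zero_apply]

theorem mv_sep (X : Spc) {ι : Type} [Nonempty ι] (p : MvPolynomial ι X.R)
    (h : ∀ (x : X.Pt) (y : ι → ℂ), (∃ i, y i ≠ 0) → MvPolynomial.aevalTower x.1 y p = 0) :
    p = 0 := by
  refine MvPolynomial.ext _ _ fun m => X.sep _ fun x hx => ?_
  obtain ⟨i⟩ := ‹Nonempty ι›
  have h1 : MvPolynomial.map (x : X.R →+* ℂ) p * MvPolynomial.X i = 0 :=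
    MvPolynomial.funext fun y => by
      rw [map_mul, MvPolynomial.eval_X, map_zero, MvPolynomial.eval_map]
      by_cases hy : y i = 0
      · rw [hy, mul_zero]
      · exact mul_eq_zero_of_left (h ⟨x, hx⟩ y ⟨i, hy⟩) _
  have h2 := congrArg (MvPolynomial.coeff m)
    ((mul_eq_zero.1 h1).resolve_right (MvPolynomial.X_ne_zero i))
  rwa [MvPolynomial.coeff_map] at h2

/-- the point, with a torus acting trivially -/
def pt (J : Type) [Fintype J] [DecidableEq J] : Spc where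
  R := ℂ
  J := J
  act := fun _ => AlgHom.id ℂ ℂ
  span := iSup_wt_eq_top fun v => mem_iSup_wt (γ := 0) fun g => by rw [chr_zero, one_smul]; rfl
  b := ⊤
  b_act := fun _ _ _ => Submodule.mem_top
  sep := fun r h => h (AlgHom.id ℂ ℂ) ⟨1, Submodule.mem_top, one_ne_zero⟩

/-- the product -/
def prod (X Y : Spc) : Spc where
  R := X.R ⊗[ℂ] Y.R
  ft := Algebra.FiniteType.trans X.ft inferInstance
  J := X.J ⊕ Y.J
  act := fun g => Algebra.TensorProduct.map (X.act fun j => g (.inl j)) (Y.act fun j => g (.inr j))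
  span := iSup_wt_eq_top (ten_induction X Y (Submodule.zero_mem _)
    (fun _ _ _ hx _ hy => mem_iSup_wt (tmul_mem_aux hx hy)) fun _ _ => Submodule.add_mem _)
  b := X.b.map (Algebra.TensorProduct.includeLeft : X.R →ₐ[ℂ] X.R ⊗[ℂ] Y.R) *
    Y.b.map (Algebra.TensorProduct.includeRight : Y.R →ₐ[ℂ] X.R ⊗[ℂ] Y.R)
  b_act := fun g => mul_stab _
    (map_stab _ (X.act fun j => g (.inl j)) _ (fun x => by simp) (X.b_act _))
    (map_stab _ (Y.act fun j => g (.inr j)) _ (fun x => by simp) (Y.b_act _))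
  sep := fun r h => ten_sep X Y r fun x y => h _ (by
    rw [exists_mul_ne, exists_map_ne, exists_map_ne]
    simpa using And.intro x.2 y.2)

/-- the reduced closed subspace: closure of a stable set of points -/
def sub (X : Spc) (Z : Set X.Pt) (hZ : X.Stab Z) : Spc where
  R := X.R ⧸ X.van Z
  J := X.J
  act := fun g => Ideal.quotientMapₐ (X.van Z) (X.act g) (van_act hZ g)
  span := iSup_wt_eq_top fun v => by
    obtain ⟨r, rfl⟩ := Ideal.Quotient.mk_surjective v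
    refine X.induction (P := fun r => Ideal.Quotient.mk (X.van Z) r ∈ _) ?_ (fun γ r hr => ?_)
      (fun x y hx hy => ?_) r
    · rw [map_zero]; exact Submodule.zero_mem _
    · exact mem_iSup_wt (map_mem_wt (Ideal.Quotient.mkₐ ℂ (X.van Z)).toLinearMap
        (fun _ _ => rfl) hr)
    · rw [map_add]; exact Submodule.add_mem _ hx hy
  b := X.b.map (Ideal.Quotient.mk _)
  b_act := fun g => map_stab (Ideal.Quotient.mk (X.van Z)) (X.act g)
    (Ideal.quotientMapₐ (X.van Z) (X.act g) (van_act hZ g)) (fun _ => rfl) (X.b_act g)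
  sep := fun v h => by
    obtain ⟨r, rfl⟩ := Ideal.Quotient.mk_surjective v
    refine Ideal.Quotient.eq_zero_iff_mem.2 fun z hz => ?_
    exact h (Ideal.Quotient.liftₐ (X.van Z) z.1 fun a ha => ha z hz)
      ((exists_map_ne _ _ _).2 z.2)

/-- the projective bundle of a graded free module: new coordinates `y i` of degree `d i` plus the
new direction `none` -/
def adj (X : Spc) (ι : Type) [Fintype ι] [Nonempty ι] (d : ι → X.J → ℤ) : Spc where
  R := MvPolynomial ι X.R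
  ft := Algebra.FiniteType.trans X.ft inferInstance
  J := Option X.J
  act := fun g => MvPolynomial.aevalTower
    ((IsScalarTower.toAlgHom ℂ X.R (MvPolynomial ι X.R)).comp (X.act fun j => g (some j)))
    fun i => (chr (fun j => j.elim 1 (d i)) g) • MvPolynomial.X i
  span := iSup_wt_eq_top fun p => by
    induction p using MvPolynomial.induction_on with
    | C r =>
      refine X.induction (P := fun r => (MvPolynomial.C r : MvPolynomial ι X.R) ∈ _) ?_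
        (fun γ r hr => ?_) (fun x y hx hy => ?_) r
      · rw [map_zero]; exact Submodule.zero_mem _
      · refine mem_iSup_wt (γ := fun j => j.elim 0 γ) fun g => ?_
        rw [AlgHom.toLinearMap_apply, MvPolynomial.aevalTower_C, AlgHom.comp_apply, mem_wt.1 hr,
          map_smul, chr_option]
        simp
      · rw [map_add]; exact Submodule.add_mem _ hx hy
    | add p q hp hq => exact Submodule.add_mem _ hp hq
    | mul_X p i hp =>
      refine mul_mem_iSup_wt _ hp (mem_iSup_wt (γ := fun j => j.elim 1 (d i)) fun g => ?_)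
      rw [AlgHom.toLinearMap_apply, MvPolynomial.aevalTower_X]
  b := X.b.map (MvPolynomial.C : X.R →+* MvPolynomial ι X.R) *
    Ideal.span (Set.range (MvPolynomial.X : ι → MvPolynomial ι X.R))
  b_act := fun g => mul_stab _
    (map_stab _ (X.act fun j => g (some j)) _ (fun x => by simp) (X.b_act _))
    (span_stab _ _ fun i => by
      rw [MvPolynomial.aevalTower_X]
      exact Submodule.smul_of_tower_mem _ _ (Ideal.subset_span ⟨i, rfl⟩))
  sep := fun p h => mv_sep X p fun x y hy => h _ (by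
    rw [exists_mul_ne, exists_map_ne, exists_span_ne]
    simpa using And.intro x.2 hy)

theorem tmul_mem {X Y : Spc} {γ : X.J → ℤ} {δ : Y.J → ℤ} {x : X.R} {y : Y.R}
    (hx : x ∈ X.wt γ) (hy : y ∈ Y.wt δ) : x ⊗ₜ[ℂ] y ∈ (X.prod Y).wt (Sum.elim γ δ) :=
  tmul_mem_aux hx hy

theorem prod_pt (X Y : Spc) (z : X.R ⊗[ℂ] Y.R →ₐ[ℂ] ℂ) : (∃ f ∈ (X.prod Y).b, z f ≠ 0) ↔
    (∃ f ∈ X.b, z (f ⊗ₜ 1) ≠ 0) ∧ ∃ f ∈ Y.b, z (1 ⊗ₜ f) ≠ 0 :=
  (exists_mul_ne _ _ z).trans (and_congr (exists_map_ne _ _ z) (exists_map_ne _ _ z))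

theorem sub_pt (X : Spc) (Z : Set X.Pt) (hZ : X.Stab Z) (z : X.R ⧸ X.van Z →ₐ[ℂ] ℂ) :
    (∃ f ∈ (X.sub Z hZ).b, z f ≠ 0) ↔ ∃ f ∈ X.b, z (Ideal.Quotient.mk _ f) ≠ 0 :=
  exists_map_ne _ _ z

theorem mk_mem {X : Spc} {Z : Set X.Pt} (hZ : X.Stab Z) {γ : X.J → ℤ} {r : X.R}
    (hr : r ∈ X.wt γ) : Ideal.Quotient.mk (X.van Z) r ∈ (X.sub Z hZ).wt γ :=
  map_mem_wt (Ideal.Quotient.mkₐ ℂ (X.van Z)).toLinearMap (fun _ _ => rfl) hr

theorem exists_mk {X : Spc} {Z : Set X.Pt} (hZ : X.Stab Z) {γ : X.J → ℤ} {v : (X.sub Z hZ).R}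
    (hv : v ∈ (X.sub Z hZ).wt γ) : ∃ r ∈ X.wt γ, Ideal.Quotient.mk (X.van Z) r = v := by
  obtain ⟨r, rfl⟩ := Ideal.Quotient.mk_surjective v
  exact exists_wt_preimage X.span (Ideal.Quotient.mkₐ ℂ (X.van Z)).toLinearMap (fun _ _ => rfl) hv

section adj

variable (X : Spc) (ι : Type) [Fintype ι] [Nonempty ι] (d : ι → X.J → ℤ)

theorem adj_pt (z : MvPolynomial ι X.R →ₐ[ℂ] ℂ) : (∃ f ∈ (X.adj ι d).b, z f ≠ 0) ↔
    (∃ f ∈ X.b, z (MvPolynomial.C f) ≠ 0) ∧ ∃ i, z (MvPolynomial.X i) ≠ 0 :=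
  (exists_mul_ne _ _ z).trans (and_congr (exists_map_ne _ _ z) (exists_span_ne _ z))

theorem adj_act_C (g : Option X.J → ℂˣ) (r : X.R) : (X.adj ι d).act g (MvPolynomial.C r) =
    (MvPolynomial.C (X.act (fun j => g (some j)) r) : MvPolynomial ι X.R) :=
  MvPolynomial.aevalTower_C _ _ r

theorem X_mem (i : ι) : (MvPolynomial.X i : MvPolynomial ι X.R) ∈
    (X.adj ι d).wt fun j => j.elim 1 (d i) := fun _ => MvPolynomial.aevalTower_X _ _ i

theorem C_mem {γ : X.J → ℤ} {r : X.R} (hr : r ∈ X.wt γ) :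
    (MvPolynomial.C r : MvPolynomial ι X.R) ∈ (X.adj ι d).wt fun j => j.elim 0 γ :=
  mem_wt.2 fun g => by
    refine (adj_act_C X ι d g r).trans ?_
    rw [mem_wt.1 hr]
    refine (map_smul (IsScalarTower.toAlgHom ℂ X.R (MvPolynomial ι X.R)) _ r).trans ?_
    exact congrArg (fun c : ℂ => c • (MvPolynomial.C r : MvPolynomial ι X.R))
      ((chr_option (fun j => j.elim 0 γ) g).trans (by simp)).symm

end adj

end Spc

end Vale.Agent.P297Z
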