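import Mathlib

/-!
# P297: characters of tori and weight spaces
-/

set_option linter.all false

noncomputable section

namespace Vale.Agent.P297Z

/-- the character of degree `γ` of the torus -/
def chr {J : Type} [Fintype J] (γ : J → ℤ) (g : J → ℂˣ) : ℂ := ((∏ j, g j ^ γ j : ℂˣ) : ℂ)

/-- the homomorphism of tori dual to a homomorphism of lattices -/
def tor {J J' : Type} [Fintype J] [DecidableEq J'] (ρ : (J' → ℤ) →+ (J → ℤ)) (g : J → ℂˣ) :
    J' → ℂˣ := fun j' => ∏ j, g j ^ ρ (Pi.single j' 1) j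

/-- the weight space of degree `γ` -/
def wt {J V : Type} [Fintype J] [AddCommGroup V] [Module ℂ V] (a : (J → ℂˣ) → V →ₗ[ℂ] V)
    (γ : J → ℤ) : Submodule ℂ V where
  carrier := {v | ∀ g, a g v = chr γ g • v}
  add_mem' := fun {x y} hx hy g => by rw [map_add, hx g, hy g, smul_add]
  zero_mem' := fun g => by rw [map_zero, smul_zero]
  smul_mem' := fun c x hx g => by rw [map_smul, hx g, smul_comm]

section chr

variable {J J' : Type} [Fintype J]

@[simp] theorem chr_zero (g : J → ℂˣ) : chr 0 g = 1 := by simp [chr]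

theorem chr_add (γ δ : J → ℤ) (g : J → ℂˣ) : chr (γ + δ) g = chr γ g * chr δ g := by
  simp [chr, zpow_add, Finset.prod_mul_distrib]

theorem chr_ne (γ : J → ℤ) (g : J → ℂˣ) : chr γ g ≠ 0 := Units.ne_zero _

theorem chr_neg (γ : J → ℤ) (g : J → ℂˣ) : chr (-γ) g = (chr γ g)⁻¹ := by
  apply eq_inv_of_mul_eq_one_left
  rw [← chr_add, neg_add_cancel, chr_zero]

theorem chr_neg_mul (γ : J → ℤ) (g : J → ℂˣ) : chr (-γ) g * chr γ g = 1 := by
  rw [← chr_add, neg_add_cancel, chr_zero]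

theorem chr_mul_neg (γ : J → ℤ) (g : J → ℂˣ) : chr γ g * chr (-γ) g = 1 := by
  rw [← chr_add, add_neg_cancel, chr_zero]

theorem chr_sub (γ δ : J → ℤ) (g : J → ℂˣ) : chr (γ - δ) g = chr γ g * (chr δ g)⁻¹ := by
  rw [sub_eq_add_neg, chr_add, chr_neg]

@[simp] theorem chr_one (γ : J → ℤ) : chr γ (1 : J → ℂˣ) = 1 := by simp [chr]

theorem chr_mul (γ : J → ℤ) (g h : J → ℂˣ) : chr γ (g * h) = chr γ g * chr γ h := by
  simp [chr, mul_zpow, Finset.prod_mul_distrib]

theorem chr_inv (γ : J → ℤ) (g : J → ℂˣ) : chr γ g⁻¹ = (chr γ g)⁻¹ := by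
  apply eq_inv_of_mul_eq_one_left
  rw [← chr_mul, inv_mul_cancel, chr_one]

theorem chr_sum {ι : Type*} (s : Finset ι) (γ : ι → J → ℤ) (g : J → ℂˣ) :
    chr (∑ i ∈ s, γ i) g = ∏ i ∈ s, chr (γ i) g := by
  classical
  induction s using Finset.induction_on with
  | empty => simp
  | insert a t ha ih => rw [Finset.sum_insert ha, Finset.prod_insert ha, chr_add, ih]

theorem chr_zsmul (n : ℤ) (γ : J → ℤ) (g : J → ℂˣ) : chr (n • γ) g = chr γ g ^ n := by
  simp only [chr, Pi.smul_apply, smul_eq_mul, ← Units.val_zpow_eq_zpow_val, ← Finset.prod_zpow]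
  congr 1
  exact Finset.prod_congr rfl fun j _ => by rw [mul_comm, zpow_mul]

theorem chr_nsmul (n : ℕ) (γ : J → ℤ) (g : J → ℂˣ) : chr (n • γ) g = chr γ g ^ n := by
  rw [← natCast_zsmul, chr_zsmul, zpow_natCast]

theorem chr_single [DecidableEq J] (j : J) (g : J → ℂˣ) : chr (Pi.single j 1) g = g j := by
  unfold chr
  rw [Finset.prod_eq_single j]
  · simp
  · intro b _ hb
    simp [Pi.single_eq_of_ne hb]
  · simp

theorem chr_eq_prod (γ : J → ℤ) (g : J → ℂˣ) : chr γ g = ∏ j, (g j : ℂ) ^ γ j := by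
  simp [chr]

theorem chr_tor [Fintype J'] [DecidableEq J'] (ρ : (J' → ℤ) →+ (J → ℤ)) (γ : J' → ℤ)
    (g : J → ℂˣ) : chr γ (tor ρ g) = chr (ρ γ) g := by
  have e : γ = ∑ j', γ j' • (Pi.single j' 1 : J' → ℤ) := by
    ext k
    simp [Finset.sum_apply, Pi.single_apply]
  conv_rhs => rw [e, map_sum, chr_sum]
  rw [chr_eq_prod]
  refine Finset.prod_congr rfl fun j' _ => ?_
  rw [map_zsmul, chr_zsmul]
  rfl

theorem chr_ext [DecidableEq J] {g h : J → ℂˣ} (e : ∀ γ, chr γ g = chr γ h) : g = h := by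
  ext j
  rw [← chr_single, e, chr_single]

theorem tor_mul [Fintype J'] [DecidableEq J'] (ρ : (J' → ℤ) →+ (J → ℤ)) (g h : J → ℂˣ) :
    tor ρ (g * h) = tor ρ g * tor ρ h :=
  chr_ext fun γ => by rw [chr_mul, chr_tor, chr_tor, chr_tor, chr_mul]

theorem tor_one [Fintype J'] [DecidableEq J'] (ρ : (J' → ℤ) →+ (J → ℤ)) :
    tor ρ (1 : J → ℂˣ) = 1 :=
  chr_ext fun γ => by rw [chr_tor, chr_one, chr_one]

theorem tor_inv [Fintype J'] [DecidableEq J'] (ρ : (J' → ℤ) →+ (J → ℤ)) (g : J → ℂˣ) :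
    tor ρ g⁻¹ = (tor ρ g)⁻¹ :=
  chr_ext fun γ => by rw [chr_inv, chr_tor, chr_tor, chr_inv]

theorem tor_id [DecidableEq J] (g : J → ℂˣ) : tor (AddMonoidHom.id (J → ℤ)) g = g :=
  chr_ext fun γ => by rw [chr_tor]; rfl

theorem tor_comp {J'' : Type} [Fintype J'] [DecidableEq J'] [Fintype J''] [DecidableEq J'']
    (ρ : (J' → ℤ) →+ (J → ℤ)) (ρ' : (J'' → ℤ) →+ (J' → ℤ)) (g : J → ℂˣ) :
    tor (ρ.comp ρ') g = tor ρ' (tor ρ g) :=
  chr_ext fun γ => by rw [chr_tor, chr_tor, chr_tor]; rfl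

/-- the characters are separated by the torus -/
theorem chr_sep {γ δ : J → ℤ} (h : γ ≠ δ) : ∃ g : J → ℂˣ, chr γ g ≠ chr δ g := by
  classical
  obtain ⟨i, hi⟩ := Function.ne_iff.1 h
  let u : ℂˣ := Units.mk0 2 two_ne_zero
  have key : ∀ ε : J → ℤ, chr ε (Function.update 1 i u) = (2 : ℂ) ^ ε i := by
    intro ε
    rw [chr_eq_prod, Finset.prod_eq_single i]
    · simp [u]
    · intro b _ hb
      simp [Function.update_of_ne hb]
    · simp
  refine ⟨Function.update 1 i u, fun e => hi ?_⟩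
  rw [key, key] at e
  have e3 := congrArg norm e
  rw [norm_zpow, norm_zpow, Complex.norm_two] at e3
  exact zpow_right_injective₀ (by norm_num) (by norm_num) e3

omit [Fintype J] in
/-- the torus is divisible -/
theorem exists_root (g : J → ℂˣ) {n : ℕ} (hn : 0 < n) : ∃ h : J → ℂˣ, h ^ n = g := by
  have : ∀ i, ∃ z : ℂˣ, z ^ n = g i := by
    intro i
    obtain ⟨z, hz⟩ := IsAlgClosed.exists_pow_nat_eq (g i : ℂ) hn
    have h0 : z ≠ 0 := by
      rintro rfl
      rw [zero_pow hn.ne'] at hz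
      exact (g _).ne_zero hz.symm
    exact ⟨Units.mk0 z h0, Units.ext (by simpa using hz)⟩
  choose z hz using this
  exact ⟨z, funext hz⟩

end chr

section wt

variable {J V : Type} [Fintype J] [AddCommGroup V] [Module ℂ V] {a : (J → ℂˣ) → V →ₗ[ℂ] V}

theorem mem_wt {γ : J → ℤ} {v : V} : v ∈ wt a γ ↔ ∀ g, a g v = chr γ g • v := Iff.rfl

theorem act_mem_wt {γ : J → ℤ} {v : V} (h : v ∈ wt a γ) (g : J → ℂˣ) : a g v ∈ wt a γ := by
  rw [h g]; exact Submodule.smul_mem _ _ h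

theorem mem_iSup_wt {γ : J → ℤ} {v : V} (h : v ∈ wt a γ) : v ∈ ⨆ γ, wt a γ :=
  Submodule.mem_iSup_of_mem γ h

theorem iSup_wt_eq_top (h : ∀ v : V, v ∈ ⨆ γ, wt a γ) : ⨆ γ, wt a γ = ⊤ :=
  eq_top_iff.2 fun v _ => h v

theorem exists_sum_wt_of_mem {v : V} (h : v ∈ ⨆ γ, wt a γ) :
    ∃ (s : Finset (J → ℤ)) (f : (J → ℤ) → V), (∀ γ, f γ ∈ wt a γ) ∧ ∑ γ ∈ s, f γ = v := by
  obtain ⟨f, hf, e⟩ := (Submodule.mem_iSup_iff_exists_finsupp _ v).1 h
  exact ⟨f.support, f, hf, e⟩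

theorem exists_sum_wt (h : ⨆ γ, wt a γ = ⊤) (v : V) :
    ∃ (s : Finset (J → ℤ)) (f : (J → ℤ) → V), (∀ γ, f γ ∈ wt a γ) ∧ ∑ γ ∈ s, f γ = v :=
  exists_sum_wt_of_mem (h ▸ Submodule.mem_top)

/-- induction over weight vectors -/
theorem wt_induction (h : ⨆ γ, wt a γ = ⊤) {P : V → Prop} (h0 : P 0)
    (hw : ∀ (γ : J → ℤ) (v : V), v ∈ wt a γ → P v) (ha : ∀ x y, P x → P y → P (x + y)) (v : V) :
    P v := by
  obtain ⟨s, f, hf, rfl⟩ := exists_sum_wt h v
  exact Finset.sum_induction _ P ha h0 fun l _ => hw l _ (hf l)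

theorem act_one (h : ⨆ γ, wt a γ = ⊤) (v : V) : a 1 v = v :=
  wt_induction h (P := fun v => a 1 v = v) (map_zero _)
    (fun γ v hv => by rw [hv 1, chr_one, one_smul])
    (fun x y hx hy => by rw [map_add, hx, hy]) v

theorem act_mul (h : ⨆ γ, wt a γ = ⊤) (g k : J → ℂˣ) (v : V) : a (g * k) v = a g (a k v) :=
  wt_induction h (P := fun v => a (g * k) v = a g (a k v)) (by simp)
    (fun γ v hv => by rw [hv (g * k), hv k, map_smul, hv g, chr_mul, smul_smul, mul_comm])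
    (fun x y hx hy => by rw [map_add, map_add, map_add, hx, hy]) v

theorem act_inv_act (h : ⨆ γ, wt a γ = ⊤) (g : J → ℂˣ) (v : V) : a g⁻¹ (a g v) = v := by
  rw [← act_mul h, inv_mul_cancel, act_one h]

theorem act_act_inv (h : ⨆ γ, wt a γ = ⊤) (g : J → ℂˣ) (v : V) : a g (a g⁻¹ v) = v := by
  rw [← act_mul h, mul_inv_cancel, act_one h]

/-- the components of a vector of a stable subspace lie in the subspace -/
theorem mem_of_sum_mem (S : Submodule ℂ V) (hS : ∀ g, ∀ v ∈ S, a g v ∈ S) (s : Finset (J → ℤ)) :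
    ∀ f : (J → ℤ) → V, (∀ γ, f γ ∈ wt a γ) → ∑ γ ∈ s, f γ ∈ S → ∀ γ ∈ s, f γ ∈ S := by
  classical
  induction s using Finset.induction_on with
  | empty => intro f _ _ l hl; simp at hl
  | insert c t hc ih =>
    intro f hf hs
    have ht : ∀ l ∈ t, f l ∈ S := by
      intro l hl
      obtain ⟨g, hg⟩ := chr_sep (show l ≠ c from fun e => hc (e ▸ hl))
      have h1 : ∑ k ∈ t, (chr k g - chr c g) • f k ∈ S := by
        have h2 := S.sub_mem (hS g _ hs) (S.smul_mem (chr c g) hs)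
        rw [map_sum, Finset.smul_sum, ← Finset.sum_sub_distrib, Finset.sum_insert hc,
          hf c g, sub_self, zero_add] at h2
        convert h2 using 2 with k
        rw [hf k g, sub_smul]
      have h3 := ih _ (fun k => Submodule.smul_mem _ _ (hf k)) h1 l hl
      have h4 := S.smul_mem (chr l g - chr c g)⁻¹ h3
      rwa [smul_smul, inv_mul_cancel₀ (sub_ne_zero.2 hg), one_smul] at h4
    intro l hl
    rcases Finset.mem_insert.1 hl with rfl | hl
    · rw [Finset.sum_insert hc] at hs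
      have := S.sub_mem hs (S.sum_mem ht)
      rwa [add_sub_cancel_right] at this
    · exact ht l hl

/-- induction over the weight vectors of a stable subspace -/
theorem wt_induction_sub (h : ⨆ γ, wt a γ = ⊤) (S : Submodule ℂ V)
    (hS : ∀ g, ∀ v ∈ S, a g v ∈ S) {P : V → Prop} (h0 : P 0)
    (hw : ∀ (γ : J → ℤ) (v : V), v ∈ S → v ∈ wt a γ → P v) (ha : ∀ x y, P x → P y → P (x + y))
    (v : V) (hv : v ∈ S) : P v := by
  obtain ⟨s, f, hf, rfl⟩ := exists_sum_wt h v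
  exact Finset.sum_induction _ P ha h0 fun l hl =>
    hw l _ (mem_of_sum_mem S hS s f hf hv l hl) (hf l)

/-- the weight spaces are independent -/
theorem wt_indep : iSupIndep (wt a) := by
  classical
  rw [iSupIndep_iff_finsetSum_eq_zero_imp_eq_zero]
  intro s v hv h0 l hl
  have := mem_of_sum_mem (a := a) (⊥ : Submodule ℂ V)
    (fun g m hm => by simp [(Submodule.mem_bot ℂ).1 hm])
    s (fun k => if k ∈ s then v k else 0)
    (fun k => by
      split_ifs with hk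
      · exact hv k hk
      · exact Submodule.zero_mem _)
    (by rw [Finset.sum_congr rfl fun k hk => if_pos hk, h0]; exact Submodule.zero_mem _) l hl
  simpa [hl] using this

theorem wt_internal [DecidableEq (J → ℤ)] (h : ⨆ γ, wt a γ = ⊤) : DirectSum.IsInternal (wt a) :=
  DirectSum.isInternal_submodule_of_iSupIndep_of_iSup_eq_top wt_indep h

theorem eq_zero_of_mem_wt {γ δ : J → ℤ} (h : γ ≠ δ) {v : V} (h1 : v ∈ wt a γ) (h2 : v ∈ wt a δ) :
    v = 0 := by
  obtain ⟨g, hg⟩ := chr_sep h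
  have : (chr γ g - chr δ g) • v = 0 := by rw [sub_smul, ← h1 g, ← h2 g, sub_self]
  exact (smul_eq_zero.1 this).resolve_left (sub_ne_zero.2 hg)

/-- a vector of weight `γ` that is a sum of weight vectors is the component of weight `γ` -/
theorem eq_comp_of_sum [DecidableEq (J → ℤ)] {s : Finset (J → ℤ)} {f : (J → ℤ) → V}
    (hf : ∀ γ, f γ ∈ wt a γ) {γ : J → ℤ} {v : V} (hv : v ∈ wt a γ) (e : ∑ k ∈ s, f k = v) :
    v = if γ ∈ s then f γ else 0 := by
  have key := mem_of_sum_mem (a := a) (⊥ : Submodule ℂ V)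
    (fun g m hm => by simp [(Submodule.mem_bot ℂ).1 hm]) (insert γ s)
    (fun k => (if k ∈ s then f k else 0) - if k = γ then v else 0)
    (fun k => Submodule.sub_mem _
      (by
        split_ifs
        · exact hf k
        · exact Submodule.zero_mem _)
      (by
        split_ifs with hk
        · exact hk ▸ hv
        · exact Submodule.zero_mem _))
    (by
      rw [Finset.sum_sub_distrib, Finset.sum_ite_mem, Finset.sum_ite_eq',
        Finset.inter_eq_right.2 (Finset.subset_insert γ s), e]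
      simp) γ (Finset.mem_insert_self γ s)
  simp only [if_true, Submodule.mem_bot] at key
  exact (sub_eq_zero.1 key).symm

/-- the component of weight `γ` -/
def cmp (h : ⨆ γ, wt a γ = ⊤) (γ : J → ℤ) : V →ₗ[ℂ] V :=
  open Classical in
  (wt a γ).subtype ∘ₗ (DirectSum.component ℂ (J → ℤ) (fun γ => wt a γ) γ) ∘ₗ
    (LinearEquiv.ofBijective (DirectSum.coeLinearMap (wt a)) (wt_internal h)).symm.toLinearMap

theorem cmp_mem (h : ⨆ γ, wt a γ = ⊤) (γ : J → ℤ) (v : V) : cmp h γ v ∈ wt a γ :=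
  Subtype.property _

theorem cmp_of_mem (h : ⨆ γ, wt a γ = ⊤) {γ : J → ℤ} {v : V} (hv : v ∈ wt a γ) :
    cmp h γ v = v := by
  classical
  have := (wt_internal h).ofBijective_coeLinearMap_of_mem hv
  exact congrArg Subtype.val this

theorem cmp_of_ne (h : ⨆ γ, wt a γ = ⊤) {γ δ : J → ℤ} (hne : δ ≠ γ) {v : V} (hv : v ∈ wt a δ) :
    cmp h γ v = 0 := by
  classical
  have := (wt_internal h).ofBijective_coeLinearMap_of_mem_ne hne hv
  exact congrArg Subtype.val this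

theorem cmp_sum (h : ⨆ γ, wt a γ = ⊤) [DecidableEq (J → ℤ)] {s : Finset (J → ℤ)}
    {f : (J → ℤ) → V} (hf : ∀ γ, f γ ∈ wt a γ) (γ : J → ℤ) :
    cmp h γ (∑ k ∈ s, f k) = if γ ∈ s then f γ else 0 := by
  rw [map_sum, ← Finset.sum_ite_eq]
  refine Finset.sum_congr rfl fun k _ => ?_
  split_ifs with e
  · exact e ▸ cmp_of_mem h (hf γ)
  · exact cmp_of_ne h (Ne.symm e) (hf k)

/-- a vector is the sum of its components -/
theorem exists_sum_cmp (h : ⨆ γ, wt a γ = ⊤) (v : V) :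
    ∃ s : Finset (J → ℤ), ∑ γ ∈ s, cmp h γ v = v ∧ ∀ γ ∉ s, cmp h γ v = 0 := by
  classical
  obtain ⟨s, f, hf, rfl⟩ := exists_sum_wt h v
  refine ⟨s, Finset.sum_congr rfl fun k hk => ?_, fun k hk => ?_⟩
  · rw [cmp_sum h hf, if_pos hk]
  · rw [cmp_sum h hf, if_neg hk]

theorem cmp_mem_stab (h : ⨆ γ, wt a γ = ⊤) (S : Submodule ℂ V) (hS : ∀ g, ∀ v ∈ S, a g v ∈ S)
    {v : V} (hv : v ∈ S) (γ : J → ℤ) : cmp h γ v ∈ S := by
  obtain ⟨s, e, h0⟩ := exists_sum_cmp h v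
  by_cases hγ : γ ∈ s
  · exact mem_of_sum_mem S hS s (fun γ => cmp h γ v) (fun γ => cmp_mem h γ v) (e.symm ▸ hv) γ hγ
  · rw [h0 γ hγ]; exact S.zero_mem

theorem eq_zero_of_cmp (h : ⨆ γ, wt a γ = ⊤) {v : V} (h0 : ∀ γ, cmp h γ v = 0) : v = 0 := by
  obtain ⟨s, e, -⟩ := exists_sum_cmp h v
  rw [← e]
  exact Finset.sum_eq_zero fun γ _ => h0 γ

variable {W : Type} [AddCommGroup W] [Module ℂ W] {c : (J → ℂˣ) → W →ₗ[ℂ] W}

theorem map_mem_wt (φ : V →ₗ[ℂ] W) (hφ : ∀ g v, φ (a g v) = c g (φ v)) {γ : J → ℤ} {v : V}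
    (h : v ∈ wt a γ) : φ v ∈ wt c γ := fun g => by
  rw [← hφ, h g, map_smul]

/-- a map that shifts the weights by an injective map commutes with the components -/
theorem map_cmp {J' : Type} [Fintype J'] {c : (J' → ℂˣ) → W →ₗ[ℂ] W} (h : ⨆ γ, wt a γ = ⊤)
    (h' : ⨆ γ, wt c γ = ⊤) (φ : V →+ W) (τ : (J → ℤ) → J' → ℤ) (hτ : Function.Injective τ)
    (hφ : ∀ γ, ∀ v ∈ wt a γ, φ v ∈ wt c (τ γ)) (γ : J → ℤ) (v : V) :
    φ (cmp h γ v) = cmp h' (τ γ) (φ v) := by
  refine wt_induction h (P := fun v => φ (cmp h γ v) = cmp h' (τ γ) (φ v)) (by simp) ?_ ?_ v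
  · intro δ v hv
    by_cases e : δ = γ
    · subst e
      rw [cmp_of_mem h hv, cmp_of_mem h' (hφ _ _ hv)]
    · rw [cmp_of_ne h e hv, cmp_of_ne h' (fun e' => e (hτ e')) (hφ _ _ hv), map_zero]
  · intro x y hx hy
    rw [map_add, map_add, map_add, map_add, hx, hy]

/-- a map that preserves the weights commutes with the action -/
theorem map_act_of_wt (h : ⨆ γ, wt a γ = ⊤) (φ : V →ₗ[ℂ] W)
    (hφ : ∀ γ, ∀ v ∈ wt a γ, φ v ∈ wt c γ) (g : J → ℂˣ) (v : V) : φ (a g v) = c g (φ v) :=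
  wt_induction h (P := fun v => φ (a g v) = c g (φ v)) (by simp)
    (fun γ v hv => by rw [hv g, map_smul, hφ γ v hv g])
    (fun x y hx hy => by rw [map_add, map_add, map_add, map_add, hx, hy]) v

/-- a weight vector in the image of an equivariant map is the image of a weight vector -/
theorem exists_wt_preimage (h : ⨆ γ, wt a γ = ⊤) (φ : V →ₗ[ℂ] W)
    (hφ : ∀ g v, φ (a g v) = c g (φ v)) {γ : J → ℤ} {v : V} (hv : φ v ∈ wt c γ) :
    ∃ v' ∈ wt a γ, φ v' = φ v := by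
  classical
  obtain ⟨s, f, hf, rfl⟩ := exists_sum_wt h v
  have := eq_comp_of_sum (s := s) (f := fun k => φ (f k)) (fun k => map_mem_wt φ hφ (hf k)) hv
    (by rw [map_sum])
  refine ⟨if γ ∈ s then f γ else 0, ?_, ?_⟩
  · split_ifs
    · exact hf γ
    · exact Submodule.zero_mem _
  · rw [this]
    split_ifs <;> simp

end wt

end Vale.Agent.P297Z
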